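import Vale.Agent.P078.TypeIII.PointFactor

/-!
# The potential of a finite window and one step at a vertex

`Roots` is the multiset of the real roots `t` of the mixed determinant at the levels `y + t`, and
`pot` its inverse moment.  After the vertex `u` gets the colour `c` and the level `Y`, the roots
are those of the factor with residues `k c`.
-/

namespace Vale.Agent.P078.TypeIII

open Vale.Agent.P078.Mss (NumBound minorMat rootProd)
open Vale.Agent.P078.Mss2 Vale.Agent.P078.TypeIII.RootSum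

open Finset Matrix Polynomial

variable {V : Type*} [Fintype V] [DecidableEq V] {r : ℕ}

/-- The roots of the window. -/
noncomputable def Roots (x : Fin r → Matrix V V ℂ) (p : V → Fin r → ℝ) (y : Fin r → V → ℝ) :
    Multiset ℝ :=
  (pMix x p y univ (fun _ => ∅)).roots

/-- All roots are negative. -/
def NegRoots (x : Fin r → Matrix V V ℂ) (p : V → Fin r → ℝ) (y : Fin r → V → ℝ) : Prop :=
  ∀ t ∈ Roots x p y, t < 0

/-- The potential. -/
noncomputable def pot (x : Fin r → Matrix V V ℂ) (p : V → Fin r → ℝ) (y : Fin r → V → ℝ) (n : ℕ) :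
    ℝ :=
  ((Roots x p y).map (fun t => (-t)⁻¹ ^ n)).sum

variable {x : Fin r → Matrix V V ℂ} {p : V → Fin r → ℝ} {y : Fin r → V → ℝ} {B : ℝ}

lemma roots_eq (hx : ∀ c, (x c).IsHermitian) {m : ℕ} {ρ : Fin m → ℝ}
    (h : ∀ w : ℂ, mix x p (fun c v => (y c v : ℂ) + w) univ (fun _ => ∅) = rootProd ρ w) :
    Roots x p y = (univ : Finset (Fin m)).val.map ρ := by
  have hp : pMix x p y univ (fun _ => ∅) = ∏ i, (X - C (ρ i)) := by
    refine Polynomial.map_injective (algebraMap ℝ ℂ) Complex.ofReal_injective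
      (Polynomial.funext (fun w => ?_))
    rw [eval_map, ← aeval_def, aeval_pMix hx p y univ _ (fun _ => disjoint_empty_right _),
      eval_map, ← aeval_def]
    simp only [mem_univ, if_true, h, rootProd, map_prod, map_sub, aeval_X, aeval_C,
      Complex.coe_algebraMap]
  rw [Roots, hp, Finset.prod_eq_multiset_prod,
    show (fun i => X - C (ρ i)) = (fun b : ℝ => X - C b) ∘ ρ from rfl, ← Multiset.map_map,
    roots_multiset_prod_X_sub_C]

lemma negRoots_iff (hx : ∀ c, (x c).IsHermitian) {m : ℕ} {ρ : Fin m → ℝ}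
    (h : ∀ w : ℂ, mix x p (fun c v => (y c v : ℂ) + w) univ (fun _ => ∅) = rootProd ρ w) :
    NegRoots x p y ↔ ∀ i, ρ i < 0 := by
  simp [NegRoots, roots_eq hx h]

lemma pot_eq (hx : ∀ c, (x c).IsHermitian) {m : ℕ} {ρ : Fin m → ℝ}
    (h : ∀ w : ℂ, mix x p (fun c v => (y c v : ℂ) + w) univ (fun _ => ∅) = rootProd ρ w) (n : ℕ) :
    pot x p y n = invSum ρ n := by
  rw [pot, roots_eq hx h, Multiset.map_map, invSum, Finset.sum_eq_multiset_sum]
  rfl

/-- The law at `u` replaced by the point mass at `c`. -/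
def fixCol (p : V → Fin r → ℝ) (u : V) (c : Fin r) : V → Fin r → ℝ :=
  Function.update p u (fun d => if d = c then 1 else 0)

/-- The level at `u` replaced by `Y` in every colour. -/
def setLevel (y : Fin r → V → ℝ) (u : V) (Y : ℝ) : Fin r → V → ℝ :=
  fun c => Function.update (y c) u Y

omit [Fintype V] in
lemma fixCol_sum (hp1 : ∀ v, ∑ c, p v c = 1) (u : V) (c : Fin r) :
    ∀ v, ∑ d, fixCol p u c v d = 1 := fun v => by
  by_cases hv : v = u
  · subst hv; simp [fixCol]
  · simp [fixCol, hv, hp1]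

omit [Fintype V] in
lemma fixCol_nonneg (hp : ∀ v c, 0 ≤ p v c) (u : V) (c : Fin r) :
    ∀ v d, 0 ≤ fixCol p u c v d := fun v d => by
  by_cases hv : v = u
  · subst hv
    simp only [fixCol, Function.update_self]
    split_ifs <;> norm_num
  · simpa [fixCol, hv] using hp v d

/-- The window after `u` received colour `c` and level `Y`. -/
theorem mix_child (hp1 : ∀ v, ∑ c, p v c = 1) {u : V} {n : ℕ} {b : Fin n → ℝ}
    {k : Fin r → Fin n → ℝ}
    (hb : ∀ w : ℂ, mix x p (fun c v => (y c v : ℂ) + w) (univ.erase u) (fun _ => ∅) = rootProd b w)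
    (hk : ∀ c (w : ℂ), mix x p (fun c v => (y c v : ℂ) + w) (univ.erase u) (adj (fun _ => ∅) c u)
        = rootProd b w * ((y c u : ℂ) + w) - ∑ i, (k c i : ℂ) * ∏ j ∈ univ.erase i, (w - b j))
    (c : Fin r) (Y : ℝ) (w : ℂ) :
    mix x (fixCol p u c) (fun d v => (setLevel y u Y d v : ℂ) + w) univ (fun _ => ∅)
      = rootProd b w * ((Y : ℂ) + w) - ∑ i, (k c i : ℂ) * ∏ j ∈ univ.erase i, (w - b j) := by
  set U := (univ : Finset V).erase u with hU
  have huU : u ∉ U := notMem_erase _ _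
  have hins : insert u U = univ := insert_erase (mem_univ u)
  have hsum := fixCol_sum hp1 u c
  rw [← hins, mix_insert hsum huU, sum_eq_single c (fun d _ hd => by simp [fixCol, hd]) (by simp)]
  rw [show fixCol p u c u c = 1 by simp [fixCol], Complex.ofReal_one, one_mul,
    mix_p_congr hsum hp1 (fun v hv => Function.update_of_ne (ne_of_mem_erase hv) _ _)]
  change mix x p _ U (adj (fun _ => ∅) c u) = _
  set z : Fin r → V → ℂ := fun d v => (y d v : ℂ) + w with hz
  have e1 : mix x p (fun d v => (setLevel y u Y d v : ℂ) + w) U (adj (fun _ => ∅) c u)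
      = mix x p (setVar z c u ((Y : ℂ) + w)) U (adj (fun _ => ∅) c u) := by
    refine sum_congr rfl (fun f _ => congrArg _ (prod_congr rfl (fun d _ => ?_)))
    refine minorMat_det_congr _ (fun i hi => ?_)
    rcases mem_union.1 hi with hl | hr'
    · by_cases hd : d = c
      · subst hd
        simp only [adj, Function.update_self, insert_empty_eq, mem_singleton] at hl
        subst hl
        simp [setVar, setLevel]
      · simp [adj, Function.update_of_ne hd] at hl
    · have hne : i ≠ u := fun e => huU (e ▸ (mem_filter.1 hr').1)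
      by_cases hd : d = c
      · subst hd
        simp [setVar, setLevel, z, hne]
      · simp [setVar, setLevel, z, hne, Function.update_of_ne hd]
  have h1 := mix_affine' (x := x) (z := z) hp1 U (fun _ => ∅) c u huU (notMem_empty _)
    ((Y : ℂ) + w)
  have h2 := mix_affine' (x := x) (z := z) hp1 U (fun _ => ∅) c u huU (notMem_empty _)
    ((y c u : ℂ) + w)
  rw [show setVar z c u ((y c u : ℂ) + w) = z by simp [setVar, z]] at h2
  rw [e1, h1, hb w]
  have h3 := hk c w
  rw [h2, hb w] at h3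
  linear_combination h3

/-- The roots of the window after the step. -/
theorem exists_child_roots (hp1 : ∀ v, ∑ c, p v c = 1) {u : V} {n : ℕ} {b : Fin n → ℝ}
    {k : Fin r → Fin n → ℝ}
    (hb : ∀ w : ℂ, mix x p (fun c v => (y c v : ℂ) + w) (univ.erase u) (fun _ => ∅) = rootProd b w)
    (hk0 : ∀ c i, 0 ≤ k c i)
    (hk : ∀ c (w : ℂ), mix x p (fun c v => (y c v : ℂ) + w) (univ.erase u) (adj (fun _ => ∅) c u)
        = rootProd b w * ((y c u : ℂ) + w) - ∑ i, (k c i : ℂ) * ∏ j ∈ univ.erase i, (w - b j))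
    (c : Fin r) (Y : ℝ) :
    ∃ ρ : Fin (n + 1) → ℝ, Factor b (k c) Y ρ ∧ ∀ w : ℂ,
      mix x (fixCol p u c) (fun d v => (setLevel y u Y d v : ℂ) + w) univ (fun _ => ∅)
        = rootProd ρ w := by
  obtain ⟨ρ, hρ⟩ := exists_factor_roots b (k c) (hk0 c) Y
  exact ⟨ρ, hρ, fun w => by rw [mix_child hp1 hb hk c Y w, rootProd_of_factor hρ]⟩

/-- The roots of the window before the step. -/
theorem exists_parent_roots (hp : ∀ v c, 0 ≤ p v c) (hp1 : ∀ v, ∑ c, p v c = 1) {u : V} {n : ℕ}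
    {b : Fin n → ℝ} {k : Fin r → Fin n → ℝ} (hk0 : ∀ c i, 0 ≤ k c i)
    (hk : ∀ c (w : ℂ), mix x p (fun c v => (y c v : ℂ) + w) (univ.erase u) (adj (fun _ => ∅) c u)
        = rootProd b w * ((y c u : ℂ) + w) - ∑ i, (k c i : ℂ) * ∏ j ∈ univ.erase i, (w - b j)) :
    ∃ ρ : Fin (n + 1) → ℝ, Factor b (fun i => ∑ c, p u c * k c i) (∑ c, p u c * y c u) ρ ∧
      ∀ w : ℂ, mix x p (fun c v => (y c v : ℂ) + w) univ (fun _ => ∅) = rootProd ρ w := by
  obtain ⟨ρ, hρ⟩ := exists_factor_roots b (fun i => ∑ c, p u c * k c i)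
    (fun i => sum_nonneg (fun c _ => mul_nonneg (hp u c) (hk0 c i))) (∑ c, p u c * y c u)
  exact ⟨ρ, hρ, fun w => by rw [mix_pointFactor hp1 hk w, rootProd_of_factor hρ]⟩

/-- The rational factor at a real point off the poles is a ratio of mixed determinants. -/
theorem factor_ratio {n m : ℕ} {b k : Fin n → ℝ} {A₀ : ℝ} {ρ : Fin m → ℝ} (h : Factor b k A₀ ρ)
    {t : ℝ} (ht : ∀ i, t ≠ b i) :
    A₀ + t - ∑ i, k i * (t - b i)⁻¹ = (∏ l, (t - ρ l)) / ∏ j, (t - b j) := by
  rw [eq_div_iff (prod_ne_zero_iff.2 (fun j _ => sub_ne_zero.2 (ht j))), h t, sub_mul, sum_mul]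
  congr 1
  · ring
  · refine sum_congr rfl (fun i _ => ?_)
    rw [← mul_prod_erase univ (fun j => t - b j) (mem_univ i)]
    have := sub_ne_zero.2 (ht i)
    field_simp

/-- **One step in a window**: `u` is uniform, gets the colour `c` and the level `Y c` with
probability `q c`, and is taken out otherwise. -/
theorem window_step (hr : 0 < r) (hx : ∀ c, (x c).IsHermitian) (hp : ∀ v c, 0 ≤ p v c)
    (hp1 : ∀ v, ∑ c, p v c = 1) {u : V} (hu : ∀ c, p u c = 1 / (r : ℝ)) {yu : ℝ}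
    (hyu : ∀ c, y c u = yu) {n : ℕ} {b : Fin n → ℝ} {k : Fin r → Fin n → ℝ}
    (hb : ∀ w : ℂ, mix x p (fun c v => (y c v : ℂ) + w) (univ.erase u) (fun _ => ∅) = rootProd b w)
    (hk0 : ∀ c i, 0 ≤ k c i)
    (hk : ∀ c (w : ℂ), mix x p (fun c v => (y c v : ℂ) + w) (univ.erase u) (adj (fun _ => ∅) c u)
        = rootProd b w * ((y c u : ℂ) + w) - ∑ i, (k c i : ℂ) * ∏ j ∈ univ.erase i, (w - b j))
    (hneg : NegRoots x p y) {q Y : Fin r → ℝ} {A' M L : ℝ} {e : ℕ} (he : 2 ≤ e)
    (hq : ∀ c, 0 ≤ q c) (hq2 : ∀ c, q c ≤ 2 / r) (hq1 : ∑ c, q c ≤ 1) (hA' : 0 < A')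
    (hlev : ∀ c, q c ≠ 0 → A' ≤ level b (k c) (Y c))
    (hM : ∀ c, q c ≠ 0 → 1 + poleMom b (k c) 2 ≤ M * A')
    (hM0 : 0 ≤ M) (hL : 0 < L)
    (hpar : 2 * (1 + M / L) ^ e * level b (fun i => ∑ c, p u c * k c i) yu ≤ A') :
    (∀ c, q c ≠ 0 → NegRoots x (fixCol p u c) (setLevel y u (Y c))) ∧
      ∑ c, q c * pot x (fixCol p u c) (setLevel y u (Y c)) e + (1 - ∑ c, q c) * invSum b e
        ≤ pot x p y e + e * M * (L + M) ^ (e - 1) := by
  obtain ⟨ρ₀, hf₀, hr₀⟩ := exists_parent_roots hp hp1 hk0 hk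
  have hsum : ∑ c, p u c * y c u = yu := by
    simp only [hyu, ← sum_mul, hp1, one_mul]
  rw [hsum] at hf₀
  choose ρ hf hρ using fun c => exists_child_roots hp1 hb hk0 hk c (Y c)
  have hρ₀ := (negRoots_iff hx hr₀).1 hneg
  have hkbar : ∀ i, 0 ≤ ∑ c, p u c * k c i := fun i =>
    sum_nonneg (fun c _ => mul_nonneg (hp u c) (hk0 c i))
  have hr' : (r : ℝ) ≠ 0 := by exact_mod_cast hr.ne'
  obtain ⟨h1, h2⟩ := rootSum_step hr he (fun i => hf₀.poles_neg hkbar hρ₀ i) hρ₀ hkbar hf₀ hq hq2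
    hq1 hk0 (k := k) (fun t => by
      simp only [hu, mul_sum, sum_mul]
      rw [sum_comm]
      exact sum_congr rfl (fun i _ => sum_congr rfl (fun c _ => by field_simp)))
    (fun c _ => hf c) hA' hlev hM hM0 hL hpar
  refine ⟨fun c hc => (negRoots_iff hx (hρ c)).2 (h1 c hc), ?_⟩
  simpa only [pot_eq hx hr₀, fun c => pot_eq hx (hρ c)] using h2

end Vale.Agent.P078.TypeIII
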