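import Mathlib

/-!
# Two Chebyshev polynomials

A nonnegative polynomial of degree `2N` separating an interval from a point at distance `d`, and a
polynomial of degree `< N` approximating `1/(-t)` on an interval left of `0`. Both errors decay
like `exp (-N √(d / length))`.
-/

namespace Vale.Agent.P078.TypeIII

open Polynomial Real

/-- `T_N` at `x ≥ cosh θ` is at least `exp (N θ) / 2`. -/
lemma exp_half_le_T (N : ℕ) {θ x : ℝ} (hθ : 0 ≤ θ) (hx : cosh θ ≤ x) :
    exp (N * θ) / 2 ≤ (Chebyshev.T ℝ (N : ℤ)).eval x := by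
  have h1 : 1 ≤ x := (one_le_cosh θ).trans hx
  have e : x = cosh (arcosh x) := (cosh_arcosh h1).symm
  have hle : θ ≤ arcosh x := by
    rw [e] at hx
    have := (cosh_le_cosh.1 hx)
    rwa [abs_of_nonneg hθ, abs_of_nonneg (arcosh_nonneg h1)] at this
  rw [e, Chebyshev.T_real_cosh, Int.cast_natCast]
  have hN : (N : ℝ) * θ ≤ N * arcosh x := mul_le_mul_of_nonneg_left hle (Nat.cast_nonneg N)
  rw [cosh_eq]
  have := exp_le_exp.2 hN
  have := exp_pos (-(N * arcosh x))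
  linarith

/-- `cosh √δ ≤ 1 + δ` for `δ ≤ 1`. -/
lemma cosh_sqrt_le {δ : ℝ} (h0 : 0 ≤ δ) (h1 : δ ≤ 1) : cosh (sqrt δ) ≤ 1 + δ := by
  refine (cosh_le_exp_half_sq _).trans ?_
  rw [sq_sqrt h0]
  have h := abs_exp_sub_one_sub_id_le (x := δ / 2) (by rw [abs_of_nonneg (by linarith)]; linarith)
  have := (abs_le.1 h).2
  nlinarith

lemma natDegree_T_le (N : ℕ) : (Chebyshev.T ℝ (N : ℤ)).natDegree ≤ N :=
  natDegree_le_of_degree_le (by rw [Chebyshev.degree_T]; simp)

/-- A nonnegative polynomial, at least `1` right of `b + d` and exponentially small on `[a, b]`. -/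
theorem exists_separating_poly (N : ℕ) {a b d : ℝ} (hab : a < b) (hd : 0 < d)
    (hd2 : 2 * d ≤ b - a) :
    ∃ q : ℝ[X], q.natDegree ≤ 2 * N ∧ (∀ t, 0 ≤ q.eval t) ∧ (∀ t, b + d ≤ t → 1 ≤ q.eval t) ∧
      ∀ t, a ≤ t → t ≤ b → q.eval t ≤ 4 * exp (-(2 * N * sqrt (2 * d / (b - a)))) := by
  have hL : 0 < b - a := by linarith
  set δ := 2 * d / (b - a) with hδ
  set θ := sqrt δ with hθ
  have hδ0 : 0 ≤ δ := by positivity
  have hδ1 : δ ≤ 1 := by rw [hδ, div_le_one hL]; linarith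
  have hθ0 : 0 ≤ θ := sqrt_nonneg δ
  set T := Chebyshev.T ℝ (N : ℤ) with hT
  set l : ℝ[X] := C (2 / (b - a)) * X + C (-(a + b) / (b - a)) with hl
  have hleval : ∀ t, l.eval t = (2 * t - a - b) / (b - a) := fun t => by
    simp only [hl, eval_add, eval_mul, eval_C, eval_X]; ring
  set m := exp (N * θ) / 2 with hm
  have hm0 : 0 < m := by positivity
  refine ⟨C ((m ^ 2)⁻¹) * (T.comp l) ^ 2, ?_, fun t => ?_, fun t ht => ?_, fun t hta htb => ?_⟩
  · refine (natDegree_C_mul_le _ _).trans (natDegree_pow_le.trans ?_)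
    refine Nat.mul_le_mul_left 2 (natDegree_comp_le.trans ?_)
    calc T.natDegree * l.natDegree ≤ N * 1 :=
          Nat.mul_le_mul (natDegree_T_le N) (natDegree_linear_le)
      _ = N := mul_one N
  · rw [eval_mul, eval_C, eval_pow]; positivity
  · rw [eval_mul, eval_C, eval_pow, eval_comp, le_inv_mul_iff₀ (by positivity), mul_one]
    refine pow_le_pow_left₀ hm0.le (exp_half_le_T N hθ0 ((cosh_sqrt_le hδ0 hδ1).trans ?_)) 2
    rw [hleval, hδ, le_div_iff₀ hL, add_mul, div_mul_cancel₀ _ hL.ne']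
    linarith
  · rw [eval_mul, eval_C, eval_pow, eval_comp]
    have hb : |T.eval (l.eval t)| ≤ 1 := by
      refine Chebyshev.abs_eval_T_real_le_one _ ?_
      rw [hleval, abs_le, le_div_iff₀ hL, div_le_iff₀ hL]
      constructor <;> linarith
    have h2 : T.eval (l.eval t) ^ 2 ≤ 1 := by
      rw [← sq_abs]; exact pow_le_one₀ (abs_nonneg _) hb
    refine (mul_le_of_le_one_right (by positivity) h2).trans (le_of_eq ?_)
    rw [hm, div_pow, inv_div, exp_neg, mul_assoc, ← exp_nat_mul]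
    norm_num [div_eq_mul_inv]

/-- A polynomial of degree `< N` approximating `1/(-t)` on `[a, b]`, `b < 0`. -/
theorem exists_inv_poly (N : ℕ) {a b : ℝ} (hab : a < b) (hb : b < 0)
    (hb2 : -(2 * b) ≤ b - a) :
    ∃ p : ℝ[X], p.natDegree ≤ N - 1 ∧ ∀ t, a ≤ t → t ≤ b →
      |1 / (-t) - p.eval t| ≤ 2 / (-b) * exp (-(N * sqrt (-(2 * b) / (b - a)))) := by
  have hL : 0 < b - a := by linarith
  set δ := -(2 * b) / (b - a) with hδ
  set θ := sqrt δ with hθ
  have hδ0 : 0 ≤ δ := div_nonneg (by linarith) hL.le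
  have hδ1 : δ ≤ 1 := by rw [hδ, div_le_one hL]; linarith
  have hθ0 : 0 ≤ θ := sqrt_nonneg δ
  set l : ℝ[X] := C (2 / (b - a)) * X + C (-(a + b) / (b - a)) with hl
  have hleval : ∀ t, l.eval t = (2 * t - a - b) / (b - a) := fun t => by
    simp only [hl, eval_add, eval_mul, eval_C, eval_X]; ring
  set S := (Chebyshev.T ℝ (N : ℤ)).comp l with hS
  have hS0 : exp (N * θ) / 2 ≤ S.eval 0 := by
    rw [hS, eval_comp]
    refine exp_half_le_T N hθ0 ((cosh_sqrt_le hδ0 hδ1).trans ?_)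
    rw [hleval, hδ, le_div_iff₀ hL, add_mul, div_mul_cancel₀ _ hL.ne']
    linarith
  have hS0' : 0 < S.eval 0 := lt_of_lt_of_le (by positivity) hS0
  set U : ℝ[X] := C (S.eval 0)⁻¹ * S - 1 with hU
  have hU0 : U.coeff 0 = 0 := by
    rw [coeff_zero_eq_eval_zero, hU, eval_sub, eval_mul, eval_C, eval_one,
      inv_mul_cancel₀ hS0'.ne', sub_self]
  refine ⟨U.divX, ?_, fun t hta htb => ?_⟩
  · rw [natDegree_divX_eq_natDegree_tsub_one]
    refine Nat.sub_le_sub_right ?_ 1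
    rw [hU]
    refine (natDegree_sub_le _ _).trans (max_le ?_ (by simp))
    refine (natDegree_C_mul_le _ _).trans (natDegree_comp_le.trans ?_)
    calc (Chebyshev.T ℝ (N : ℤ)).natDegree * l.natDegree ≤ N * 1 :=
          Nat.mul_le_mul (natDegree_T_le N) (natDegree_linear_le)
      _ = N := mul_one N
  · have ht : t < 0 := by linarith
    have e : U.divX.eval t * t = (S.eval 0)⁻¹ * S.eval t - 1 := by
      have h := congrArg (fun q : ℝ[X] => q.eval t) (divX_mul_X_add U)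
      simp only [eval_add, eval_mul, eval_X, eval_C, hU0, add_zero] at h
      rw [h, hU, eval_sub, eval_mul, eval_C, eval_one]
    have e2 : 1 / -t - U.divX.eval t = (S.eval 0)⁻¹ * S.eval t / -t := by
      rw [eq_div_iff (neg_ne_zero.2 ht.ne), sub_mul, div_mul_cancel₀ _ (neg_ne_zero.2 ht.ne)]
      linarith
    have hb' : |S.eval t| ≤ 1 := by
      rw [hS, eval_comp]
      refine Chebyshev.abs_eval_T_real_le_one _ ?_
      rw [hleval, abs_le, le_div_iff₀ hL, div_le_iff₀ hL]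
      constructor <;> linarith
    rw [e2, abs_div, abs_mul, abs_of_pos (inv_pos.2 hS0'), abs_of_pos (neg_pos.2 ht)]
    calc (S.eval 0)⁻¹ * |S.eval t| / -t ≤ (exp (N * θ) / 2)⁻¹ * 1 / -b := by
          gcongr
          linarith
      _ = 2 / -b * exp (-(N * θ)) := by rw [exp_neg, inv_div]; ring

/-- Two atomic measures with the same moments up to `D` integrate every polynomial of degree `≤ D`
alike. -/
lemma sum_eval_congr {ι κ : Type*} (s : Finset ι) (s' : Finset κ) (k x : ι → ℝ) (k' x' : κ → ℝ)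
    {D : ℕ} (h : ∀ j ≤ D, ∑ i ∈ s, k i * x i ^ j = ∑ i ∈ s', k' i * x' i ^ j) {q : ℝ[X]}
    (hq : q.natDegree ≤ D) :
    ∑ i ∈ s, k i * q.eval (x i) = ∑ i ∈ s', k' i * q.eval (x' i) := by
  simp only [eval_eq_sum_range' (Nat.lt_succ_of_le hq), Finset.mul_sum]
  rw [Finset.sum_comm, Finset.sum_comm (s := s')]
  refine Finset.sum_congr rfl fun j hj => ?_
  simp only [mul_left_comm _ (q.coeff j), ← Finset.mul_sum,
    h j (Nat.le_of_lt_succ (Finset.mem_range.1 hj))]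

/-- Near mass: if the comparison measure lives on `[a, b]`, a measure with the same moments up to
`2N` has mass at most `ε` times the comparison mass right of `b + d`. -/
theorem near_mass_le {ι κ : Type*} (N : ℕ) {a b d : ℝ} (hab : a < b) (hd : 0 < d)
    (hd2 : 2 * d ≤ b - a) (s : Finset ι) (s' : Finset κ) (k x : ι → ℝ) (k' x' : κ → ℝ)
    (hk : ∀ i ∈ s, 0 ≤ k i) (hk' : ∀ i ∈ s', 0 ≤ k' i)
    (hx' : ∀ i ∈ s', k' i = 0 ∨ (a ≤ x' i ∧ x' i ≤ b))
    (h : ∀ j ≤ 2 * N, ∑ i ∈ s, k i * x i ^ j = ∑ i ∈ s', k' i * x' i ^ j) :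
    ∑ i ∈ s.filter (fun i => b + d ≤ x i), k i ≤
      4 * exp (-(2 * N * sqrt (2 * d / (b - a)))) * ∑ i ∈ s', k' i := by
  obtain ⟨q, hdeg, h0, h1, hsmall⟩ := exists_separating_poly N hab hd hd2
  calc ∑ i ∈ s.filter (fun i => b + d ≤ x i), k i
      ≤ ∑ i ∈ s.filter (fun i => b + d ≤ x i), k i * q.eval (x i) :=
        Finset.sum_le_sum fun i hi => le_mul_of_one_le_right (hk i (Finset.mem_filter.1 hi).1)
          (h1 _ (Finset.mem_filter.1 hi).2)
    _ ≤ ∑ i ∈ s, k i * q.eval (x i) :=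
        Finset.sum_le_sum_of_subset_of_nonneg (Finset.filter_subset _ _)
          fun i hi _ => mul_nonneg (hk i hi) (h0 _)
    _ = ∑ i ∈ s', k' i * q.eval (x' i) := sum_eval_congr s s' k x k' x' h hdeg
    _ ≤ ∑ i ∈ s', 4 * exp (-(2 * N * sqrt (2 * d / (b - a)))) * k' i := by
        refine Finset.sum_le_sum fun i hi => ?_
        rcases hx' i hi with h2 | ⟨h2, h3⟩
        · simp [h2]
        · rw [mul_comm (4 * exp _)]
          exact mul_le_mul_of_nonneg_left (hsmall _ h2 h3) (hk' i hi)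
    _ = _ := by rw [Finset.mul_sum]

/-- Locality of `∑ k/(-x)`: two measures on `[a, b]`, `b < 0`, with the same moments up to `N - 1`. -/
theorem inv_sum_sub_le {ι κ : Type*} (N : ℕ) {a b : ℝ} (hab : a < b) (hb : b < 0)
    (hb2 : -(2 * b) ≤ b - a) (s : Finset ι) (s' : Finset κ) (k x : ι → ℝ) (k' x' : κ → ℝ)
    (hk : ∀ i ∈ s, 0 ≤ k i) (hk' : ∀ i ∈ s', 0 ≤ k' i)
    (hx : ∀ i ∈ s, k i = 0 ∨ (a ≤ x i ∧ x i ≤ b))
    (hx' : ∀ i ∈ s', k' i = 0 ∨ (a ≤ x' i ∧ x' i ≤ b))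
    (h : ∀ j ≤ N - 1, ∑ i ∈ s, k i * x i ^ j = ∑ i ∈ s', k' i * x' i ^ j) :
    |∑ i ∈ s, k i / -x i - ∑ i ∈ s', k' i / -x' i| ≤
      2 / -b * exp (-(N * sqrt (-(2 * b) / (b - a)))) * (∑ i ∈ s, k i + ∑ i ∈ s', k' i) := by
  obtain ⟨p, hdeg, hp⟩ := exists_inv_poly N hab hb hb2
  set ε := 2 / -b * exp (-(N * sqrt (-(2 * b) / (b - a))))
  have e := sum_eval_congr s s' k x k' x' h hdeg
  have hw : ∀ (w t : ℝ), 0 ≤ w → (w = 0 ∨ (a ≤ t ∧ t ≤ b)) → |w / -t - w * p.eval t| ≤ ε * w := by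
    intro w t hw0 ht
    rcases ht with rfl | ⟨h1, h2⟩
    · simp
    · rw [show w / -t - w * p.eval t = w * (1 / -t - p.eval t) by ring, abs_mul, abs_of_nonneg hw0,
        mul_comm ε]
      exact mul_le_mul_of_nonneg_left (hp t h1 h2) hw0
  have e1 : |∑ i ∈ s, k i / -x i - ∑ i ∈ s, k i * p.eval (x i)| ≤ ε * ∑ i ∈ s, k i := by
    rw [← Finset.sum_sub_distrib, Finset.mul_sum]
    exact (Finset.abs_sum_le_sum_abs _ _).trans
      (Finset.sum_le_sum fun i hi => hw _ _ (hk i hi) (hx i hi))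
  have e2 : |∑ i ∈ s', k' i / -x' i - ∑ i ∈ s', k' i * p.eval (x' i)| ≤ ε * ∑ i ∈ s', k' i := by
    rw [← Finset.sum_sub_distrib, Finset.mul_sum]
    exact (Finset.abs_sum_le_sum_abs _ _).trans
      (Finset.sum_le_sum fun i hi => hw _ _ (hk' i hi) (hx' i hi))
  rw [abs_le] at e1 e2 ⊢
  constructor <;> linarith [e1.1, e1.2, e2.1, e2.2, mul_add ε (∑ i ∈ s, k i) (∑ i ∈ s', k' i)]

end Vale.Agent.P078.TypeIII
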