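import Mathlib.RingTheory.PowerSeries.Derivative
import Mathlib.RingTheory.PowerSeries.WellKnown
import Mathlib.Algebra.Polynomial.Roots
import Mathlib.Analysis.SpecificLimits.Basic
import Mathlib.Tactic

/-!
# Inverse root moments under one rank-one step

If `P(t) = Q(t) * (A₀ + t - ∑ k i / (t - b i))` with `k ≥ 0` and all roots of `Q` negative, then the
inverse power sums of the roots of `P` exceed those of `Q` by a quantity which is squeezed between
linear expressions in `k`.
-/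

namespace Vale.Agent.P078.TypeIII.RootSum

open Finset

/-- The inverse power sum of negative roots. -/
noncomputable def invSum {ι : Type*} [Fintype ι] (ρ : ι → ℝ) (n : ℕ) : ℝ := ∑ i, (-ρ i)⁻¹ ^ n

/-- `∑ l < n, (x + M)^l x^(n-1-l)`. -/
def phi (M x : ℝ) : ℕ → ℝ
  | 0 => 0
  | n + 1 => (x + M) * phi M x n + x ^ n

lemma phi_nonneg {M x : ℝ} (hM : 0 ≤ M) (hx : 0 ≤ x) : ∀ n, 0 ≤ phi M x n
  | 0 => le_rfl
  | n + 1 => by have := phi_nonneg hM hx n; simp only [phi]; positivity

lemma phi_mono {M x x' : ℝ} (hM : 0 ≤ M) (hx : 0 ≤ x) (h : x ≤ x') :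
    ∀ n, phi M x n ≤ phi M x' n
  | 0 => le_rfl
  | n + 1 => by
    have h1 := phi_mono hM hx h n
    have h2 := phi_nonneg hM hx n
    have h3 := pow_le_pow_left₀ hx h n
    simp only [phi]
    gcongr
    linarith

lemma phi_le {M x : ℝ} (hM : 0 ≤ M) (hx : 0 ≤ x) :
    ∀ n, phi M x (n + 1) ≤ (n + 1) * (x + M) ^ n
  | 0 => by simp [phi]
  | n + 1 => by
    have h1 := phi_le hM hx n
    have h3 : x ^ (n + 1) ≤ (x + M) ^ (n + 1) := pow_le_pow_left₀ hx (by linarith) _
    have h2 : (x + M) * phi M x (n + 1) ≤ (x + M) * ((n + 1) * (x + M) ^ n) :=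
      mul_le_mul_of_nonneg_left h1 (by linarith)
    rw [phi]
    push_cast
    calc (x + M) * phi M x (n + 1) + x ^ (n + 1)
        ≤ (x + M) * ((n + 1) * (x + M) ^ n) + (x + M) ^ (n + 1) := add_le_add h2 h3
      _ = _ := by ring

lemma phi_conv (M x : ℝ) : ∀ n : ℕ,
    (n + 1) * x ^ n + M * ∑ i ∈ range (n + 1), x ^ i * phi M x (n - i) = phi M x (n + 1)
  | 0 => by simp [phi]
  | n + 1 => by
    have ih := phi_conv M x n
    rw [sum_range_succ']
    have e : ∑ i ∈ range (n + 1), x ^ (i + 1) * phi M x (n + 1 - (i + 1))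
        = x * ∑ i ∈ range (n + 1), x ^ i * phi M x (n - i) := by
      rw [mul_sum]
      exact sum_congr rfl (fun i _ => by rw [Nat.add_sub_add_right]; ring)
    rw [e, show phi M x (n + 1 + 1) = (x + M) * phi M x (n + 1) + x ^ (n + 1) from rfl,
      Nat.sub_zero, pow_zero, one_mul]
    push_cast
    linear_combination x * ih

section recursion

variable {κ : Type*} [Fintype κ] (w x : κ → ℝ)

/-- Moments of a finite measure. -/
def mom (j : ℕ) : ℝ := ∑ a, w a * x a ^ j

lemma mom_mul_le (hw : ∀ a, 0 ≤ w a) (f g : κ → ℝ)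
    (hfg : ∀ a b, 0 ≤ (f a - f b) * (g a - g b)) :
    (∑ a, w a * f a) * (∑ a, w a * g a) ≤ (∑ a, w a) * ∑ a, w a * (f a * g a) := by
  have h : 0 ≤ ∑ a, ∑ b, w a * w b * ((f a - f b) * (g a - g b)) :=
    sum_nonneg (fun a _ => sum_nonneg (fun b _ =>
      mul_nonneg (mul_nonneg (hw a) (hw b)) (hfg a b)))
  have e : ∑ a, ∑ b, w a * w b * ((f a - f b) * (g a - g b))
      = 2 * ((∑ a, w a) * ∑ a, w a * (f a * g a))
        - 2 * ((∑ a, w a * f a) * (∑ a, w a * g a)) := by
    have e1 : ∀ a, ∑ b, w a * w b * ((f a - f b) * (g a - g b))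
        = w a * (f a * g a) * (∑ b, w b) - w a * f a * (∑ b, w b * g b)
          - w a * g a * (∑ b, w b * f b) + w a * (∑ b, w b * (f b * g b)) := fun a => by
      simp only [mul_sum, ← sum_sub_distrib, ← sum_add_distrib]
      exact sum_congr rfl (fun b _ => by ring)
    simp only [e1, sum_add_distrib, sum_sub_distrib, ← sum_mul]
    ring
  linarith

variable {w x} {d : ℕ → ℝ} {A : ℝ}

lemma d_nonneg (hw : ∀ a, 0 ≤ w a) (hx : ∀ a, 0 ≤ x a) (hA : 0 < A) (h0 : d 0 = 0)
    (hd : ∀ n : ℕ,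
      A * d (n + 1) = (n + 1) * mom w x n + ∑ i ∈ range (n + 1), mom w x i * d (n - i))
    (n : ℕ) : 0 ≤ d n := by
  induction n using Nat.strong_induction_on with
  | h n ih =>
    cases n with
    | zero => rw [h0]
    | succ n =>
      have hm : ∀ j, 0 ≤ mom w x j := fun j =>
        sum_nonneg (fun a _ => mul_nonneg (hw a) (pow_nonneg (hx a) _))
      have : 0 ≤ A * d (n + 1) := by
        rw [hd]
        exact add_nonneg (mul_nonneg (by positivity) (hm n))
          (sum_nonneg (fun i _ => mul_nonneg (hm i) (ih _ (by omega))))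
      exact nonneg_of_mul_nonneg_right this hA

lemma d_lower (hw : ∀ a, 0 ≤ w a) (hx : ∀ a, 0 ≤ x a) (hA : 0 < A) (h0 : d 0 = 0)
    (hd : ∀ n : ℕ,
      A * d (n + 1) = (n + 1) * mom w x n + ∑ i ∈ range (n + 1), mom w x i * d (n - i))
    (n : ℕ) : (n + 1) * mom w x n ≤ A * d (n + 1) := by
  rw [hd]
  exact le_add_of_nonneg_right (sum_nonneg (fun i _ => mul_nonneg
    (sum_nonneg (fun a _ => mul_nonneg (hw a) (pow_nonneg (hx a) _)))
    (d_nonneg hw hx hA h0 hd _)))

lemma d_upper_phi (hw : ∀ a, 0 ≤ w a) (hx : ∀ a, 0 ≤ x a) (hA : 0 < A) (h0 : d 0 = 0)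
    (hd : ∀ n : ℕ,
      A * d (n + 1) = (n + 1) * mom w x n + ∑ i ∈ range (n + 1), mom w x i * d (n - i))
    {M : ℝ} (hM : ∑ a, w a ≤ M * A) (n : ℕ) : A * d n ≤ ∑ a, w a * phi M (x a) n := by
  have hM0 : 0 ≤ M := nonneg_of_mul_nonneg_left ((sum_nonneg (fun a _ => hw a)).trans hM) hA
  induction n using Nat.strong_induction_on with
  | h n ih =>
    cases n with
    | zero => simp [h0, phi]
    | succ n =>
      rw [hd]
      have hterm : ∀ i ∈ range (n + 1),
          mom w x i * d (n - i) ≤ M * ∑ a, w a * (x a ^ i * phi M (x a) (n - i)) := by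
        intro i _
        have h1 : mom w x i * d (n - i) * A ≤ mom w x i * ∑ a, w a * phi M (x a) (n - i) := by
          rw [mul_assoc, mul_comm _ A]
          exact mul_le_mul_of_nonneg_left (ih (n - i) (by omega))
            (sum_nonneg (fun a _ => mul_nonneg (hw a) (pow_nonneg (hx a) i)))
        have h2 := mom_mul_le w hw (fun a => x a ^ i) (fun a => phi M (x a) (n - i)) (fun a b => by
          rcases le_total (x a) (x b) with hab | hab
          · exact mul_nonneg_of_nonpos_of_nonpos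
              (sub_nonpos.2 (pow_le_pow_left₀ (hx a) hab i))
              (sub_nonpos.2 (phi_mono hM0 (hx a) hab _))
          · exact mul_nonneg (sub_nonneg.2 (pow_le_pow_left₀ (hx b) hab i))
              (sub_nonneg.2 (phi_mono hM0 (hx b) hab _)))
        have h3 : 0 ≤ ∑ a, w a * (x a ^ i * phi M (x a) (n - i)) := sum_nonneg (fun a _ =>
          mul_nonneg (hw a) (mul_nonneg (pow_nonneg (hx a) i) (phi_nonneg hM0 (hx a) _)))
        refine le_of_mul_le_mul_right ?_ hA
        calc mom w x i * d (n - i) * A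
            ≤ (∑ a, w a) * ∑ a, w a * (x a ^ i * phi M (x a) (n - i)) := h1.trans h2
          _ ≤ (M * A) * ∑ a, w a * (x a ^ i * phi M (x a) (n - i)) :=
              mul_le_mul_of_nonneg_right hM h3
          _ = _ := by ring
      calc ((n : ℝ) + 1) * mom w x n + ∑ i ∈ range (n + 1), mom w x i * d (n - i)
          ≤ ((n : ℝ) + 1) * mom w x n
            + ∑ i ∈ range (n + 1), M * ∑ a, w a * (x a ^ i * phi M (x a) (n - i)) := by
            exact add_le_add le_rfl (sum_le_sum hterm)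
        _ = ∑ a, w a * phi M (x a) (n + 1) := by
            simp only [mom, ← phi_conv, mul_add, mul_sum, sum_add_distrib]
            rw [sum_comm]
            congr 1
            · exact sum_congr rfl (fun a _ => by ring)
            · exact sum_congr rfl (fun a _ => sum_congr rfl (fun i _ => by ring))

lemma d_upper (hw : ∀ a, 0 ≤ w a) (hx : ∀ a, 0 ≤ x a) (hA : 0 < A) (h0 : d 0 = 0)
    (hd : ∀ n : ℕ,
      A * d (n + 1) = (n + 1) * mom w x n + ∑ i ∈ range (n + 1), mom w x i * d (n - i))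
    {M L : ℝ} (hM : ∑ a, w a ≤ M * A) (hL : 0 < L) (n : ℕ) :
    d (n + 1) ≤ (1 + M / L) ^ n * ((n + 1) * mom w x n) / A + (n + 1) * M * (L + M) ^ n := by
  have hM0 : 0 ≤ M := nonneg_of_mul_nonneg_left ((sum_nonneg (fun a _ => hw a)).trans hM) hA
  have hpt : ∀ a, (x a + M) ^ n ≤ (1 + M / L) ^ n * x a ^ n + (L + M) ^ n := by
    intro a
    have hxa := hx a
    rcases le_total L (x a) with h | h
    · have h1 : x a + M ≤ (1 + M / L) * x a := by
        have h2 : M / L * L ≤ M / L * x a := mul_le_mul_of_nonneg_left h (by positivity)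
        rw [div_mul_cancel₀ _ hL.ne'] at h2
        linarith
      calc (x a + M) ^ n ≤ ((1 + M / L) * x a) ^ n := pow_le_pow_left₀ (by linarith) h1 n
        _ = (1 + M / L) ^ n * x a ^ n := mul_pow _ _ _
        _ ≤ _ := le_add_of_nonneg_right (by positivity)
    · exact (pow_le_pow_left₀ (by linarith) (by linarith) n).trans
        (le_add_of_nonneg_left (by positivity))
  have h1 : A * d (n + 1)
      ≤ (1 + M / L) ^ n * ((n + 1) * mom w x n) + (n + 1) * (L + M) ^ n * ∑ a, w a := by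
    refine (d_upper_phi hw hx hA h0 hd hM (n + 1)).trans ?_
    simp only [mom, mul_sum, ← sum_add_distrib]
    refine sum_le_sum (fun a _ => ?_)
    have h2 : phi M (x a) (n + 1)
        ≤ (n + 1) * ((1 + M / L) ^ n * x a ^ n + (L + M) ^ n) :=
      (phi_le hM0 (hx a) n).trans (mul_le_mul_of_nonneg_left (hpt a) (by positivity))
    refine (mul_le_mul_of_nonneg_left h2 (hw a)).trans (le_of_eq ?_)
    ring
  have h3 : ((n : ℝ) + 1) * (L + M) ^ n * ∑ a, w a ≤ ((n : ℝ) + 1) * (L + M) ^ n * (M * A) :=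
    mul_le_mul_of_nonneg_left hM (by positivity)
  rw [div_add' _ _ _ hA.ne', le_div_iff₀ hA]
  linarith

end recursion

section series

open PowerSeries

/-- The geometric series. -/
noncomputable def geo (x : ℝ) : ℝ⟦X⟧ := PowerSeries.mk (fun n => x ^ n)

lemma geo_mul (x : ℝ) : geo x * (1 - C x * X) = 1 := by
  ext n
  cases n with
  | zero => simp [geo, mul_sub, PowerSeries.coeff_zero_eq_constantCoeff]
  | succ n =>
    rw [mul_sub, mul_one, show geo x * (C x * X) = X * (C x * geo x) by ring, map_sub,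
      coeff_succ_X_mul, coeff_C_mul, coeff_one, if_neg (Nat.succ_ne_zero n)]
    simp only [geo, coeff_mk]
    ring

lemma geo_rec (x : ℝ) : geo x = 1 + C x * X * geo x := by
  linear_combination geo_mul x

variable {ι : Type*} [Fintype ι]

/-- `∏ (1 - y i X)`. -/
noncomputable def linProd (y : ι → ℝ) : ℝ⟦X⟧ := ∏ i, (1 - C (y i) * X)

/-- The generating series of the power sums. -/
noncomputable def powSeries (y : ι → ℝ) : ℝ⟦X⟧ := ∑ i, (geo (y i) - 1)

lemma linProd_ne_zero (y : ι → ℝ) : linProd y ≠ 0 := fun h => by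
  have := congrArg constantCoeff h
  simp [linProd] at this

lemma coeff_powSeries (y : ι → ℝ) (n : ℕ) :
    coeff (n + 1) (powSeries y) = ∑ i, y i ^ (n + 1) := by
  simp only [powSeries, map_sum, map_sub, geo, coeff_mk, coeff_one, if_neg (Nat.succ_ne_zero n),
    sub_zero]

lemma coeff_powSeries_zero (y : ι → ℝ) : coeff 0 (powSeries y) = 0 := by
  simp [powSeries, geo, PowerSeries.coeff_zero_eq_constantCoeff]

omit [Fintype ι] in
lemma deriv_linProd [DecidableEq ι] (y : ι → ℝ) (s : Finset ι) :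
    X * d⁄dX ℝ (∏ i ∈ s, (1 - C (y i) * X))
      = -((∏ i ∈ s, (1 - C (y i) * X)) * ∑ i ∈ s, (geo (y i) - 1)) := by
  induction s using Finset.induction_on with
  | empty => simp
  | insert i s hi ih =>
    have h1 : X * d⁄dX ℝ (1 - C (y i) * X) = -((1 - C (y i) * X) * (geo (y i) - 1)) := by
      have hder : d⁄dX ℝ (1 - C (y i) * X) = -C (y i) := by
        simp [Derivation.leibniz]
      rw [hder]
      linear_combination geo_mul (y i)
    rw [prod_insert hi, sum_insert hi, Derivation.leibniz, smul_eq_mul, smul_eq_mul]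
    linear_combination (1 - C (y i) * X) * ih + (∏ j ∈ s, (1 - C (y j) * X)) * h1

lemma linProd_geo [DecidableEq ι] (y : ι → ℝ) (i : ι) :
    linProd y * geo (y i) = ∏ j ∈ univ.erase i, (1 - C (y j) * X) := by
  rw [linProd, ← mul_prod_erase univ _ (mem_univ i), mul_right_comm, mul_comm (1 - C (y i) * X),
    geo_mul, one_mul]

end series

variable {ι κ : Type*} [Fintype ι] [DecidableEq ι] [Fintype κ] {b k : ι → ℝ} {ρ : κ → ℝ} {A₀ : ℝ}

/-- `P = Q * (A₀ + t - ∑ k i / (t - b i))` as polynomials. -/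
def Factor (b k : ι → ℝ) (A₀ : ℝ) (ρ : κ → ℝ) : Prop :=
  ∀ t : ℝ, ∏ i, (t - ρ i)
    = (∏ j, (t - b j)) * (A₀ + t) - ∑ i, k i * ∏ j ∈ univ.erase i, (t - b j)

/-- The value of the rational factor at zero. -/
noncomputable def level (b k : ι → ℝ) (A₀ : ℝ) : ℝ := A₀ - ∑ i, k i * (-b i)⁻¹

/-- The inverse moment of the residues. -/
noncomputable def poleMom (b k : ι → ℝ) (n : ℕ) : ℝ := ∑ i, k i * (-b i)⁻¹ ^ n

omit [Fintype ι] [DecidableEq ι] in
lemma prod_neg_sub (hb : ∀ i, b i < 0) (z : ℝ) (s : Finset ι) :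
    ∏ j ∈ s, (-z - b j) = (∏ j ∈ s, -b j) * ∏ j ∈ s, (1 - (-b j)⁻¹ * z) := by
  rw [← prod_mul_distrib]
  refine prod_congr rfl (fun j _ => ?_)
  have := (hb j).ne
  field_simp
  ring

lemma sum_erase_eq (hb : ∀ i, b i < 0) (k : ι → ℝ) (z : ℝ) :
    ∑ i, k i * ∏ j ∈ univ.erase i, (-z - b j)
      = (∏ j, -b j) * ∑ i, k i * (-b i)⁻¹ * ∏ j ∈ univ.erase i, (1 - (-b j)⁻¹ * z) := by
  rw [mul_sum]
  refine sum_congr rfl (fun i _ => ?_)
  rw [prod_neg_sub hb, ← mul_prod_erase univ (fun j => -b j) (mem_univ i)]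
  have := (hb i).ne
  field_simp

lemma Factor.at_zero (hb : ∀ i, b i < 0) (h : Factor b k A₀ ρ) :
    ∏ i, -ρ i = (∏ j, -b j) * level b k A₀ := by
  have h0 := h (-0)
  rw [sum_erase_eq hb] at h0
  simp only [neg_zero, zero_sub, add_zero, mul_zero, sub_zero, prod_const_one, mul_one] at h0
  rw [h0, level]
  ring

/-- A root moves at most to zero. -/
lemma Factor.roots_neg (hb : ∀ i, b i < 0) (hk : ∀ i, 0 ≤ k i) (hA : 0 < level b k A₀)
    (h : Factor b k A₀ ρ) (i : κ) : ρ i < 0 := by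
  by_contra hle
  push Not at hle
  set t := ρ i with ht
  have h0 := h t
  rw [prod_eq_zero (mem_univ i) (sub_self t)] at h0
  have hp : ∀ j, 0 < t - b j := fun j => by linarith [hb j]
  have hQ : 0 < ∏ j, (t - b j) := prod_pos (fun j _ => hp j)
  have h1 : ∑ j, k j * ∏ l ∈ univ.erase j, (t - b l)
      ≤ (∏ l, (t - b l)) * ∑ j, k j * (-b j)⁻¹ := by
    rw [mul_sum]
    refine sum_le_sum (fun j _ => ?_)
    have h2 : (t - b j)⁻¹ ≤ (-b j)⁻¹ := inv_anti₀ (by linarith [hb j]) (by linarith)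
    have h3 : ∏ l ∈ univ.erase j, (t - b l) = (∏ l, (t - b l)) * (t - b j)⁻¹ := by
      rw [← mul_prod_erase univ (fun l => t - b l) (mem_univ j), mul_comm (t - b j), mul_assoc,
        mul_inv_cancel₀ (hp j).ne', mul_one]
    rw [h3]
    calc k j * ((∏ l, (t - b l)) * (t - b j)⁻¹)
        ≤ k j * ((∏ l, (t - b l)) * (-b j)⁻¹) :=
          mul_le_mul_of_nonneg_left (mul_le_mul_of_nonneg_left h2 hQ.le) (hk j)
      _ = _ := by ring
  have h4 : 0 < (∏ l, (t - b l)) * (level b k A₀ + t) := mul_pos hQ (by linarith)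
  rw [level] at h4
  linarith

/-- Interlacing at the top: negative roots force negative poles. -/
lemma Factor.poles_neg (hk : ∀ i, 0 ≤ k i) (hρ : ∀ i, ρ i < 0) (h : Factor b k A₀ ρ) (i : ι) :
    b i < 0 := by
  by_contra hle
  push Not at hle
  obtain ⟨m, -, hm⟩ := exists_max_image univ b ⟨i, mem_univ i⟩
  have h0 := h (b m)
  rw [prod_eq_zero (mem_univ m) (sub_self (b m)), zero_mul, zero_sub] at h0
  have hpos : 0 < ∏ l, (b m - ρ l) :=
    prod_pos (fun l _ => by linarith [hρ l, hm i (mem_univ i)])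
  have hS : 0 ≤ ∑ j, k j * ∏ l ∈ univ.erase j, (b m - b l) :=
    sum_nonneg (fun j _ => mul_nonneg (hk j)
      (prod_nonneg (fun l _ => sub_nonneg.2 (hm l (mem_univ l)))))
  linarith

/-- More precisely, every pole lies below some root. -/
lemma Factor.exists_root_ge (hk : ∀ i, 0 ≤ k i) (h : Factor b k A₀ ρ) (i : ι) :
    ∃ l, b i ≤ ρ l := by
  by_contra hcon
  push Not at hcon
  have hbi : Factor (fun j => b j - b i) k (A₀ + b i) (fun l => ρ l - b i) := fun t => by
    have := h (t + b i)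
    simp only [sub_sub_eq_add_sub]
    rw [show A₀ + b i + t = A₀ + (t + b i) by ring]
    exact this
  have := hbi.poles_neg hk (fun l => by linarith [hcon l]) i
  linarith

lemma Factor.level_pos (hb : ∀ i, b i < 0) (hρ : ∀ i, ρ i < 0) (h : Factor b k A₀ ρ) :
    0 < level b k A₀ := by
  have h1 : 0 < (∏ j, -b j) * level b k A₀ :=
    h.at_zero hb ▸ prod_pos (fun i _ => neg_pos.2 (hρ i))
  exact (mul_pos_iff_of_pos_left (prod_pos (fun i _ => neg_pos.2 (hb i)))).1 h1

section coe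

open Polynomial

lemma coe_linPoly {ι' : Type*} (y : ι' → ℝ) (s : Finset ι') :
    ((∏ i ∈ s, (1 - Polynomial.C (y i) * Polynomial.X) : ℝ[X]) : PowerSeries ℝ)
      = ∏ i ∈ s, (1 - PowerSeries.C (y i) * PowerSeries.X) := by
  rw [← Polynomial.coeToPowerSeries.ringHom_apply, map_prod]
  simp

lemma series_congr (hb : ∀ i, b i < 0) {k' : ι → ℝ}
    (h : ∀ t : ℝ, ∑ i, k i * ∏ j ∈ univ.erase i, (t - b j)
      = ∑ i, k' i * ∏ j ∈ univ.erase i, (t - b j)) :
    ∑ i, PowerSeries.C (k i * (-b i)⁻¹) * geo (-b i)⁻¹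
      = ∑ i, PowerSeries.C (k' i * (-b i)⁻¹) * geo (-b i)⁻¹ := by
  have hp : (∑ i, C (k i * (-b i)⁻¹) * ∏ j ∈ univ.erase i, (1 - C (-b j)⁻¹ * X) : ℝ[X])
      = ∑ i, C (k' i * (-b i)⁻¹) * ∏ j ∈ univ.erase i, (1 - C (-b j)⁻¹ * X) := by
    refine Polynomial.funext (fun z => ?_)
    simp only [eval_finsetSum, eval_mul, eval_C, eval_prod, eval_sub, eval_one, eval_X]
    refine mul_left_cancel₀ (prod_ne_zero_iff.2 (fun j _ => (neg_pos.2 (hb j)).ne') :
      (∏ j, -b j) ≠ 0) ?_
    rw [← sum_erase_eq hb, ← sum_erase_eq hb]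
    exact h (-z)
  have h2 := congrArg (Polynomial.coeToPowerSeries.ringHom (R := ℝ)) hp
  simp only [map_sum, map_mul, Polynomial.coeToPowerSeries.ringHom_apply, Polynomial.coe_C,
    coe_linPoly] at h2
  refine mul_left_cancel₀ (linProd_ne_zero (fun i => (-b i)⁻¹)) ?_
  simp only [mul_sum, mul_left_comm (linProd _)]
  simpa only [linProd_geo (fun i => (-b i)⁻¹), map_mul] using h2

lemma Factor.series (hb : ∀ i, b i < 0) (hρ : ∀ i, ρ i < 0) (h : Factor b k A₀ ρ) :
    PowerSeries.C (level b k A₀) * linProd (fun i => (-ρ i)⁻¹)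
      = linProd (fun i => (-b i)⁻¹) * (PowerSeries.C A₀ - PowerSeries.X
          - ∑ i, PowerSeries.C (k i * (-b i)⁻¹) * geo (-b i)⁻¹) := by
  have hp : (C (level b k A₀) * ∏ i, (1 - C (-ρ i)⁻¹ * X) : ℝ[X])
      = (∏ i, (1 - C (-b i)⁻¹ * X)) * (C A₀ - X)
        - ∑ i, C (k i * (-b i)⁻¹) * ∏ j ∈ univ.erase i, (1 - C (-b j)⁻¹ * X) := by
    refine Polynomial.funext (fun z => ?_)
    simp only [eval_finsetSum, eval_mul, eval_C, eval_prod, eval_sub, eval_one, eval_X]
    refine mul_left_cancel₀ (prod_ne_zero_iff.2 (fun j _ => (neg_pos.2 (hb j)).ne') :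
      (∏ j, -b j) ≠ 0) ?_
    have h0 := h (-z)
    rw [prod_neg_sub hb, sum_erase_eq hb] at h0
    have hl : ∏ i, (-z - ρ i) = (∏ i, -ρ i) * ∏ i, (1 - (-ρ i)⁻¹ * z) := by
      rw [← prod_mul_distrib]
      refine prod_congr rfl (fun i _ => ?_)
      have := (hρ i).ne
      field_simp
      ring
    rw [hl, h.at_zero hb] at h0
    linear_combination h0
  have h2 := congrArg (Polynomial.coeToPowerSeries.ringHom (R := ℝ)) hp
  simp only [map_sum, map_mul, map_sub, Polynomial.coeToPowerSeries.ringHom_apply,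
    Polynomial.coe_C, Polynomial.coe_X, coe_linPoly] at h2
  rw [linProd, h2, mul_sub (linProd _)]
  simp only [mul_sum, mul_left_comm (linProd _), linProd_geo (fun i => (-b i)⁻¹), map_mul]
  simp only [linProd]

end coe

/-- The weights of the measure whose moments drive the recursion. -/
noncomputable def stepW (b k : ι → ℝ) : Option ι → ℝ
  | none => 1
  | some i => k i * (-b i)⁻¹ ^ 2

/-- The atoms of the measure whose moments drive the recursion. -/
noncomputable def stepX (b : ι → ℝ) : Option ι → ℝ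
  | none => 0
  | some i => (-b i)⁻¹

omit [DecidableEq ι] in
lemma stepW_sum (b k : ι → ℝ) : ∑ a, stepW b k a = 1 + poleMom b k 2 := by
  simp [Fintype.sum_option, stepW, poleMom]

omit [DecidableEq ι] in
lemma mom_step (b k : ι → ℝ) (j : ℕ) :
    mom (stepW b k) (stepX b) j = (if j = 0 then 1 else 0) + poleMom b k (j + 2) := by
  rw [mom, Fintype.sum_option, poleMom]
  congr 1
  · rcases j with _ | j <;> simp [stepW, stepX]
  · exact sum_congr rfl (fun i _ => by simp only [stepW, stepX]; ring)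

/-- The recursion for the increase of the inverse moments. -/
lemma Factor.recursion (hb : ∀ i, b i < 0) (hρ : ∀ i, ρ i < 0) (h : Factor b k A₀ ρ) :
    ∃ d : ℕ → ℝ, d 0 = 0 ∧ (∀ n, d (n + 1) = invSum ρ (n + 1) - invSum b (n + 1)) ∧
      ∀ n : ℕ, level b k A₀ * d (n + 1) = (n + 1) * mom (stepW b k) (stepX b) n
        + ∑ i ∈ range (n + 1), mom (stepW b k) (stepX b) i * d (n - i) := by
  classical
  open PowerSeries in
  set A := level b k A₀ with hA
  set x : ι → ℝ := fun i => (-b i)⁻¹ with hx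
  set y : κ → ℝ := fun i => (-ρ i)⁻¹ with hy
  set m : PowerSeries ℝ := 1 + ∑ i, PowerSeries.C (k i * x i ^ 2) * geo (x i) with hm
  set D : PowerSeries ℝ := powSeries y - powSeries x with hD
  have hs : PowerSeries.C A * linProd y = linProd x * (PowerSeries.C A - PowerSeries.X * m) := by
    rw [hA, hy, h.series hb hρ]
    congr 1
    have e : ∑ i, PowerSeries.C (k i * x i) * geo (x i)
        = PowerSeries.C (∑ i, k i * x i)
          + PowerSeries.X * ∑ i, PowerSeries.C (k i * x i ^ 2) * geo (x i) := by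
      rw [map_sum, mul_sum, ← sum_add_distrib]
      refine sum_congr rfl (fun i _ => ?_)
      conv_lhs => rw [geo_rec (x i)]
      rw [pow_two, ← mul_assoc (k i), map_mul _ (k i * x i)]
      ring
    rw [e, level, map_sub, hm]
    ring
  have hder := congrArg (fun f => PowerSeries.X * PowerSeries.derivative ℝ f) hs
  simp only [Derivation.leibniz, smul_eq_mul, map_sub, PowerSeries.derivative_C,
    PowerSeries.derivative_X] at hder
  have hdy : PowerSeries.X * PowerSeries.derivative ℝ (linProd y) = -(linProd y * powSeries y) :=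
    deriv_linProd y univ
  have hdx : PowerSeries.X * PowerSeries.derivative ℝ (linProd x) = -(linProd x * powSeries x) :=
    deriv_linProd x univ
  have hkey : (PowerSeries.C A - PowerSeries.X * m) * D
      = PowerSeries.X * (PowerSeries.X * PowerSeries.derivative ℝ m + m) := by
    refine mul_left_cancel₀ (linProd_ne_zero x) ?_
    rw [hD]
    linear_combination -hder - powSeries y * hs + PowerSeries.C A * hdy
      - (PowerSeries.C A - PowerSeries.X * m) * hdx
  have hmc : ∀ j, PowerSeries.coeff j m = mom (stepW b k) (stepX b) j := fun j => by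
    rw [mom_step, hm, map_add, map_sum, PowerSeries.coeff_one]
    refine congrArg _ (sum_congr rfl (fun i _ => ?_))
    simp only [PowerSeries.coeff_C_mul, geo, PowerSeries.coeff_mk, hx]
    ring
  refine ⟨fun n => PowerSeries.coeff n D, by
    simp only [hD, map_sub, coeff_powSeries_zero, sub_zero], fun n => by
    simp [hD, coeff_powSeries, invSum, hx, hy], fun n => ?_⟩
  have h1 := congrArg (PowerSeries.coeff (n + 1)) hkey
  rw [sub_mul, map_sub, PowerSeries.coeff_C_mul, mul_assoc, PowerSeries.coeff_succ_X_mul,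
    PowerSeries.coeff_succ_X_mul, PowerSeries.coeff_mul, map_add,
    Finset.Nat.sum_antidiagonal_eq_sum_range_succ_mk, hmc] at h1
  have h2 : PowerSeries.coeff n (PowerSeries.X * PowerSeries.derivative ℝ m)
      = n * mom (stepW b k) (stepX b) n := by
    cases n with
    | zero => simp
    | succ l => rw [PowerSeries.coeff_succ_X_mul, PowerSeries.coeff_derivative, hmc]; push_cast; ring
  simp only [hmc] at h1
  rw [h2] at h1
  linarith

omit [Fintype ι] [DecidableEq ι] in
lemma stepW_nonneg (hk : ∀ i, 0 ≤ k i) (a : Option ι) : 0 ≤ stepW b k a := by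
  cases a with
  | none => exact zero_le_one
  | some i => exact mul_nonneg (hk i) (sq_nonneg _)

omit [Fintype ι] [DecidableEq ι] in
lemma stepX_nonneg (hb : ∀ i, b i < 0) (a : Option ι) : 0 ≤ stepX b a := by
  cases a with
  | none => exact le_rfl
  | some i => exact inv_nonneg.2 (neg_nonneg.2 (hb i).le)

/-- Lower bound for the increase. -/
theorem Factor.invSum_lower (hb : ∀ i, b i < 0) (hk : ∀ i, 0 ≤ k i) (hρ : ∀ i, ρ i < 0)
    (h : Factor b k A₀ ρ) {n : ℕ} (hn : 2 ≤ n) :
    n * poleMom b k (n + 1) / level b k A₀ ≤ invSum ρ n - invSum b n := by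
  obtain ⟨l, rfl⟩ : ∃ l, n = l + 2 := ⟨n - 2, by omega⟩
  obtain ⟨d, h0, hd1, hd⟩ := h.recursion hb hρ
  have hA := h.level_pos hb hρ
  have := d_lower (stepW_nonneg hk) (stepX_nonneg hb) hA h0 hd (l + 1)
  rw [mom_step, if_neg (by omega), zero_add, hd1] at this
  rw [div_le_iff₀ hA]
  push_cast at this ⊢
  linarith

/-- Upper bound for the increase. -/
theorem Factor.invSum_upper (hb : ∀ i, b i < 0) (hk : ∀ i, 0 ≤ k i) (hρ : ∀ i, ρ i < 0)
    (h : Factor b k A₀ ρ) {M L : ℝ} (hM : 1 + poleMom b k 2 ≤ M * level b k A₀) (hL : 0 < L)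
    {n : ℕ} (hn : 2 ≤ n) :
    invSum ρ n - invSum b n
      ≤ (1 + M / L) ^ n * (n * poleMom b k (n + 1)) / level b k A₀
        + n * M * (L + M) ^ (n - 1) := by
  obtain ⟨l, rfl⟩ : ∃ l, n = l + 2 := ⟨n - 2, by omega⟩
  obtain ⟨d, h0, hd1, hd⟩ := h.recursion hb hρ
  have hA := h.level_pos hb hρ
  rw [← stepW_sum] at hM
  have hM0 : 0 ≤ M :=
    nonneg_of_mul_nonneg_left ((sum_nonneg (fun a _ => stepW_nonneg hk a)).trans hM) hA
  have := d_upper (stepW_nonneg hk) (stepX_nonneg hb) hA h0 hd hM hL (l + 1)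
  rw [mom_step, if_neg (by omega), zero_add, hd1] at this
  have hmom : 0 ≤ poleMom b k (l + 2 + 1) :=
    sum_nonneg (fun i _ => mul_nonneg (hk i) (pow_nonneg (inv_nonneg.2 (neg_nonneg.2 (hb i).le)) _))
  have hpow : (1 + M / L) ^ (l + 1) ≤ (1 + M / L) ^ (l + 2) :=
    pow_le_pow_right₀ (le_add_of_nonneg_right (by positivity)) (by omega)
  refine this.trans (add_le_add ?_ (le_of_eq ?_))
  · push_cast
    rw [show (l : ℝ) + 1 + 1 = l + 2 by ring]
    gcongr
  · push_cast
    ring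

/-- Removing the distinguished vertex lowers every inverse moment. -/
theorem Factor.invSum_delete (hb : ∀ i, b i < 0) (hk : ∀ i, 0 ≤ k i) (hρ : ∀ i, ρ i < 0)
    (h : Factor b k A₀ ρ) {n : ℕ} (hn : 1 ≤ n) : invSum b n ≤ invSum ρ n := by
  obtain ⟨l, rfl⟩ : ∃ l, n = l + 1 := ⟨n - 1, by omega⟩
  obtain ⟨d, h0, hd1, hd⟩ := h.recursion hb hρ
  have := d_nonneg (stepW_nonneg hk) (stepX_nonneg hb) (h.level_pos hb hρ) h0 hd (l + 1)
  rw [hd1] at this
  linarith

/-- The inverse moments of the residues only depend on the rational function. -/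
theorem poleMom_congr (hb : ∀ i, b i < 0) {k' : ι → ℝ}
    (h : ∀ t : ℝ, ∑ i, k i * ∏ j ∈ univ.erase i, (t - b j)
      = ∑ i, k' i * ∏ j ∈ univ.erase i, (t - b j)) {n : ℕ} (hn : 1 ≤ n) :
    poleMom b k n = poleMom b k' n := by
  obtain ⟨l, rfl⟩ : ∃ l, n = l + 1 := ⟨n - 1, by omega⟩
  have h1 := congrArg (PowerSeries.coeff l) (series_congr hb h)
  simp only [map_sum, PowerSeries.coeff_C_mul, geo, PowerSeries.coeff_mk] at h1
  simpa [poleMom, pow_succ', mul_assoc] using h1

omit [DecidableEq ι] in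
/-- The second inverse moment from the difference of two values of the rational function. -/
theorem poleMom_two_le (hk : ∀ i, 0 ≤ k i) {g : ℝ} (hg : 0 < g) (hb : ∀ i, b i ≤ -(g / 4)) :
    poleMom b k 2 ≤ 5 * (∑ i, k i * (-b i)⁻¹ - ∑ i, k i * (g - b i)⁻¹) / g := by
  rw [← sum_sub_distrib, mul_sum, sum_div, poleMom]
  refine sum_le_sum (fun i _ => ?_)
  have h1 : 0 < -b i := by linarith [hb i]
  have h2 : 0 < g - b i := by linarith
  have e : 5 * (k i * (-b i)⁻¹ - k i * (g - b i)⁻¹) / g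
      = k i * (5 / ((-b i) * (g - b i))) := by
    have := h1.ne'; have := h2.ne'; have := hg.ne'; have : b i ≠ 0 := by linarith
    field_simp
    ring
  rw [e, inv_pow]
  refine mul_le_mul_of_nonneg_left ?_ (hk i)
  rw [inv_eq_one_div, div_le_div_iff₀ (by positivity) (by positivity)]
  nlinarith [mul_le_mul_of_nonneg_left (show g - b i ≤ 5 * (-b i) by linarith [hb i]) h1.le]

/-- A root near zero makes the inverse moment large. -/
theorem pow_le_invSum {ρ : κ → ℝ} (hρ : ∀ i, ρ i < 0) {τ : ℝ} {i : κ} (hi : -τ ≤ ρ i)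
    (n : ℕ) : τ⁻¹ ^ n ≤ invSum ρ n := by
  have h0 : 0 < -ρ i := neg_pos.2 (hρ i)
  have hτ : 0 < τ := by linarith
  have h1 : τ⁻¹ ≤ (-ρ i)⁻¹ := inv_anti₀ h0 (by linarith)
  exact (pow_le_pow_left₀ (inv_nonneg.2 hτ.le) h1 n).trans
    (single_le_sum (f := fun j => (-ρ j)⁻¹ ^ n)
      (fun j _ => pow_nonneg (inv_nonneg.2 (neg_nonneg.2 (hρ j).le)) n) (mem_univ i))

/-- The roots lie below `-τ`: the inverse moment is small. -/
theorem invSum_le {ρ : κ → ℝ} {τ : ℝ} (hτ : 0 < τ) (hρ : ∀ i, ρ i ≤ -τ) (n : ℕ) :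
    invSum ρ n ≤ Fintype.card κ * τ⁻¹ ^ n := by
  refine (sum_le_sum (fun i _ => pow_le_pow_left₀
    (inv_nonneg.2 (by linarith [hρ i])) (inv_anti₀ hτ (by linarith [hρ i])) n)).trans ?_
  simp

/-- One random step: the inverse moment is a supermartingale up to `n M (L+M)^(n-1)`. -/
theorem rootSum_step {r : ℕ} (hr : 0 < r) {b kbar : ι → ℝ} {k : Fin r → ι → ℝ} {q : Fin r → ℝ}
    {ρ₀ : κ → ℝ} {ρ : Fin r → κ → ℝ} {y : ℝ} {y' : Fin r → ℝ} {A' M L : ℝ} {n : ℕ} (hn : 2 ≤ n)
    (hb : ∀ i, b i < 0) (hρ₀ : ∀ i, ρ₀ i < 0) (hkbar : ∀ i, 0 ≤ kbar i)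
    (h₀ : Factor b kbar y ρ₀)
    (hq : ∀ c, 0 ≤ q c) (hq2 : ∀ c, q c ≤ 2 / r) (hq1 : ∑ c, q c ≤ 1)
    (hk : ∀ c i, 0 ≤ k c i)
    (hlin : ∀ t : ℝ, ∑ c, ∑ i, k c i * ∏ j ∈ univ.erase i, (t - b j)
      = r * ∑ i, kbar i * ∏ j ∈ univ.erase i, (t - b j))
    (hf : ∀ c, q c ≠ 0 → Factor b (k c) (y' c) (ρ c))
    (hA' : 0 < A') (hlev : ∀ c, q c ≠ 0 → A' ≤ level b (k c) (y' c))
    (hM : ∀ c, q c ≠ 0 → 1 + poleMom b (k c) 2 ≤ M * A')
    (hM0 : 0 ≤ M) (hL : 0 < L)
    (hpar : 2 * (1 + M / L) ^ n * level b kbar y ≤ A') :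
    (∀ c, q c ≠ 0 → ∀ i, ρ c i < 0) ∧
      ∑ c, q c * invSum (ρ c) n + (1 - ∑ c, q c) * invSum b n
        ≤ invSum ρ₀ n + n * M * (L + M) ^ (n - 1) := by
  have hneg : ∀ c, q c ≠ 0 → ∀ i, ρ c i < 0 := fun c hc =>
    (hf c hc).roots_neg hb (hk c) (hA'.trans_le (hlev c hc))
  refine ⟨hneg, ?_⟩
  set E := (n : ℝ) * M * (L + M) ^ (n - 1) with hE
  set K := (1 + M / L) ^ n with hK
  have hE0 : 0 ≤ E := by positivity
  have hK0 : 0 < K := by positivity
  have hm0 : ∀ c, 0 ≤ poleMom b (k c) (n + 1) := fun c => sum_nonneg (fun i _ =>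
    mul_nonneg (hk c i) (pow_nonneg (inv_nonneg.2 (neg_nonneg.2 (hb i).le)) _))
  have hup : ∀ c, q c * invSum (ρ c) n
      ≤ q c * invSum b n + (2 / r) * (K * (n * poleMom b (k c) (n + 1)) / A') + q c * E := by
    intro c
    by_cases hc : q c = 0
    · simp only [hc, zero_mul, zero_add, add_zero]
      have := hm0 c
      positivity
    have hl := hlev c hc
    have h1 := (hf c hc).invSum_upper hb (hk c) (hneg c hc)
      ((hM c hc).trans (mul_le_mul_of_nonneg_left hl hM0)) hL hn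
    have h2 : K * (n * poleMom b (k c) (n + 1)) / level b (k c) (y' c)
        ≤ K * (n * poleMom b (k c) (n + 1)) / A' :=
      div_le_div_of_nonneg_left (by have := hm0 c; positivity) hA' hl
    have h3 : q c * invSum (ρ c) n
        ≤ q c * (invSum b n + K * (n * poleMom b (k c) (n + 1)) / A' + E) :=
      mul_le_mul_of_nonneg_left (by linarith) (hq c)
    have h4 : q c * (K * (n * poleMom b (k c) (n + 1)) / A')
        ≤ 2 / r * (K * (n * poleMom b (k c) (n + 1)) / A') :=
      mul_le_mul_of_nonneg_right (hq2 c) (by have := hm0 c; positivity)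
    linarith
  have hsum : ∑ c, poleMom b (k c) (n + 1) = r * poleMom b kbar (n + 1) := by
    have h1 := poleMom_congr hb (k := fun i => ∑ c, k c i) (k' := fun i => r * kbar i)
      (fun t => by
        simp only [sum_mul, mul_assoc, ← mul_sum]
        rw [sum_comm, hlin t]) (n := n + 1) (by omega)
    simp only [poleMom, sum_mul, mul_assoc, ← mul_sum] at h1 ⊢
    rw [sum_comm, h1]
  have hlow := h₀.invSum_lower hb hkbar hρ₀ hn
  have hA₀ := h₀.level_pos hb hρ₀
  have hr' : (0 : ℝ) < r := by exact_mod_cast hr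
  have hmid : ∑ c, 2 / (r : ℝ) * (K * (n * poleMom b (k c) (n + 1)) / A')
      ≤ n * poleMom b kbar (n + 1) / level b kbar y := by
    rw [← mul_sum, ← sum_div, ← mul_sum, ← mul_sum, hsum]
    have hm : 0 ≤ poleMom b kbar (n + 1) := sum_nonneg (fun i _ =>
      mul_nonneg (hkbar i) (pow_nonneg (inv_nonneg.2 (neg_nonneg.2 (hb i).le)) _))
    calc 2 / (r : ℝ) * (K * (n * (r * poleMom b kbar (n + 1))) / A')
        = (n * poleMom b kbar (n + 1)) * (2 * K / A') := by field_simp
      _ ≤ (n * poleMom b kbar (n + 1)) * (1 / level b kbar y) := by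
          refine mul_le_mul_of_nonneg_left ?_ (by positivity)
          rw [div_le_div_iff₀ hA' hA₀]
          linarith
      _ = _ := mul_one_div _ _
  calc ∑ c, q c * invSum (ρ c) n + (1 - ∑ c, q c) * invSum b n
      ≤ ∑ c, (q c * invSum b n + 2 / r * (K * (n * poleMom b (k c) (n + 1)) / A') + q c * E)
        + (1 - ∑ c, q c) * invSum b n := by gcongr with c; exact hup c
    _ ≤ invSum b n + n * poleMom b kbar (n + 1) / level b kbar y + E := by
        rw [sum_add_distrib, sum_add_distrib, ← sum_mul, ← sum_mul]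
        nlinarith [mul_le_mul_of_nonneg_right hq1 hE0]
    _ ≤ _ := by linarith

end Vale.Agent.P078.TypeIII.RootSum
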