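import Vale.Agent.P078.Mss2.Majorise
import Vale.Agent.P078.Mss2.RootBound
import Vale.Agent.P078.TypeIII.RootSum

/-!
# The pointed factorisation of mixed determinants

For a vertex `u` with zero diagonal entries the mixed determinant with `u` put in colour `c` is
`Q(w) * (y c u + w) - ∑ k c i * ∏ (w - b j)` (product over `j ≠ i`), where `Q` is the determinant
without `u`, `b` are its roots and all `k c i` are nonnegative.
-/

namespace Vale.Agent.P078.TypeIII

open Vale.Agent.P078.Mss (NumBound minorMat HalfPlane rootProd rootProd_ne_zero)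
open Vale.Agent.P078.Mss2 Vale.Agent.P078.TypeIII.RootSum

open Finset Matrix Polynomial

/-- The roots of a rational factor with nonnegative residues are real. -/
theorem exists_factor_roots {n : ℕ} (b k : Fin n → ℝ) (hk : ∀ i, 0 ≤ k i) (A₀ : ℝ) :
    ∃ ρ : Fin (n + 1) → ℝ, Factor b k A₀ ρ := by
  set Q : ℂ[X] := ∏ i, (X - C (b i : ℂ)) with hQ
  set S : ℂ[X] := ∑ i, C (k i : ℂ) * ∏ j ∈ univ.erase i, (X - C (b j : ℂ)) with hS
  set P : ℂ[X] := Q * (X + C (A₀ : ℂ)) - S with hP
  have hSdeg : S.natDegree ≤ n - 1 := natDegree_sum_le_of_forall_le _ _ (fun i _ => by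
    refine (natDegree_C_mul_le _ _).trans ((natDegree_prod_le _ _).trans ?_)
    simp)
  have hQm : Q.Monic := monic_prod_X_sub_C _ _
  have hQn : Q.natDegree = n := by simp [Q]
  have hn1 : (Q * (X + C (A₀ : ℂ))).natDegree = n + 1 := by
    rw [hQm.natDegree_mul (monic_X_add_C _), hQn, natDegree_X_add_C]
  have hS1 : S.coeff (n + 1) = 0 := coeff_eq_zero_of_natDegree_lt (by omega)
  have hdeg : P.natDegree ≤ n + 1 :=
    (natDegree_sub_le _ _).trans (max_le hn1.le (by omega))
  have hlead : P.coeff (n + 1) = 1 := by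
    rw [hP, coeff_sub, hS1, sub_zero, ← hn1]
    exact (hQm.mul (monic_X_add_C _)).coeff_natDegree
  have heval : ∀ w : ℂ, P.eval w
      = rootProd b w * (w + A₀) - ∑ i, (k i : ℂ) * ∏ j ∈ univ.erase i, (w - b j) := fun w => by
    simp [P, Q, S, rootProd, eval_finsetSum, eval_prod]
  have hup : ∀ w : ℂ, 0 < w.im → P.eval w ≠ 0 := by
    intro w hw h0
    have hne : ∀ j, w - (b j : ℂ) ≠ 0 := fun j e => hw.ne' (by simpa using congrArg Complex.im e)
    have h1 : ∑ i, (k i : ℂ) * ∏ j ∈ univ.erase i, (w - b j)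
        = rootProd b w * ∑ i, (k i : ℂ) * (w - b i)⁻¹ := by
      rw [mul_sum]
      refine sum_congr rfl (fun i _ => ?_)
      rw [rootProd, ← mul_prod_erase univ (fun j => w - (b j : ℂ)) (mem_univ i)]
      have := hne i
      field_simp
    rw [heval, h1, ← mul_sub] at h0
    have h2 := congrArg Complex.im ((mul_eq_zero.1 h0).resolve_left (rootProd_ne_zero b hw.ne'))
    rw [Complex.sub_im, Complex.add_im, Complex.ofReal_im, add_zero, Complex.im_sum,
      Complex.zero_im] at h2
    have h3 : ∑ i, ((k i : ℂ) * (w - b i)⁻¹).im ≤ 0 := sum_nonpos (fun i _ => by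
      rw [Complex.im_ofReal_mul, Complex.inv_im, Complex.sub_im, Complex.ofReal_im, sub_zero]
      exact mul_nonpos_of_nonneg_of_nonpos (hk i)
        (div_nonpos_of_nonpos_of_nonneg (by linarith) (Complex.normSq_nonneg _)))
    linarith
  obtain ⟨ρ, -, hρ⟩ := real_rooted_form hdeg (by rw [hlead]; exact one_ne_zero) (fun s hs => by
    rcases lt_trichotomy s.im 0 with h | h | h
    · refine absurd ?_ (hup (starRingEnd ℂ s) (by simpa using h))
      rw [heval] at hs ⊢
      have h1 := congrArg (starRingEnd ℂ) hs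
      simpa [rootProd, map_prod, map_sum] using h1
    · exact h
    · exact absurd hs (hup s h))
  rw [hlead] at hρ
  refine ⟨ρ, fun t => ?_⟩
  have h1 := congrArg (fun q : ℂ[X] => q.eval (t : ℂ)) hρ
  simp only [heval, eval_form, one_mul] at h1
  apply Complex.ofReal_injective
  push_cast
  rw [rootProd, rootProd] at h1
  linear_combination -h1

/-- A factorisation holds at every complex point. -/
theorem rootProd_of_factor {n m : ℕ} {b k : Fin n → ℝ} {A₀ : ℝ} {ρ : Fin m → ℝ}
    (h : Factor b k A₀ ρ) (w : ℂ) :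
    rootProd ρ w
      = rootProd b w * ((A₀ : ℂ) + w) - ∑ i, (k i : ℂ) * ∏ j ∈ univ.erase i, (w - b j) := by
  have hp : (∏ i, (X - C (ρ i)) : ℝ[X]) = (∏ j, (X - C (b j))) * (C A₀ + X)
      - ∑ i, C (k i) * ∏ j ∈ univ.erase i, (X - C (b j)) :=
    Polynomial.funext (fun t => by simpa [eval_finsetSum, eval_prod] using h t)
  simpa [rootProd, map_prod, map_sum, Complex.coe_algebraMap] using congrArg (aeval w) hp

variable {V : Type*} [Fintype V] [DecidableEq V] {r : ℕ}

/-- A principal minor as a real polynomial in a common shift of the variables of `T`. -/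
noncomputable def pMinor (x : Matrix V V ℂ) (y : V → ℝ) (T S : Finset V) : ℝ[X] :=
  ∑ R ∈ T.powerset, (∏ i ∈ R, (X + C (y i))) * C (minorMat x 0 (S \ R)).det.re

lemma aeval_pMinor {x : Matrix V V ℂ} (hx : x.IsHermitian) (y : V → ℝ) {T S : Finset V}
    (hTS : T ⊆ S) (w : ℂ) :
    aeval w (pMinor x y T S)
      = (minorMat x (fun i => if i ∈ T then (y i : ℂ) + w else 0) S).det := by
  rw [minorMat_det_expand, Finset.inter_eq_right.2 hTS, pMinor, map_sum]
  refine sum_congr rfl (fun R _ => ?_)
  simp only [map_mul, map_prod, map_add, aeval_X, aeval_C, Complex.coe_algebraMap]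
  have h := minor_real_det_eq hx (fun _ => 0) (S \ R)
  simp only [Complex.ofReal_zero] at h
  rw [← Pi.zero_def] at h
  rw [← h]
  congr 1
  exact prod_congr rfl (fun i _ => add_comm _ _)

lemma natDegree_pMinor_le (x : Matrix V V ℂ) (y : V → ℝ) (T S : Finset V) :
    (pMinor x y T S).natDegree ≤ T.card :=
  natDegree_sum_le_of_forall_le _ _ (fun R hR => (natDegree_mul_C_le _ _).trans
    ((natDegree_prod_le _ _).trans (by
      refine le_trans (sum_le_sum (fun i _ => (natDegree_X_add_C (y i)).le)) ?_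
      simpa using card_le_card (mem_powerset.1 hR))))

lemma coeff_pMinor (x : Matrix V V ℂ) (y : V → ℝ) (T S : Finset V) :
    (pMinor x y T S).coeff T.card = (minorMat x 0 (S \ T)).det.re := by
  rw [pMinor, finsetSum_coeff, sum_eq_single_of_mem T (mem_powerset_self T)]
  · have hm : (∏ i ∈ T, (X + C (y i))).Monic := monic_prod_of_monic _ _ (fun i _ => monic_X_add_C _)
    have hn : (∏ i ∈ T, (X + C (y i))).natDegree = T.card := by
      rw [natDegree_prod_of_monic _ _ (fun i _ => monic_X_add_C _)]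
      simp
    rw [coeff_mul_C, ← hn, hm.coeff_natDegree, one_mul]
  · intro R hR hne
    refine coeff_eq_zero_of_natDegree_lt ((natDegree_mul_C_le _ _).trans_lt
      ((natDegree_prod_le _ _).trans_lt ?_))
    simp only [natDegree_X_add_C, sum_const, smul_eq_mul, mul_one]
    exact card_lt_card (Finset.ssubset_iff_subset_ne.2 ⟨mem_powerset.1 hR, hne⟩)

/-- The mixed determinant over `U` with fixed extra sites `D`, as a real polynomial. -/
noncomputable def pMix (x : Fin r → Matrix V V ℂ) (p : V → Fin r → ℝ) (y : Fin r → V → ℝ)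
    (U : Finset V) (D : Fin r → Finset V) : ℝ[X] :=
  ∑ f : V → Fin r, C (∏ v, p v (f v)) *
    ∏ d, pMinor (x d) (y d) (U.filter (fun v => f v = d)) (D d ∪ U.filter (fun v => f v = d))

lemma aeval_pMix {x : Fin r → Matrix V V ℂ} (hx : ∀ d, (x d).IsHermitian) (p : V → Fin r → ℝ)
    (y : Fin r → V → ℝ) (U : Finset V) (D : Fin r → Finset V) (hD : ∀ d, Disjoint U (D d)) (w : ℂ) :
    aeval w (pMix x p y U D)
      = mix x p (fun d i => if i ∈ U then (y d i : ℂ) + w else 0) U D := by
  simp only [pMix, mix, map_sum, map_mul, map_prod, aeval_C, Complex.coe_algebraMap]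
  refine sum_congr rfl (fun f _ => congrArg _ (prod_congr rfl (fun d _ => ?_)))
  rw [aeval_pMinor (hx d) (y d) subset_union_right]
  refine minorMat_det_congr _ (fun i hi => ?_)
  rcases mem_union.1 hi with h | h
  · have hU : i ∉ U := fun h' => disjoint_left.1 (hD d) h' h
    simp [hU]
  · simp only [mem_filter] at h
    simp [h.1, h.2]

lemma coeff_prod_top {ι : Type*} [DecidableEq ι] (s : Finset ι) (q : ι → ℝ[X]) (m : ι → ℕ)
    (h : ∀ i ∈ s, (q i).natDegree ≤ m i) :
    (∏ i ∈ s, q i).coeff (∑ i ∈ s, m i) = ∏ i ∈ s, (q i).coeff (m i) := by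
  induction s using Finset.induction_on with
  | empty => simp
  | insert a s ha ih =>
    have h1 : ∀ i ∈ s, (q i).natDegree ≤ m i := fun i hi => h i (mem_insert_of_mem hi)
    rw [prod_insert ha, prod_insert ha, sum_insert ha, coeff_mul_add_eq_of_natDegree_le
      (h a (mem_insert_self a s)) ((natDegree_prod_le _ _).trans (sum_le_sum h1)), ih h1]

omit [Fintype V] [DecidableEq V] in
lemma card_fibres (U : Finset V) (f : V → Fin r) :
    ∑ d, (U.filter (fun v => f v = d)).card = U.card :=
  (card_eq_sum_card_fiberwise (fun v _ => mem_univ (f v))).symm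

lemma natDegree_pMix_le (x : Fin r → Matrix V V ℂ) (p : V → Fin r → ℝ) (y : Fin r → V → ℝ)
    (U : Finset V) (D : Fin r → Finset V) : (pMix x p y U D).natDegree ≤ U.card :=
  natDegree_sum_le_of_forall_le _ _ (fun f _ => (natDegree_C_mul_le _ _).trans
    ((natDegree_prod_le _ _).trans
      ((sum_le_sum (fun _ _ => natDegree_pMinor_le _ _ _ _)).trans (card_fibres U f).le)))

lemma coeff_pMix (x : Fin r → Matrix V V ℂ) (p : V → Fin r → ℝ) (y : Fin r → V → ℝ)
    (U : Finset V) (D : Fin r → Finset V) (hD : ∀ d, Disjoint U (D d)) :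
    (pMix x p y U D).coeff U.card
      = ∑ f : V → Fin r, (∏ v, p v (f v)) * ∏ d, (minorMat (x d) 0 (D d)).det.re := by
  rw [pMix, finsetSum_coeff]
  refine sum_congr rfl (fun f _ => ?_)
  rw [coeff_C_mul, ← card_fibres U f,
    coeff_prod_top _ _ _ (fun d _ => natDegree_pMinor_le _ _ _ _)]
  refine congrArg _ (prod_congr rfl (fun d _ => ?_))
  rw [coeff_pMinor, union_sdiff_right,
    Finset.sdiff_eq_self_of_disjoint (Disjoint.mono_right (filter_subset _ _) (hD d).symm)]

variable {x : Fin r → Matrix V V ℂ} {p : V → Fin r → ℝ} {B : ℝ}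

/-- **The pointed factorisation.** -/
theorem exists_pointFactor (hx : ∀ c, NumBound (x c) B) (hp : ∀ v c, 0 ≤ p v c)
    (hp1 : ∀ v, ∑ c, p v c = 1) (y : Fin r → V → ℝ) (u : V) (h0 : ∀ c, x c u u = 0) :
    ∃ b : Fin (Fintype.card V - 1) → ℝ, ∃ k : Fin r → Fin (Fintype.card V - 1) → ℝ,
      (∀ w : ℂ, mix x p (fun c v => (y c v : ℂ) + w) (univ.erase u) (fun _ => ∅) = rootProd b w) ∧
      (∀ c i, 0 ≤ k c i) ∧
      ∀ c (w : ℂ), mix x p (fun c v => (y c v : ℂ) + w) (univ.erase u) (adj (fun _ => ∅) c u)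
        = rootProd b w * ((y c u : ℂ) + w) - ∑ i, (k c i : ℂ) * ∏ j ∈ univ.erase i, (w - b j) := by
  classical
  set U := (univ : Finset V).erase u with hU
  set n := Fintype.card V - 1 with hn
  have hUc : U.card = n := by simp [U, n]
  have huU : u ∉ U := notMem_erase _ _
  have hH : ∀ c, (x c).IsHermitian := fun c => (hx c).1
  set Q := pMix x p y U (fun _ => ∅) with hQ
  have hsum : ∑ f : V → Fin r, ∏ v, p v (f v) = 1 := by
    rw [← Fintype.prod_sum]
    simp [hp1]
  have hQ1 : Q.coeff n = 1 := by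
    rw [← hUc, hQ, coeff_pMix _ _ _ _ _ (fun _ => disjoint_empty_right _)]
    simp [minorMat_empty, hsum]
  have hQev : ∀ w : ℂ, aeval w Q
      = mix x p (fun c v => (y c v : ℂ) + w) U (fun _ => ∅) := fun w => by
    rw [hQ, aeval_pMix hH p y U _ (fun _ => disjoint_empty_right _)]
    refine sum_congr rfl (fun f _ => congrArg _ (prod_congr rfl (fun d _ => ?_)))
    refine minorMat_det_congr _ (fun i hi => ?_)
    simp only [mem_union, notMem_empty, false_or, mem_filter] at hi
    simp [hi.1]
  have hstab : ∀ w : ℂ, 0 < w.im → aeval w Q ≠ 0 ∧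
      ∀ c, w.im ≤ (mix x p (fun c v => (y c v : ℂ) + w) U (adj (fun _ => ∅) c u) / aeval w Q).im := by
    intro w hw
    obtain ⟨h1, h2⟩ := mix_stable hx (upper0 B) hp hp1 U (fun c v => (y c v : ℂ) + w)
      (fun c v => by simpa using hw) (fun _ => ∅) (fun _ => disjoint_empty_right _)
    rw [hQev]
    refine ⟨h1, fun c => ?_⟩
    have := h2 c u huU (notMem_empty _)
    simpa [upper0_ht, HalfPlane.ht, upper0, adj] using this
  obtain ⟨b, -, hb⟩ := real_rooted_form (P := Q.map (algebraMap ℝ ℂ)) (n := n)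
    (natDegree_map_le.trans (hUc ▸ natDegree_pMix_le x p y U _))
    (by rw [coeff_map, hQ1]; simp)
    (fun s hs => by
      rw [eval_map, ← aeval_def] at hs
      rcases lt_trichotomy s.im 0 with h | h | h
      · refine absurd ?_ (hstab (starRingEnd ℂ s) (by simpa using h)).1
        rw [← Complex.conjAe_coe, aeval_algHom_apply, hs, map_zero]
      · exact h
      · exact absurd hs (hstab s h).1)
  rw [coeff_map, hQ1, map_one] at hb
  have hQroot : ∀ w : ℂ, aeval w Q = rootProd b w := fun w => by
    rw [aeval_def, ← eval_map, hb, eval_form, one_mul]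
  set R : Fin r → ℝ[X] := fun c => pMix x p y U (adj (fun _ => ∅) c u) with hR
  have hdisj : ∀ c d : Fin r, Disjoint U (adj (fun _ => (∅ : Finset V)) c u d) := fun c d => by
    by_cases h : d = c
    · subst h
      simpa [adj] using huU
    · simp [adj, Function.update_of_ne h]
  have hRdeg : ∀ c, (R c).degree < (n : ℕ) := by
    intro c
    refine (degree_le_of_natDegree_le
      (hUc ▸ natDegree_pMix_le x p y U (adj (fun _ => ∅) c u) : (R c).natDegree ≤ n)).lt_of_ne
      (fun he => coeff_ne_zero_of_eq_degree he ?_)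
    rw [hR, ← hUc, coeff_pMix _ _ _ _ _ (hdisj c)]
    refine sum_eq_zero (fun f _ => mul_eq_zero_of_right _ (prod_eq_zero (mem_univ c) ?_))
    rw [Matrix.det_eq_zero_of_row_eq_zero u (fun l => ?_), Complex.zero_re]
    by_cases hl : l = u
    · subst hl
      simp [minorMat, adj, h0]
    · simp [minorMat, adj, hl, Ne.symm hl]
  have hK : ∀ c (w : ℂ), mix x p (fun c v => (y c v : ℂ) + w) U (adj (fun _ => ∅) c u)
      = ((y c u : ℂ) + w) * aeval w Q + aeval w (R c) := by
    intro c w
    have h := mix_affine' (x := x) (z := fun c v => (y c v : ℂ) + w) hp1 U (fun _ => ∅) c u huU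
      (notMem_empty _) ((y c u : ℂ) + w)
    rw [show setVar (fun c v => (y c v : ℂ) + w) c u ((y c u : ℂ) + w)
      = fun c v => (y c v : ℂ) + w by simp [setVar]] at h
    rw [h, hQev, hR, aeval_pMix hH p y U _ (hdisj c)]
    congr 1
    refine sum_congr rfl (fun f _ => congrArg _ (prod_congr rfl (fun d _ => ?_)))
    refine minorMat_det_congr _ (fun i hi => ?_)
    rcases mem_union.1 hi with hl | hr'
    · by_cases hd : d = c
      · subst hd
        simp only [adj, Function.update_self, insert_empty_eq, mem_singleton] at hl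
        subst hl
        simp [setVar, huU]
      · simp [adj, Function.update_of_ne hd] at hl
    · simp only [mem_filter] at hr'
      have hne : i ≠ u := fun e => huU (e ▸ hr'.1)
      by_cases hd : d = c
      · subst hd
        simp [setVar, Function.update_of_ne hne, hr'.1]
      · simp [setVar, Function.update_of_ne hd, hr'.1]
  have hres : ∀ c, ∃ β : Fin n → ℝ, (∀ i, 0 ≤ β i) ∧
      -R c = ∑ i ∈ univ, C (β i) * ∏ j ∈ univ.erase i, (X - C (b j)) := fun c =>
    exists_residues b univ (-R c) (by rw [degree_neg]; simpa using hRdeg c) (fun w hw => by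
      obtain ⟨hne, him⟩ := hstab w hw
      have h1 := him c
      rw [hK c w, add_div, mul_div_assoc, div_self hne, mul_one, Complex.add_im, Complex.add_im,
        Complex.ofReal_im, zero_add] at h1
      change (aeval w (-R c) / rootProd b w).im ≤ 0
      rw [← hQroot, map_neg, neg_div, Complex.neg_im]
      linarith)
  choose k hk0 hk using hres
  refine ⟨b, k, fun w => by rw [← hQev, hQroot], hk0, fun c w => ?_⟩
  have h1 := congrArg (fun q => aeval w q) (hk c)
  simp only [map_neg, map_sum, map_mul, map_prod, map_sub, aeval_C, aeval_X,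
    Complex.coe_algebraMap] at h1
  rw [hK, hQroot, ← h1]
  ring

/-- The determinant of all of `V`: the residues are averaged with the law at `u`. -/
theorem mix_pointFactor (hp1 : ∀ v, ∑ c, p v c = 1) {y : Fin r → V → ℝ} {u : V} {n : ℕ}
    {b : Fin n → ℝ} {k : Fin r → Fin n → ℝ}
    (hk : ∀ c (w : ℂ), mix x p (fun c v => (y c v : ℂ) + w) (univ.erase u) (adj (fun _ => ∅) c u)
        = rootProd b w * ((y c u : ℂ) + w) - ∑ i, (k c i : ℂ) * ∏ j ∈ univ.erase i, (w - b j))
    (w : ℂ) :
    mix x p (fun c v => (y c v : ℂ) + w) univ (fun _ => ∅)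
      = rootProd b w * (((∑ c, p u c * y c u : ℝ) : ℂ) + w)
        - ∑ i, ((∑ c, p u c * k c i : ℝ) : ℂ) * ∏ j ∈ univ.erase i, (w - b j) := by
  have h := mix_insert (x := x) (z := fun c v => (y c v : ℂ) + w) hp1
    (notMem_erase u (univ : Finset V)) (fun _ => ∅)
  rw [insert_erase (mem_univ u)] at h
  rw [h]
  simp only [show ∀ c, Function.update (fun _ => (∅ : Finset V)) c (insert u ∅)
    = adj (fun _ => ∅) c u from fun _ => rfl, hk, mul_sub, mul_add, sum_sub_distrib,
    sum_add_distrib, Complex.ofReal_sum, Complex.ofReal_mul, mul_sum, sum_mul]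
  congr 1
  · congr 1
    · exact sum_congr rfl (fun c _ => by ring)
    · rw [← sum_mul, ← Complex.ofReal_sum, hp1, Complex.ofReal_one, one_mul]
  · rw [sum_comm]
    exact sum_congr rfl (fun i _ => sum_congr rfl (fun c _ => by ring))

end Vale.Agent.P078.TypeIII
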