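import Vale.Agent.P078.TypeIII.Regular.Final
import Vale.Agent.P078.TypeIII.Rule.Main
import Vale.Agent.P078.TypeIII.Rule.Inv
import Vale.Agent.P078.TypeIII.Rule.Count
import Vale.Agent.P078.TypeIII.Rule.End
import Vale.Agent.P078.TypeIII.Rule.Process
import Vale.Agent.P078.TypeIII.Reg.Regular
import Vale.Agent.P078.TypeIII.Reg.Window
import Vale.Agent.P078.TypeIII.Reg.Delete
import Vale.Agent.P078.TypeIII.Reg.Update
import Vale.Agent.P078.TypeIII.Reg.Tail
import Vale.Agent.P078.TypeIII.Reg.Prob

/-!
# All the modules of the type III argument combined
-/

namespace Vale.Agent.P078.TypeIII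

open Vale.Agent.P078.TypeIII.Reg

universe u

/-- Good rules exist for every graph model. -/
theorem ruleGoal : Regular.RuleGoal.{u} 405 :=
  Rule.ruleGoal_of
    (regular_of avg validMono uniformStart leftover
      (window pCongr validMono avalMono uniformStart convex phiCongr phiBounds phiStep tail avg
        qLaw' split)
      delete)
    inv pCongr validMono count iterLocal runAvg iterShift Regular.endBound

end Vale.Agent.P078.TypeIII
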