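import Vale.Agent.P078.TypeIII.Singular.Pave

/-!
# From the centralised core to every MASA of every von Neumann algebra
-/

namespace Vale.Agent.P078.TypeIII

open Vale.Agent.P078 Vale.Agent.P078.General Vale.Agent.P078.Finite

universe u

/-- **From the core to all MASAs.** If centred self-adjoint contractions over a MASA in the
centraliser of a separating vector are paved at the vector to norm `c` by `r` pieces, then every
MASA of every von Neumann algebra has the paving property with slightly more than `2 c`. -/
theorem allPavable_of_centCore {r : ℕ} [NeZero r] {c : ℝ}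
    (hcore : ∀ (K : Type u) [NormedAddCommGroup K] [InnerProductSpace ℂ K] [CompleteSpace K]
      (M' : VonNeumannAlgebra K) (A' : StarSubalgebra ℂ (K →L[ℂ] K)) (Ω : K)
      (h : CentSetting M' A' Ω) (x : K →L[ℂ] K), x ∈ M' → IsSelfAdjoint x → ‖x‖ ≤ 1 →
        plim h.masa x = 0 → L2Paved M' A' Ω c r x)
    {H : Type u} [NormedAddCommGroup H] [InnerProductSpace ℂ H] [CompleteSpace H]
    {M : VonNeumannAlgebra H} {A : StarSubalgebra ℂ (H →L[ℂ] H)} (hA : IsMASAIn M A) {ε : ℝ}
    (hε : max (2 * c) (1 / (r : ℝ)) + 1 / (r : ℝ) < ε) : AllPavable M A ε r :=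
  Singular.allPavable_of_cuts hA
    (fun hg _ hy hys hy1 hgy hyg hy0 _ hη₀ =>
      Singular.exists_corner_paving_of hA hg hy hys hy1 hgy hyg hy0 hη₀
        (fun _ _ _ h w hw hws hw1 hw0 => hcore _ _ _ _ h w hw hws hw1 hw0)) hε

end Vale.Agent.P078.TypeIII
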