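import Vale.Agent.P078.TypeIII.Rect
import Vale.Agent.P078.Mix.Words

/-!
# Chains of near-optimal states and their limits

For either side of a bimodule vector, a chain of states with almost maximal drops converges at
`Ω` to an element which is approximately intertwined by every projection of the MASA.
-/

set_option linter.unusedSectionVars false

namespace Vale.Agent.P078.TypeIII

open ComplexInnerProductSpace
open Filter Topology
open Vale.Agent.P078 Vale.Agent.P078.General Vale.Agent.P078.Finite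
open scoped CStarAlgebra

universe u

variable {H : Type u} [NormedAddCommGroup H] [InnerProductSpace ℂ H] [CompleteSpace H]
variable {M : VonNeumannAlgebra H} {A : StarSubalgebra ℂ (H →L[ℂ] H)} {Ω : H}

/-- The compression of the swapped state is again absorbing. -/
lemma swap_comp {L L' : Blocks A} (hc : ∀ a, L'.op (L.op a) = L'.op a) (a : H →L[ℂ] H) :
    L'.swap.op (L.swap.op a) = L'.swap.op a := by
  apply star_injective
  rw [← Blocks.op_star, ← Blocks.op_star, ← Blocks.op_star, hc]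

/-- An intertwining relation, read from the other side. -/
lemma swap_intertwine {L : Blocks A} {e x : H →L[ℂ] H} (he : IsStarProjection e)
    (hx : IsStarProjection x) (hi : ∀ a, e * L.op a = L.op a * x) (a : H →L[ℂ] H) :
    L.swap.op a * e = x * L.swap.op a := by
  apply star_injective
  rw [star_mul, star_mul, he.isSelfAdjoint.star_eq, hx.isSelfAdjoint.star_eq, ← Blocks.op_star, hi]

variable (h : CentSetting M A Ω)
include h

lemma inner_op (L : Blocks A) {a b : H →L[ℂ] H} (ha : a ∈ M) (hb : b ∈ M) :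
    ⟪L.op a Ω, b Ω⟫ = ⟪a Ω, L.op b Ω⟫ := by
  simp only [Blocks.op, _root_.sum_apply, sum_inner, inner_sum]
  refine Finset.sum_congr rfl (fun i _ => ?_)
  have he := h.masa.mem_M (L.e_mem i)
  rw [inner_apply, inner_apply]
  simp only [star_mul, (L.e_proj i).isSelfAdjoint.star_eq, (L.x_proj i).isSelfAdjoint.star_eq,
    mul_assoc]
  rw [h.central _ (L.x_mem i) _ (mul_mem (star_mem ha) (mul_mem he hb))]
  simp only [mul_assoc]

lemma inner_op_self (L : Blocks A) {a : H →L[ℂ] H} (ha : a ∈ M) :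
    ⟪L.op a Ω, a Ω⟫ = ((‖L.op a Ω‖ ^ 2 : ℝ) : ℂ) := by
  conv_lhs => rw [← L.op_op a]
  rw [inner_op h L (L.op_mem h.masa ha) ha, inner_self_eq_norm_sq_to_K]
  norm_cast

lemma norm_op_apply_le (L : Blocks A) {a : H →L[ℂ] H} (ha : a ∈ M) :
    ‖L.op a Ω‖ ≤ ‖a Ω‖ := by
  have h1 := congrArg (fun z : ℂ => ‖z‖) (inner_op_self h L ha)
  simp only [Complex.norm_real, Real.norm_of_nonneg (sq_nonneg ‖L.op a Ω‖)] at h1
  have h2 := norm_inner_le_norm (𝕜 := ℂ) (L.op a Ω) (a Ω)
  rw [h1, sq] at h2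
  rcases eq_or_lt_of_le (norm_nonneg (L.op a Ω)) with h0 | h0
  · rw [← h0]; positivity
  · exact le_of_mul_le_mul_left h2 h0

omit h in
lemma norm_sq_op (L : Blocks A) (a : H →L[ℂ] H) :
    ‖L.op a Ω‖ ^ 2 = ∑ i, ‖(L.e i * a * L.x i) Ω‖ ^ 2 := by
  simp only [Blocks.op, _root_.sum_apply, mul_apply_eq_comp]
  exact norm_sq_sum_left Finset.univ L.e L.e_proj L.e_orth (fun i => a (L.x i Ω))

/-- The rectangle functional of a vector from the left. -/
lemma rectFun_left {y : H →L[ℂ] H} (hy : y ∈ M) :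
    RectFun A (fun e x => ‖(e * y * x) Ω‖ ^ 2) where
  nonneg _ _ := sq_nonneg _
  zero_right e := by simp
  mono_left e e' x heA he _ _ _ _ hee := by
    refine pow_le_pow_left₀ (norm_nonneg _) ?_ 2
    rw [← hee, mul_assoc e e' y, mul_assoc e (e' * y) x]
    exact proj_norm_le he _
  add_right e heA _ {k} x hx ho s :=
    norm_sq_sum_right h s x (fun i => (hx i).1) (fun i => (hx i).2) ho
      (mul_mem (h.masa.mem_M heA) hy)
  bounded := ⟨‖y‖ ^ 2 * ‖Ω‖ ^ 2, fun k e x he _ hx hxo => by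
    calc ∑ i, ‖(e i * y * x i) Ω‖ ^ 2 ≤ ∑ i, ‖y‖ ^ 2 * ‖x i Ω‖ ^ 2 := by
          refine Finset.sum_le_sum (fun i _ => ?_)
          rw [← mul_pow]
          exact pow_le_pow_left₀ (norm_nonneg _)
            ((proj_norm_le (he i).2 _).trans (y.le_opNorm _)) 2
      _ ≤ _ := by
          rw [← Finset.mul_sum]
          exact mul_le_mul_of_nonneg_left
            (sum_proj_le (fun i => (hx i).2) hxo Ω) (sq_nonneg _)⟩

/-- The rectangle functional of a vector from the right. -/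
lemma rectFun_right {y : H →L[ℂ] H} (hy : y ∈ M) :
    RectFun A (fun e x => ‖(x * y * e) Ω‖ ^ 2) where
  nonneg _ _ := sq_nonneg _
  zero_right e := by simp
  mono_left e e' x heA he he'A _ hxA _ hee := by
    refine pow_le_pow_left₀ (norm_nonneg _) ?_ 2
    rw [← hee, h.masa.comm heA he'A, ← mul_assoc]
    exact norm_mul_proj_le h
      (mul_mem (mul_mem (h.masa.mem_M hxA) hy) (h.masa.mem_M he'A)) heA he
  add_right e _ _ {k} x hx ho s := by
    simp only [Finset.sum_mul, _root_.sum_apply]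
    exact norm_sq_sum_left s x (fun i => (hx i).2) ho (fun _ => y (e Ω))
  bounded := ⟨‖y‖ ^ 2 * ‖Ω‖ ^ 2, fun k e x he heo hx _ => by
    calc ∑ i, ‖(x i * y * e i) Ω‖ ^ 2 ≤ ∑ i, ‖y‖ ^ 2 * ‖e i Ω‖ ^ 2 := by
          refine Finset.sum_le_sum (fun i _ => ?_)
          rw [← mul_pow]
          exact pow_le_pow_left₀ (norm_nonneg _)
            ((proj_norm_le (hx i).2 _).trans (y.le_opNorm _)) 2
      _ ≤ _ := by
          rw [← Finset.mul_sum]
          exact mul_le_mul_of_nonneg_left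
            (sum_proj_le (fun i => (he i).2) heo Ω) (sq_nonneg _)⟩

/-- **Chains converge to approximate intertwiners.** The map `F` is the identity or the swap. -/
theorem exists_chain {N : (H →L[ℂ] H) → (H →L[ℂ] H) → ℝ} (hN : RectFun A N)
    (F : Blocks A → Blocks A)
    (hF : ∀ L L' : Blocks A, (∀ a, L'.op (L.op a) = L'.op a) →
      ∀ a, (F L').op ((F L).op a) = (F L').op a)
    {y : H →L[ℂ] H} (hy : y ∈ M)
    (hdom : ∀ L : Blocks A, ∑ i, N (L.e i) (L.x i) = ‖(F L).op y Ω‖ ^ 2)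
    {c : ℝ} (hc : 0 < c) (hlow : ∀ Q : Part A, c ≤ rScore N 1 1 Q) :
    ∃ (z : H →L[ℂ] H) (L : ℕ → Blocks A), z ∈ M ∧
      Tendsto (fun n => (F (L n)).op y Ω) atTop (𝓝 (z Ω)) ∧ 0 < ‖z Ω‖ ∧
      ∀ e, e ∈ A → IsStarProjection e → ∀ η : ℝ, 0 < η →
        ∃ (L' : Blocks A) (x : H →L[ℂ] H), x ∈ A ∧ IsStarProjection x ∧
          ‖(z - (F L').op y) Ω‖ ≤ η ∧ ∀ a, e * L'.op a = L'.op a * x := by
  classical
  have hA := h.masa
  have hstep : ∀ (n : ℕ) (L : Blocks A) (e : {e : H →L[ℂ] H // e ∈ A ∧ IsStarProjection e}),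
      ∃ (L' : Blocks A) (x : H →L[ℂ] H), x ∈ A ∧ IsStarProjection x ∧
      rStVal hA hN L - c / 2 * (1 / 2) ^ (n + 1) ≤ rStVal hA hN L' ∧
      (∀ a, L'.op (L.op a) = L'.op a) ∧ ∀ a, e.1 * L'.op a = L'.op a * x :=
    fun n L e => exists_rExt hA hN L e.2.1 e.2.2 (by positivity)
  choose ext xh hxA hxp hval hcomp hint using hstep
  set g : Blocks A → (H →L[ℂ] H) := fun L => (F L).op y with hg
  have hgM : ∀ L, g L ∈ M := fun L => Blocks.op_mem _ hA hy
  have hdist : ∀ L L' : Blocks A, (∀ a, L'.op (L.op a) = L'.op a) →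
      ‖(g L - g L') Ω‖ ^ 2 = ‖g L Ω‖ ^ 2 - ‖g L' Ω‖ ^ 2 := by
    intro L L' hc'
    have h1 : ⟪g L' Ω, g L Ω⟫ = ((‖g L' Ω‖ ^ 2 : ℝ) : ℂ) := by
      simp only [hg]
      rw [inner_op h _ hy (hgM L), hF L L' hc', ← inner_conj_symm,
        inner_op_self h _ hy, Complex.conj_ofReal]
    rw [sub_apply, norm_sub_sq (𝕜 := ℂ), inner_re_symm, h1, RCLike.re_to_complex,
      Complex.ofReal_re]
    ring
  let drop : ℕ → Blocks A → {e : H →L[ℂ] H // e ∈ A ∧ IsStarProjection e} → ℝ :=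
    fun n L e => ‖(g L - g (ext n L e)) Ω‖ ^ 2
  have hdrop : ∀ n L e, drop n L e = ‖g L Ω‖ ^ 2 - ‖g (ext n L e) Ω‖ ^ 2 :=
    fun n L e => hdist _ _ (hcomp n L e)
  have hsel : ∀ n L, ∃ e, ∀ e', drop n L e' ≤ drop n L e + (1 / 2) ^ n := by
    intro n L
    have hne : (Set.range (drop n L)).Nonempty :=
      ⟨_, ⟨1, one_mem A, IsStarProjection.one _⟩, rfl⟩
    have hb : BddAbove (Set.range (drop n L)) := by
      refine ⟨‖g L Ω‖ ^ 2, ?_⟩
      rintro _ ⟨e, rfl⟩
      rw [hdrop]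
      linarith [sq_nonneg ‖g (ext n L e) Ω‖]
    obtain ⟨_, ⟨e, rfl⟩, he⟩ := exists_lt_of_lt_csSup hne
      (show sSup (Set.range (drop n L)) - (1 / 2) ^ n < sSup (Set.range (drop n L)) by
        have : (0 : ℝ) < (1 / 2) ^ n := by positivity
        linarith)
    exact ⟨e, fun e' => by linarith [le_csSup hb ⟨e', rfl⟩]⟩
  choose sel hselmax using hsel
  let L0 : Blocks A := ⟨Unit, inferInstance, fun _ => 1, fun _ => 1, fun _ => one_mem A,
    fun _ => one_mem A, fun _ => IsStarProjection.one _, fun _ => IsStarProjection.one _,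
    fun i j hij => absurd (Subsingleton.elim i j) hij,
    fun i j hij => absurd (Subsingleton.elim i j) hij⟩
  let Ls : ℕ → Blocks A := fun n => Nat.rec L0 (fun n L => ext n L (sel n L)) n
  have hsucc : ∀ n, Ls (n + 1) = ext n (Ls n) (sel n (Ls n)) := fun n => rfl
  have hV : ∀ n, c / 2 + c / 2 * (1 / 2) ^ n ≤ rStVal hA hN (Ls n) := by
    intro n
    induction n with
    | zero =>
      change _ ≤ ∑ _i : Unit, rVal A N 1 1
      rw [Fintype.sum_unique, pow_zero, mul_one, add_halves]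
      exact le_ciInf hlow
    | succ n ih =>
      rw [hsucc]
      have h1 := hval n (Ls n) (sel n (Ls n))
      rw [pow_succ] at h1 ⊢
      linarith
  have hnormlow : ∀ n, c / 2 ≤ ‖g (Ls n) Ω‖ ^ 2 := by
    intro n
    simp only [hg]
    rw [← hdom]
    refine le_trans ?_ (Finset.sum_le_sum (fun i _ => rVal_le_apply hA hN ((Ls n).e_mem i)
      ((Ls n).e_proj i) ((Ls n).x_mem i) ((Ls n).x_proj i)))
    refine le_trans ?_ (hV n)
    have : 0 ≤ c / 2 * (1 / 2) ^ n := by positivity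
    linarith
  have htrans : ∀ n m, n ≤ m → ∀ a, (Ls m).op ((Ls n).op a) = (Ls m).op a := by
    intro n m hnm
    induction m, hnm using Nat.le_induction with
    | base => exact (Ls n).op_op
    | succ m _ ih =>
      intro a
      have hs := hcomp m (Ls m) (sel m (Ls m))
      rw [← hsucc] at hs
      rw [← hs, ih, hs]
  have hsq : ∀ n m, n ≤ m → ‖(g (Ls n) - g (Ls m)) Ω‖ ^ 2
      = ‖g (Ls n) Ω‖ ^ 2 - ‖g (Ls m) Ω‖ ^ 2 := fun n m hnm => hdist _ _ (htrans n m hnm)
  have ha : Antitone (fun n => ‖g (Ls n) Ω‖ ^ 2) := fun n m hnm => by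
    have := sq_nonneg ‖(g (Ls n) - g (Ls m)) Ω‖
    simp only
    linarith [hsq n m hnm]
  have hb : BddBelow (Set.range (fun n => ‖g (Ls n) Ω‖ ^ 2)) :=
    ⟨0, by rintro _ ⟨n, rfl⟩; exact sq_nonneg _⟩
  have hconv := tendsto_atTop_ciInf ha hb
  have hC : CauchySeq (fun n => g (Ls n) Ω) := by
    have hc' := hconv.cauchySeq
    rw [Metric.cauchySeq_iff'] at hc' ⊢
    intro ε hε
    obtain ⟨n₀, hn₀⟩ := hc' (ε ^ 2) (by positivity)
    refine ⟨n₀, fun n hn => (sq_lt_sq₀ dist_nonneg hε.le).1 ?_⟩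
    rw [dist_comm, dist_eq_norm, ← sub_apply, hsq n₀ n hn]
    refine lt_of_le_of_lt (le_abs_self _) ?_
    rw [abs_sub_comm]
    simpa [Real.dist_eq] using hn₀ n hn
  obtain ⟨z, hzM, -, hz, -⟩ :=
    exists_limit (fun n => hgM (Ls n)) (fun n => Blocks.norm_op_le _ y) hC
  refine ⟨z, Ls, hzM, hz, ?_, ?_⟩
  · have := ge_of_tendsto' (hz.norm.pow 2) hnormlow
    nlinarith [norm_nonneg (z Ω)]
  · intro e heA he η hη
    have hd : Tendsto (fun n => drop n (Ls n) ⟨e, heA, he⟩) atTop (𝓝 0) := by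
      refine squeeze_zero (fun n => sq_nonneg _) (fun n => hselmax n (Ls n) ⟨e, heA, he⟩) ?_
      have h1 := hconv.sub (hconv.comp (tendsto_add_atTop_nat 1))
      rw [sub_self] at h1
      have h2 := h1.add (tendsto_pow_atTop_nhds_zero_of_lt_one (by norm_num : (0 : ℝ) ≤ 1 / 2)
        (by norm_num : (1 / 2 : ℝ) < 1))
      rw [add_zero] at h2
      refine h2.congr (fun n => ?_)
      simp only [Function.comp_apply, hdrop, hsucc]
    have hη2 : 0 < η / 2 := by positivity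
    obtain ⟨n, hn1, hn2⟩ := ((hd.eventually (gt_mem_nhds (pow_pos hη2 2))).and
      (Metric.tendsto_nhds.1 hz _ hη2)).exists
    set e' : {e : H →L[ℂ] H // e ∈ A ∧ IsStarProjection e} := ⟨e, heA, he⟩
    refine ⟨ext n (Ls n) e', xh n (Ls n) e', hxA _ _ _, hxp _ _ _, ?_, hint n (Ls n) e'⟩
    have e1 : ‖(g (Ls n) - g (ext n (Ls n) e')) Ω‖ ≤ η / 2 :=
      ((sq_lt_sq₀ (norm_nonneg _) hη2.le).1 hn1).le
    rw [dist_eq_norm, norm_sub_rev, ← sub_apply] at hn2
    have e2 : (z - (F (ext n (Ls n) e')).op y) Ω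
        = (z - g (Ls n)) Ω + (g (Ls n) - g (ext n (Ls n) e')) Ω := by simp [hg]
    rw [e2]
    refine (norm_add_le _ _).trans ?_
    linarith

end Vale.Agent.P078.TypeIII
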