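import Vale.Agent.P078.TypeIII.Expand

/-!
# The part generated by the normalisers, without a trace

For `y ∈ M` there is `n ∈ M` with `‖n‖ ≤ ‖y‖`, approximated at `Ω` together with its adjoint by
the span of the normalisers, such that `y - n` is orthogonal to the normalisers.
-/

set_option linter.unusedSectionVars false

namespace Vale.Agent.P078.TypeIII

open ComplexInnerProductSpace
open Filter Topology
open Vale.Agent.P078 Vale.Agent.P078.General Vale.Agent.P078.Finite
open scoped CStarAlgebra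

universe u

variable {H : Type u} [NormedAddCommGroup H] [InnerProductSpace ℂ H] [CompleteSpace H]
variable {M : VonNeumannAlgebra H} {A : StarSubalgebra ℂ (H →L[ℂ] H)} {Ω : H}

instance completeSpace_vecN : CompleteSpace (vecN M A Ω) :=
  Submodule.topologicalClosure.completeSpace _

/-- The orthogonal projection onto the vectors generated by normalisers. -/
noncomputable def projN (M : VonNeumannAlgebra H) (A : StarSubalgebra ℂ (H →L[ℂ] H)) (Ω : H) :
    H →L[ℂ] H :=
  (vecN M A Ω).starProjection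

lemma projN_mem (ξ : H) : projN M A Ω ξ ∈ vecN M A Ω := Submodule.starProjection_apply_mem _ _

lemma projN_of_mem {ξ : H} (hξ : ξ ∈ vecN M A Ω) : projN M A Ω ξ = ξ :=
  Submodule.starProjection_eq_self_iff.2 hξ

lemma projN_proj : IsStarProjection (projN M A Ω) := isStarProjection_starProjection

lemma inner_sub_projN {k : H} (hk : k ∈ vecN M A Ω) (ξ : H) :
    ⟪k, ξ - projN M A Ω ξ⟫ = 0 := by
  exact (Submodule.mem_orthogonal _ _).1 (Submodule.sub_starProjection_mem_orthogonal _) k hk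

lemma inner_projN {k : H} (hk : k ∈ vecN M A Ω) (ξ : H) :
    ⟪k, projN M A Ω ξ⟫ = ⟪k, ξ⟫ := by
  have := inner_sub_projN (M := M) (A := A) (Ω := Ω) hk ξ
  rw [inner_sub_right, sub_eq_zero] at this
  exact this.symm

lemma projN_comm (hA : IsMASAIn M A) {s : H →L[ℂ] H} (hs : s ∈ spanC M A) :
    s * projN M A Ω = projN M A Ω * s := by
  exact starProjection_commute _ s (fun k hk => spanC_apply_vecN hA hs hk)
    (fun k hk => spanC_apply_vecN hA (spanC_star hs) hk)

lemma spanC_commute {X : H →L[ℂ] H} (hX : ∀ v, IsNormaliser M A v → v * X = X * v)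
    {s : H →L[ℂ] H} (hs : s ∈ spanC M A) : s * X = X * s := by
  refine spanC_induction (P := fun x => x * X = X * x)
    (isClosed_eq (continuous_id.mul continuous_const) (continuous_const.mul continuous_id))
    (fun x hx => ?_) hs
  induction hx using Submodule.span_induction with
  | mem v hv => exact hX v hv
  | zero => simp
  | add a b _ _ ha hb => rw [add_mul, mul_add, ha, hb]
  | smul c a _ ha => rw [smul_mul_assoc, mul_smul_comm, ha]

variable (h : CentSetting M A Ω)
include h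

lemma omega_mem_vecN : Ω ∈ vecN M A Ω := by
  simpa using spanC_apply_mem_vecN (Ω := Ω) (mem_spanC_of_mem_A h.masa (one_mem A))

/-- Simultaneous approximation of the two projections. -/
theorem exists_spanC_approx {y : H →L[ℂ] H} (hy : y ∈ M) {η : ℝ} (hη : 0 < η) :
    ∃ s ∈ spanC M A, ‖projN M A Ω (y Ω) - s Ω‖ < η ∧
      ‖projN M A Ω (star y Ω) - star s Ω‖ < η := by
  classical
  have hA := h.masa
  obtain ⟨_, ⟨b, hb, rfl⟩, hd⟩ := Metric.mem_closure_iff.1
    (projN_mem (M := M) (A := A) (Ω := Ω) (y Ω)) η hη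
  obtain ⟨_, ⟨b', hb', rfl⟩, hd'⟩ := Metric.mem_closure_iff.1
    (projN_mem (M := M) (A := A) (Ω := Ω) (star y Ω)) η hη
  rw [dist_eq_norm] at hd hd'
  obtain ⟨T, hT, hbT⟩ := Submodule.mem_span_finite_of_mem_span hb
  obtain ⟨T', hT', hb'T⟩ := Submodule.mem_span_finite_of_mem_span hb'
  obtain ⟨m, v, hv, hG⟩ := exists_osys h (T.toList ++ T'.toList.map star) (fun g hg => by
    rcases List.mem_append.1 hg with hg | hg
    · exact hT (Finset.mem_toList.1 hg)
    · obtain ⟨g', hg', rfl⟩ := List.mem_map.1 hg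
      exact (hT' (Finset.mem_toList.1 hg')).adjoint)
  have hbx : b ∈ xspan A v := Submodule.span_le.2
    (fun g hg => hG g (List.mem_append_left _ (Finset.mem_toList.2 hg))) hbT
  have hb'x : b' ∈ xspan A (fun i => star (v i)) := Submodule.span_le.2
    (fun g hg => by
      simpa using star_mem_xspan hA hv (hG (star g)
        (List.mem_append_right _ (List.mem_map.2 ⟨g, Finset.mem_toList.2 hg, rfl⟩)))) hb'T
  have key : ∀ {m : ℕ} {v : Fin m → (H →L[ℂ] H)}, OSys hA v → ∀ {y b : H →L[ℂ] H}, y ∈ M →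
      b ∈ xspan A v →
      ‖projN M A Ω (y Ω) - expand hA v y Ω‖ ≤ ‖projN M A Ω (y Ω) - b Ω‖ := by
    intro m v hv y b hy hb
    have hmem := sub_mem (expand_mem h hv hy) hb
    have h1 : ⟪projN M A Ω (y Ω) - expand hA v y Ω, (expand hA v y - b) Ω⟫ = 0 := by
      have e1 := inner_sub_projN (M := M) (A := A) (Ω := Ω)
        (spanC_apply_mem_vecN (xspan_le_spanC hA hv hmem)) (y Ω)
      have e2 := inner_sub_expand h hv hy hmem
      rw [sub_apply y (expand hA v y)] at e2
      rw [← inner_conj_symm,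
        show projN M A Ω (y Ω) - expand hA v y Ω
          = (y Ω - expand hA v y Ω) - (y Ω - projN M A Ω (y Ω)) by abel,
        inner_sub_right, e1, e2, sub_zero, map_zero]
    refine (sq_le_sq₀ (norm_nonneg _) (norm_nonneg _)).1 ?_
    rw [show projN M A Ω (y Ω) - b Ω
        = (projN M A Ω (y Ω) - expand hA v y Ω) + (expand hA v y - b) Ω by simp,
      norm_add_sq (𝕜 := ℂ), h1]
    simp
  refine ⟨expand hA v y, xspan_le_spanC hA hv (expand_mem h hv hy),
    (key hv hy hbx).trans_lt hd, ?_⟩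
  rw [star_expand h hv hy]
  exact (key (OSys.adjoint h hv) (star_mem hy) hb'x).trans_lt hd'

/-- Operators commuting with the normalisers pass through the projection. -/
theorem inner_projN_swap {X y : H →L[ℂ] H} (hX : ∀ v, IsNormaliser M A v → v * X = X * v)
    (hy : y ∈ M) :
    ⟪Ω, X (projN M A Ω (y Ω))⟫ = ⟪projN M A Ω (star y Ω), X Ω⟫ := by
  refine sub_eq_zero.1 (norm_le_zero_iff.1 (le_of_forall_pos_le_add (fun δ hδ => ?_)))
  rw [zero_add]
  obtain ⟨s, hs, h1, h2⟩ := exists_spanC_approx h hy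
    (show 0 < δ / (‖star X Ω‖ + ‖X Ω‖ + 1) by positivity)
  have e : ⟪Ω, X (s Ω)⟫ = ⟪star s Ω, X Ω⟫ := by
    rw [inner_apply, star_star, spanC_commute hX hs]
    rfl
  have e2 : ⟪Ω, X (projN M A Ω (y Ω))⟫ - ⟪projN M A Ω (star y Ω), X Ω⟫
      = ⟪star X Ω, projN M A Ω (y Ω) - s Ω⟫ - ⟪projN M A Ω (star y Ω) - star s Ω, X Ω⟫ := by
    rw [ContinuousLinearMap.star_eq_adjoint X, ContinuousLinearMap.adjoint_inner_left, map_sub,
      inner_sub_right, inner_sub_left, e]
    ring
  rw [e2]
  refine (norm_sub_le _ _).trans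
    ((add_le_add (norm_inner_le_norm _ _) (norm_inner_le_norm _ _)).trans ?_)
  have hx1 := mul_le_mul_of_nonneg_left h1.le (norm_nonneg (star X Ω))
  have hx2 := mul_le_mul_of_nonneg_right h2.le (norm_nonneg (X Ω))
  have hpos : 0 < ‖star X Ω‖ + ‖X Ω‖ + 1 := by positivity
  have e3 : δ / (‖star X Ω‖ + ‖X Ω‖ + 1) * (‖star X Ω‖ + ‖X Ω‖ + 1) = δ := by field_simp
  nlinarith [mul_nonneg hδ.le (le_of_lt (inv_pos.2 hpos)), div_pos hδ hpos]

/-- The bound behind the decomposition. -/
lemma norm_commutant_projN_le {z : H →L[ℂ] H} (hz : z ∈ M) {R : H →L[ℂ] H}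
    (hR : R ∈ Set.centralizer (M : Set (H →L[ℂ] H))) :
    ‖R (projN M A Ω (z Ω))‖ ≤ ‖z‖ * ‖R Ω‖ := by
  have hA := h.masa
  set P := projN M A Ω with hP
  have hPp : IsStarProjection P := projN_proj
  set T := star (R * P) * (R * P) with hT
  have hTp : Pos T := Pos.star_mul_self _
  obtain ⟨S, hS, hSS, hSd⟩ := hTp.exists_sqrt
  have hcommT : ∀ v, IsNormaliser M A v → v * T = T * v := fun v hv => by
    have e1 := projN_comm (Ω := Ω) hA (normaliser_mem_spanC hv)
    have e2 : R * v = v * R := commute_of_mem_centralizer hv.mem hR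
    have e3 : star R * v = v * star R := commute_of_mem_centralizer hv.mem (mem_commutant_star hR)
    rw [← hP] at e1
    simp only [hT, star_mul, hPp.isSelfAdjoint.star_eq]
    calc v * (P * star R * (R * P)) = (v * P) * star R * (R * P) := by simp only [mul_assoc]
      _ = P * (v * star R) * (R * P) := by rw [e1]; simp only [mul_assoc]
      _ = P * star R * (v * R) * P := by rw [← e3]; simp only [mul_assoc]
      _ = P * star R * R * (v * P) := by rw [← e2]; simp only [mul_assoc]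
      _ = P * star R * (R * P) * v := by rw [e1]; simp only [mul_assoc]
  have hcommS : ∀ v, IsNormaliser M A v → v * S = S * v := fun v hv => by
    rw [hSd]
    exact ((Commute.cfc_real (show Commute T v from (hcommT v hv).symm) Real.sqrt).eq).symm
  have hnorm : ∀ ξ, ‖S ξ‖ = ‖R (P ξ)‖ := fun ξ => by
    refine (sq_eq_sq₀ (norm_nonneg _) (norm_nonneg _)).1 ?_
    rw [@norm_sq_eq_re_inner ℂ, @norm_sq_eq_re_inner ℂ, ← mul_apply_eq_comp R P, inner_apply,
      inner_apply, hS.star_eq, hSS, hT]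
  have hPS : P * S = S := by
    have h1 : S * (1 - P) = 0 := ContinuousLinearMap.ext (fun ξ => by
      rw [mul_apply_eq_comp, zero_apply, ← norm_le_zero_iff, hnorm,
        ← mul_apply_eq_comp P (1 - P), mul_sub, mul_one, hPp.isIdempotentElem.eq, sub_self,
        zero_apply, map_zero, norm_zero])
    have h2 := congrArg star h1
    rw [star_mul, hS.star_eq, hPp.one_sub.isSelfAdjoint.star_eq, star_zero, sub_mul, one_mul,
      sub_eq_zero] at h2
    exact h2.symm
  set ζ := P (z Ω) with hζ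
  have hSΩ : P (S Ω) = S Ω := DFunLike.congr_fun hPS Ω
  have htest : ∀ v, IsNormaliser M A v → ⟪v Ω, S ζ⟫ = ⟪v Ω, P (z (S Ω))⟫ := fun v hv => by
    have hvv : (v Ω) ∈ vecN M A Ω := spanC_apply_mem_vecN (normaliser_mem_spanC hv)
    have e1 : star v (S ζ) = S (star v ζ) := DFunLike.congr_fun (hcommS _ hv.adjoint) ζ
    have e2 : star v ζ = P ((star v * z) Ω) :=
      DFunLike.congr_fun (projN_comm (Ω := Ω) hA (normaliser_mem_spanC hv.adjoint)) (z Ω)
    have e3 : star (star v * z) = star z * v := by rw [star_mul, star_star]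
    calc ⟪v Ω, S ζ⟫ = ⟪Ω, S (P ((star v * z) Ω))⟫ := by
          rw [← ContinuousLinearMap.adjoint_inner_right, ← ContinuousLinearMap.star_eq_adjoint,
            e1, e2]
      _ = ⟪P ((star z * v) Ω), S Ω⟫ := by
          rw [hP, inner_projN_swap h hcommS (mul_mem (star_mem hv.mem) hz), e3]
      _ = ⟪(star z * v) Ω, S Ω⟫ := by rw [sa_inner hPp.isSelfAdjoint, hSΩ]
      _ = ⟪v Ω, z (S Ω)⟫ := by
          rw [mul_apply_eq_comp, ContinuousLinearMap.star_eq_adjoint,
            ContinuousLinearMap.adjoint_inner_left]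
      _ = _ := by rw [hP, inner_projN hvv]
  have heq : S ζ = P (z (S Ω)) := by
    refine sub_eq_zero.1 (inner_self_eq_zero (𝕜 := ℂ).1 ?_)
    have hmem : S ζ - P (z (S Ω)) ∈ vecN M A Ω := by
      refine sub_mem ?_ (projN_mem _)
      rw [show S ζ = P (S ζ) from (DFunLike.congr_fun hPS ζ).symm]
      exact projN_mem _
    have hle := vecN_le_of (M := M) (A := A) (Ω := Ω) (W := (ℂ ∙ (S ζ - P (z (S Ω))))ᗮ)
      (Submodule.isClosed_orthogonal _) (fun v hv => by
        rw [Submodule.mem_orthogonal_singleton_iff_inner_left, inner_sub_right, htest v hv,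
          sub_self]) hmem
    rwa [Submodule.mem_orthogonal_singleton_iff_inner_left] at hle
  calc ‖R ζ‖ = ‖S ζ‖ := by
        rw [hnorm, show P ζ = ζ from projN_of_mem (projN_mem _)]
    _ ≤ ‖z‖ * ‖S Ω‖ := by
        rw [heq]
        exact (proj_norm_le hPp _).trans (z.le_opNorm _)
    _ = ‖z‖ * ‖R Ω‖ := by
        rw [hnorm, show P Ω = Ω from projN_of_mem (omega_mem_vecN h)]

/-- The element of `M` sending `Ω` to the projection of `z Ω`. -/
lemma exists_extension {z : H →L[ℂ] H} (hz : z ∈ M) :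
    ∃ n ∈ M, ‖n‖ ≤ ‖z‖ ∧ n Ω = projN M A Ω (z Ω) := by
  let E : Submodule ℂ (H →L[ℂ] H) :=
    { carrier := Set.centralizer (M : Set (H →L[ℂ] H))
      add_mem' := fun ha hb => Set.add_mem_centralizer ha hb
      zero_mem' := fun m _ => by rw [mul_zero, zero_mul]
      smul_mem' := fun c a ha m hm => by rw [mul_smul_comm, smul_mul_assoc, ha m hm] }
  let e : E →ₗ[ℂ] H :=
    (ContinuousLinearMap.apply ℂ H Ω).toLinearMap.comp E.subtype
  let f : E →ₗ[ℂ] H :=
    (ContinuousLinearMap.apply ℂ H (projN M A Ω (z Ω))).toLinearMap.comp E.subtype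
  have hdense : DenseRange e := fun ξ => by
    rw [Metric.mem_closure_iff]
    intro ρ hρ
    obtain ⟨R, hR, hd⟩ := exists_commutant_near h ξ hρ
    exact ⟨R Ω, ⟨⟨R, hR⟩, rfl⟩, by rwa [dist_eq_norm]⟩
  have hnorm : ∀ x, ‖f x‖ ≤ ‖z‖ * ‖e x‖ := fun x => norm_commutant_projN_le h hz x.2
  set n := f.extendOfNorm e with hn
  have hext : ∀ R, R ∈ Set.centralizer (M : Set (H →L[ℂ] H)) →
      n (R Ω) = R (projN M A Ω (z Ω)) := fun R hR =>
    LinearMap.extendOfNorm_eq hdense ⟨_, hnorm⟩ ⟨R, hR⟩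
  refine ⟨n, mem_vna_of_commute (fun m hm => ?_),
    LinearMap.opNorm_extendOfNorm_le hdense (norm_nonneg _) hnorm, ?_⟩
  · refine DFunLike.coe_injective (hdense.equalizer (m * n).continuous (n * m).continuous ?_)
    funext x
    change m (n (x.1 Ω)) = n (m (x.1 Ω))
    rw [hext _ x.2, ← mul_apply_eq_comp m x.1, ← mul_apply_eq_comp m x.1,
      hext _ (Set.mul_mem_centralizer hm x.2)]
  · have := hext 1 Set.one_mem_centralizer
    rwa [one_apply_eq_self, one_apply_eq_self] at this

/-- **The decomposition along the normalisers.** -/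
theorem exists_decomp {y : H →L[ℂ] H} (hy : y ∈ M) :
    ∃ n, CN M A Ω n ∧ ‖n‖ ≤ ‖y‖ ∧ OrthN M A Ω (y - n) ∧ (IsSelfAdjoint y → IsSelfAdjoint n) := by
  obtain ⟨n, hnM, hnn, hn⟩ := exists_extension h hy
  obtain ⟨n', hn'M, -, hn'⟩ := exists_extension h (star_mem hy)
  have hstar : star n = n' := by
    refine sub_eq_zero.1 (h.faithful _ (sub_mem (star_mem hnM) hn'M) ?_)
    rw [sub_apply, sub_eq_zero]
    refine ext_inner_right ℂ (fun w => ?_)
    have hcl : ∀ R ∈ Set.centralizer (M : Set (H →L[ℂ] H)),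
        ⟪star n Ω, R Ω⟫ = ⟪n' Ω, R Ω⟫ := fun R hR => by
      rw [ContinuousLinearMap.star_eq_adjoint, ContinuousLinearMap.adjoint_inner_left,
        commutant_comm hR hnM, hn, hn']
      exact inner_projN_swap h (fun v hv => (commute_of_mem_centralizer hv.mem hR).symm) hy
    refine sub_eq_zero.1 (norm_le_zero_iff.1 (le_of_forall_pos_le_add (fun δ hδ => ?_)))
    obtain ⟨R, hR, hd⟩ := exists_commutant_near h w
      (show 0 < δ / (‖star n Ω - n' Ω‖ + 1) by positivity)
    rw [zero_add, ← inner_sub_left, show w = (w - R Ω) + R Ω by abel, inner_add_right,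
      inner_sub_left _ _ (R Ω), hcl R hR, sub_self, add_zero]
    refine (norm_inner_le_norm _ _).trans ?_
    refine (mul_le_mul_of_nonneg_left hd.le (norm_nonneg _)).trans ?_
    rw [mul_div_assoc', div_le_iff₀ (by positivity)]
    nlinarith [norm_nonneg (star n Ω - n' Ω)]
  refine ⟨n, ⟨⟨hnM, hn ▸ projN_mem _⟩, star_mem hnM, ?_⟩, hnn, ?_, fun hys => ?_⟩
  · rw [hstar, hn']; exact projN_mem _
  · refine orthN_iff.2 (fun k hk => ?_)
    rw [sub_apply, hn]
    exact inner_sub_projN hk _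
  · refine sub_eq_zero.1 (h.faithful _ (sub_mem (star_mem hnM) hnM) ?_)
    rw [sub_apply, hstar, hn', hn, hys.star_eq, sub_self]

/-- An element generated by normalisers is approximated at `Ω` together with its adjoint. -/
lemma CN.exists_approx {n : H →L[ℂ] H} (hn : CN M A Ω n) {η : ℝ} (hη : 0 < η) :
    ∃ s ∈ spanC M A, ‖(n - s) Ω‖ < η ∧ ‖(Star.star n - Star.star s) Ω‖ < η := by
  obtain ⟨s, hs, h1, h2⟩ := exists_spanC_approx h hn.1.1 hη
  rw [projN_of_mem hn.1.2] at h1
  rw [projN_of_mem hn.2.2] at h2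
  exact ⟨s, hs, by rwa [sub_apply], by rwa [sub_apply]⟩

lemma CN.exists_approx_sa {n : H →L[ℂ] H} (hn : CN M A Ω n) (hns : IsSelfAdjoint n) {η : ℝ}
    (hη : 0 < η) : ∃ s ∈ spanC M A, IsSelfAdjoint s ∧ ‖(n - s) Ω‖ < η := by
  obtain ⟨s, hs, h1, h2⟩ := CN.exists_approx h hn hη
  rw [hns.star_eq] at h2
  refine ⟨(1 / 2 : ℂ) • (s + Star.star s), Submodule.smul_mem _ _ (add_mem hs (spanC_star hs)),
    by simp [IsSelfAdjoint, star_smul, add_comm], ?_⟩
  have e : n - (1 / 2 : ℂ) • (s + Star.star s) = (1 / 2 : ℂ) • ((n - s) + (n - Star.star s)) := by module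
  rw [e, smul_apply, norm_smul, add_apply]
  norm_num
  calc 1 / 2 * ‖(n - s) Ω + (n - Star.star s) Ω‖
      ≤ 1 / 2 * (‖(n - s) Ω‖ + ‖(n - Star.star s) Ω‖) :=
        mul_le_mul_of_nonneg_left (norm_add_le _ _) (by norm_num)
    _ < η := by linarith

end Vale.Agent.P078.TypeIII
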