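import Vale.Agent.P078.TypeIII.Split

/-!
# Orthogonal systems of normalisers and the expansions along them
-/

set_option linter.unusedSectionVars false

namespace Vale.Agent.P078.TypeIII

open ComplexInnerProductSpace
open Filter Topology
open Vale.Agent.P078 Vale.Agent.P078.General Vale.Agent.P078.Finite
open scoped CStarAlgebra

universe u

variable {H : Type u} [NormedAddCommGroup H] [InnerProductSpace ℂ H] [CompleteSpace H]
variable {M : VonNeumannAlgebra H} {A : StarSubalgebra ℂ (H →L[ℂ] H)} {Ω : H}

/-- Normalisers with mutually orthogonal `A`-modules. -/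
def OSys (hA : IsMASAIn M A) {m : ℕ} (v : Fin m → (H →L[ℂ] H)) : Prop :=
  (∀ i, IsNormaliser M A (v i)) ∧ ∀ i j, i ≠ j → plim hA (star (v i) * v j) = 0

/-- The span of the right `A`-modules of a system. -/
def xspan (A : StarSubalgebra ℂ (H →L[ℂ] H)) {m : ℕ} (v : Fin m → (H →L[ℂ] H)) :
    Submodule ℂ (H →L[ℂ] H) :=
  Submodule.span ℂ {z | ∃ i, ∃ a ∈ A, z = v i * a}

/-- The expansion of `y` along a system. -/
noncomputable def expand (hA : IsMASAIn M A) {m : ℕ} (v : Fin m → (H →L[ℂ] H))
    (y : H →L[ℂ] H) : H →L[ℂ] H :=
  ∑ i, v i * plim hA (star (v i) * y)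

lemma xspan_mul_right {m : ℕ} {v : Fin m → (H →L[ℂ] H)} {z b : H →L[ℂ] H}
    (hz : z ∈ xspan A v) (hb : b ∈ A) : z * b ∈ xspan A v := by
  induction hz using Submodule.span_induction with
  | mem z hz =>
    obtain ⟨i, a, ha, rfl⟩ := hz
    exact Submodule.subset_span ⟨i, a * b, mul_mem ha hb, mul_assoc _ _ _⟩
  | zero => simp
  | add p q _ _ hp hq => rw [add_mul]; exact add_mem hp hq
  | smul k p _ hp => rw [smul_mul_assoc]; exact Submodule.smul_mem _ k hp

lemma xspan_le_spanC (hA : IsMASAIn M A) {m : ℕ} {v : Fin m → (H →L[ℂ] H)} (hv : OSys hA v) :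
    xspan A v ≤ spanC M A := by
  rw [xspan, Submodule.span_le]
  rintro _ ⟨i, a, ha, rfl⟩
  exact spanC_mul hA (normaliser_mem_spanC (hv.1 i)) (mem_spanC_of_mem_A hA ha)

lemma xspan_snoc {m : ℕ} (v : Fin m → (H →L[ℂ] H)) (u : H →L[ℂ] H) :
    xspan A v ≤ xspan A (Fin.snoc v u : Fin (m + 1) → (H →L[ℂ] H)) := by
  rw [xspan, Submodule.span_le]
  rintro _ ⟨i, a, ha, rfl⟩
  exact Submodule.subset_span ⟨i.castSucc, a, ha, by simp⟩

variable (h : CentSetting M A Ω)
include h

/-- Every finite set of normalisers lies in the modules of an orthogonal system. -/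
theorem exists_osys : ∀ G : List (H →L[ℂ] H), (∀ g ∈ G, IsNormaliser M A g) →
    ∃ (m : ℕ) (v : Fin m → (H →L[ℂ] H)), OSys h.masa v ∧ ∀ g ∈ G, g ∈ xspan A v := by
  classical
  intro G
  induction G with
  | nil =>
    intro _
    exact ⟨0, fun i => i.elim0, ⟨fun i => i.elim0, fun i => i.elim0⟩, by simp⟩
  | cons u G ih =>
    intro hG
    obtain ⟨m, v, hv, hvG⟩ := ih (fun g hg => hG g (List.mem_cons_of_mem _ hg))
    have hA := h.masa
    have hu := hG u (List.mem_cons_self ..)
    have key : ∀ s : Finset (Fin m), ∃ r ∈ A, IsStarProjection r ∧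
        (∀ i ∈ s, plim hA (star (v i) * u * r) = 0) ∧ u * (1 - r) ∈ xspan A v := by
      intro s
      induction s using Finset.induction with
      | empty => exact ⟨1, one_mem A, IsStarProjection.one _, by simp, by simp⟩
      | insert i s _ ih' =>
        obtain ⟨r, hrA, hr, hr0, hru⟩ := ih'
        have hw : IsNormaliser M A (star (v i) * u) :=
          IsNormaliser.mul hA (hv.1 i).adjoint hu
        obtain ⟨f, hfA, hf, hfw, hwf, hf0⟩ := exists_collapse_plim h hw
        have h1f : 1 - f ∈ A := sub_mem (one_mem A) hfA
        refine ⟨r * (1 - f), mul_mem hrA h1f, hA.mul_proj hr hf.one_sub hrA h1f, ?_, ?_⟩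
        · intro j hj
          rcases Finset.mem_insert.1 hj with rfl | hj
          · rw [hA.comm hrA h1f, ← mul_assoc, plim_mul_right hA hrA, hf0, zero_mul]
          · rw [← mul_assoc, plim_mul_right hA h1f, hr0 j hj, zero_mul]
        have hu3 : u * star u * u = u := hu.rng_mul
        have huf : v i * star (v i) * (u * f) = u * f := by
          set q := v i * star (v i) with hq
          have hqp : IsStarProjection q := (hv.1 i).rng_proj
          have hws : star (star (v i) * u) * (star (v i) * u) = star u * q * u := by
            rw [star_mul, star_star, hq]; simp only [mul_assoc]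
          rw [hws] at hfw
          have e1 : f * (star u * u) = f := by
            conv_rhs => rw [← hfw]
            conv_lhs => rw [← hfw]
            calc f * (star u * q * u) * (star u * u)
                = f * (star u * q * (u * star u * u)) := by simp only [mul_assoc]
              _ = _ := by rw [hu3]
          have e2 : star ((1 - q) * (u * f)) * ((1 - q) * (u * f)) = 0 := by
            rw [star_mul, hqp.one_sub.isSelfAdjoint.star_eq, star_mul, hf.isSelfAdjoint.star_eq]
            calc f * star u * (1 - q) * ((1 - q) * (u * f))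
                = f * star u * ((1 - q) * (1 - q)) * u * f := by simp only [mul_assoc]
              _ = f * (star u * u) * f - f * (star u * q * u) * f := by
                  rw [hqp.one_sub.isIdempotentElem.eq]
                  simp only [mul_sub, sub_mul, mul_one, mul_assoc]
              _ = 0 := by rw [e1, hfw, sub_self]
          have e3 := (CStarRing.star_mul_self_eq_zero_iff _).1 e2
          rw [sub_mul, one_mul, sub_eq_zero] at e3
          exact e3.symm
        have e : u * (1 - r * (1 - f))
            = u * (1 - r) + v i * (star (v i) * u * f) * r := by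
          have e4 : v i * (star (v i) * u * f) = u * f := by
            conv_rhs => rw [← huf]
            simp only [mul_assoc]
          rw [e4, mul_assoc u f r, hA.comm hfA hrA, ← mul_add]
          congr 1
          rw [mul_sub, mul_one]
          abel
        rw [e]
        exact add_mem hru (xspan_mul_right (Submodule.subset_span ⟨i, _, hwf, rfl⟩) hrA)
    obtain ⟨r, hrA, hr, hr0, hru⟩ := key Finset.univ
    have hur : IsNormaliser M A (u * r) :=
      IsNormaliser.mul hA hu (isNormaliser_proj hA hr hrA)
    refine ⟨m + 1, Fin.snoc v (u * r), ⟨fun i => ?_, fun i j hij => ?_⟩, fun g hg => ?_⟩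
    · induction i using Fin.lastCases with
      | last => simpa using hur
      | cast i => simpa using hv.1 i
    · induction i using Fin.lastCases with
      | last =>
        induction j using Fin.lastCases with
        | last => exact absurd rfl hij
        | cast j =>
          have := hr0 j (Finset.mem_univ _)
          rw [mul_assoc] at this
          simp only [Fin.snoc_last, Fin.snoc_castSucc]
          rw [show star (u * r) * v j = star (star (v j) * (u * r)) by
            rw [star_mul _ (u * r), star_star], plim_star' hA, this, star_zero]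
      | cast i =>
        induction j using Fin.lastCases with
        | last =>
          simp only [Fin.snoc_last, Fin.snoc_castSucc]
          rw [← mul_assoc]
          exact hr0 i (Finset.mem_univ _)
        | cast j =>
          simpa using hv.2 i j (fun e => hij (by rw [e]))
    · rcases List.mem_cons.1 hg with rfl | hg
      · have e : g = g * (1 - r) + g * r * 1 := by
          rw [mul_one, ← mul_add, sub_add_cancel, mul_one]
        suffices hmem : g * (1 - r) + g * r * 1 ∈ _ by rwa [← e] at hmem
        exact add_mem (xspan_snoc v _ hru)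
          (Submodule.subset_span ⟨Fin.last m, 1, one_mem A, by rw [Fin.snoc_last]⟩)
      · exact xspan_snoc v _ (hvG g hg)

variable {m : ℕ} {v : Fin m → (H →L[ℂ] H)}

lemma OSys.adjoint (hv : OSys h.masa v) : OSys h.masa (fun i => star (v i)) := by
  have hA := h.masa
  refine ⟨fun i => (hv.1 i).adjoint, fun i j hij => ?_⟩
  rw [star_star]
  have hX : v i * star (v j) ∈ M := mul_mem (hv.1 i).mem (star_mem (hv.1 j).mem)
  have hqA := (hv.1 j).rng_mem
  have e1 := plim_conj h (hv.1 j) (mul_mem (star_mem (hv.1 j).mem) (hv.1 i).mem)
  rw [hv.2 j i hij.symm, mul_zero, zero_mul,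
    show v j * (star (v j) * v i) * star (v j) = v j * star (v j) * (v i * star (v j)) by
      simp only [mul_assoc], plim_mul_left hA hqA] at e1
  calc plim hA (v i * star (v j))
      = plim hA (v i * star (v j) * (v j * star (v j))) := by
        rw [mul_assoc, ← mul_assoc (star (v j)), (hv.1 j).src_mul_star]
    _ = v j * star (v j) * plim hA (v i * star (v j)) := by
        rw [plim_mul_right hA hqA, hA.comm (plim_mem hA hX) hqA]
    _ = 0 := e1.symm

omit h in
lemma star_mem_xspan (hA : IsMASAIn M A) (hv : OSys hA v) {z : H →L[ℂ] H}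
    (hz : z ∈ xspan A v) : star z ∈ xspan A (fun i => star (v i)) := by
  induction hz using Submodule.span_induction with
  | mem z hz =>
    obtain ⟨i, a, ha, rfl⟩ := hz
    refine Submodule.subset_span ⟨i, v i * star a * star (v i),
      (hv.1 i).conj_mem (star_mem ha), ?_⟩
    calc star (v i * a) = star a * (star (v i) * v i * star (v i)) := by
          rw [(hv.1 i).src_mul_star, star_mul]
      _ = (star a * (star (v i) * v i)) * star (v i) := by simp only [mul_assoc]
      _ = _ := by rw [hA.comm (star_mem ha) (hv.1 i).src_mem]; simp only [mul_assoc]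
  | zero => simp
  | add p q _ _ hp hq => rw [star_add]; exact add_mem hp hq
  | smul k p _ hp => rw [star_smul]; exact Submodule.smul_mem _ _ hp

lemma expand_mem {y : H →L[ℂ] H} (hv : OSys h.masa v) (hy : y ∈ M) :
    expand h.masa v y ∈ xspan A v :=
  sum_mem (fun i _ => Submodule.subset_span
    ⟨i, _, plim_mem h.masa (mul_mem (star_mem (hv.1 i).mem) hy), rfl⟩)

/-- The expansion is the orthogonal projection onto the modules of the system. -/
lemma inner_sub_expand {y : H →L[ℂ] H} (hv : OSys h.masa v) (hy : y ∈ M) {z : H →L[ℂ] H}
    (hz : z ∈ xspan A v) : ⟪z Ω, (y - expand h.masa v y) Ω⟫ = 0 := by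
  have hA := h.masa
  set s := expand hA v y with hs
  have hsM : s ∈ M := spanC_mem_M (xspan_le_spanC hA hv (expand_mem h hv hy))
  induction hz using Submodule.span_induction with
  | mem z hz =>
    obtain ⟨i, a, ha, rfl⟩ := hz
    have hd : plim hA (star (v i) * (y - s)) = 0 := by
      rw [mul_sub, ← plimₗ_apply hA, map_sub, plimₗ_apply, plimₗ_apply, hs, expand,
        Finset.mul_sum, ← plimₗ_apply hA (∑ j, _), map_sum,
        Finset.sum_eq_single i (fun j _ hj => ?_) (by simp)]
      · rw [plimₗ_apply, ← mul_assoc,
          plim_mul_right hA (plim_mem hA (mul_mem (star_mem (hv.1 i).mem) hy)),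
          plim_of_mem hA (hv.1 i).src_mem, ← plim_mul_left hA (hv.1 i).src_mem, ← mul_assoc,
          (hv.1 i).src_mul_star, sub_self]
      · rw [plimₗ_apply, ← mul_assoc,
          plim_mul_right hA (plim_mem hA (mul_mem (star_mem (hv.1 j).mem) hy)),
          hv.2 i j hj.symm, zero_mul]
    rw [inner_apply, star_mul, mul_assoc, ← tau_plim h (mul_mem (hA.mem_M (star_mem ha))
      (mul_mem (star_mem (hv.1 i).mem) (sub_mem hy hsM))), plim_mul_left hA (star_mem ha), hd,
      mul_zero, zero_apply, inner_zero_right]
  | zero => simp
  | add p q _ _ hp hq => rw [add_apply, inner_add_left, hp, hq, add_zero]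
  | smul k p _ hp => rw [smul_apply, inner_smul_left, hp, mul_zero]
where
  plimₗ_apply (hA : IsMASAIn M A) (x : H →L[ℂ] H) : plimₗ hA x = plim hA x := rfl

lemma star_expand {y : H →L[ℂ] H} (hv : OSys h.masa v) (hy : y ∈ M) :
    star (expand h.masa v y) = expand h.masa (fun i => star (v i)) (star y) := by
  have hA := h.masa
  simp only [expand, star_sum]
  refine Finset.sum_congr rfl (fun i _ => ?_)
  have hvi := hv.1 i
  have hX : v i * star y ∈ M := mul_mem hvi.mem (star_mem hy)
  have hY : star y * v i ∈ M := mul_mem (star_mem hy) hvi.mem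
  have e1 : plim hA (star y * v i) = star (plim hA (star (v i) * y)) := by
    rw [← plim_star' hA, star_mul, star_star]
  have e2 : plim hA (star y * v i) * (star (v i) * v i) = plim hA (star y * v i) := by
    rw [← plim_mul_right hA hvi.src_mem, mul_assoc, hvi.mul_src]
  have e3 : star (v i) * plim hA (v i * star y) * v i = plim hA (star y * v i) := by
    have := plim_conj h hvi.adjoint hX
    rw [star_star] at this
    rw [this, show star (v i) * (v i * star y) * v i = star (v i) * v i * (star y * v i) by
      simp only [mul_assoc], plim_mul_left hA hvi.src_mem, hA.comm hvi.src_mem (plim_mem hA hY),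
      e2]
  calc star (v i * plim hA (star (v i) * y))
      = plim hA (star y * v i) * star (v i) := by rw [star_mul, e1]
    _ = star (v i) * plim hA (v i * star y) * (v i * star (v i)) := by
        rw [← e3]; simp only [mul_assoc]
    _ = star (v i) * (v i * star (v i) * plim hA (v i * star y)) := by
        rw [mul_assoc, hA.comm (plim_mem hA hX) hvi.rng_mem]
    _ = star (star (star (v i))) * plim hA (star (star (v i)) * star y) := by
        rw [← mul_assoc, ← mul_assoc, hvi.src_mul_star, star_star, star_star]
    _ = _ := by simp only [star_star]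

end Vale.Agent.P078.TypeIII
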