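import Vale.Agent.P078.TypeIII.Chain
import Vale.Agent.P078.TypeIII.Split

/-!
# Mixing without a trace

For `y` orthogonal to the normalisers of a MASA in the centraliser, `∑_I ‖E(y* e_I y)Ω‖²` is
arbitrarily small. Otherwise a chain on the left of `y` gives an intertwiner `z₁` with left
norms only; a chain on the right of `z₁` then gives a normaliser correlated with `y`. Passing
from a vector to its adjoint uses that a bounded family small at `Ω` is small everywhere.
-/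

set_option linter.unusedSectionVars false

namespace Vale.Agent.P078.TypeIII

open ComplexInnerProductSpace
open Filter Topology
open Vale.Agent.P078 Vale.Agent.P078.General Vale.Agent.P078.Finite
open scoped CStarAlgebra

universe u

variable {H : Type u} [NormedAddCommGroup H] [InnerProductSpace ℂ H] [CompleteSpace H]
variable {M : VonNeumannAlgebra H} {A : StarSubalgebra ℂ (H →L[ℂ] H)} {Ω : H}

/-- The mixing quantity of `y` at a partition. -/
noncomputable def qval (hA : IsMASAIn M A) (Ω : H) (y : H →L[ℂ] H) (P : Part A) : ℝ :=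
  ∑ i, ‖plim hA (star y * P.e i * y) Ω‖ ^ 2

/-- Left multiplication by projections of `A` is approximated by right multiplication. -/
def IL (A : StarSubalgebra ℂ (H →L[ℂ] H)) (Ω : H) (z : H →L[ℂ] H) : Prop :=
  ∀ e ∈ A, IsStarProjection e → ∀ η : ℝ, 0 < η → ∃ x ∈ A, IsStarProjection x ∧
    ‖(e * z - z * x) Ω‖ ≤ η

/-- Right multiplication by projections of `A` is approximated by left multiplication. -/
def IR (A : StarSubalgebra ℂ (H →L[ℂ] H)) (Ω : H) (z : H →L[ℂ] H) : Prop :=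
  ∀ e ∈ A, IsStarProjection e → ∀ η : ℝ, 0 < η → ∃ x ∈ A, IsStarProjection x ∧
    ‖(z * e - x * z) Ω‖ ≤ η

lemma norm_diff_le {z e x : H →L[ℂ] H} (he : IsStarProjection e) (hx : IsStarProjection x) :
    ‖e * z - z * x‖ ≤ 2 * ‖z‖ := by
  refine (norm_sub_le _ _).trans ?_
  have h1 := (norm_mul_le e z).trans (mul_le_of_le_one_left (norm_nonneg _) he.norm_le)
  have h2 := (norm_mul_le z x).trans (mul_le_of_le_one_right (norm_nonneg _) hx.norm_le)
  linarith

variable (h : CentSetting M A Ω)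
include h

omit h in
lemma tau_mul_nonneg (hA : IsMASAIn M A) {a b : H →L[ℂ] H} (haA : a ∈ A) (ha : Pos a)
    (hbA : b ∈ A) (hb : Pos b) : 0 ≤ (⟪Ω, (a * b) Ω⟫).re := by
  obtain ⟨s, hs, hss, hsd⟩ := hb.exists_sqrt
  have hsA : s ∈ A := hsd ▸ cfc_mem_A hA hbA _
  rw [← hss, ← mul_assoc, hA.comm haA hsA, mul_assoc]
  change 0 ≤ (⟪Ω, s (a (s Ω))⟫).re
  rw [← sa_inner hs]
  exact ha.2 _

/-- A projection of `A` passes to both sides. -/
lemma tau_proj_both {x X : H →L[ℂ] H} (hxA : x ∈ A) (hx : IsStarProjection x) (hX : X ∈ M) :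
    ⟪Ω, (x * X * x) Ω⟫ = ⟪Ω, (x * X) Ω⟫ := by
  rw [← h.central _ hxA _ (mul_mem (h.masa.mem_M hxA) hX), ← mul_assoc,
    hx.isIdempotentElem.eq]

/-- The mixing quantity is dominated by a labelled sum. -/
lemma exists_qval_bound {y : H →L[ℂ] H} (hy : y ∈ M) (Q : Part A) :
    ∃ x ∈ Lab Q (1 : H →L[ℂ] H),
      qval h.masa Ω y Q ≤ ‖y‖ ^ 2 * ∑ i, (⟪Ω, (x i * (star y * Q.e i * y)) Ω⟫).re := by
  have hA := h.masa
  set f := fun i => plim hA (star y * Q.e i * y) with hfdef
  have hXM : ∀ i, star y * Q.e i * y ∈ M := fun i =>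
    mul_mem (mul_mem (star_mem hy) (hA.mem_M (Q.mem i))) hy
  have hX : ∀ i, star y * Q.e i * y = star (Q.e i * y) * (Q.e i * y) := fun i => by
    rw [star_mul, (Q.proj i).isSelfAdjoint.star_eq]
    simp only [mul_assoc]
    rw [← mul_assoc (Q.e i) (Q.e i), (Q.proj i).isIdempotentElem.eq]
  have hf : ∀ i, f i ∈ A ∧ Pos (f i) := fun i =>
    ⟨plim_mem hA (hXM i), pos_plim hA (by rw [hX i]; exact Pos.star_mul_self _)⟩
  obtain ⟨x, hx, hxo, hm, hmax⟩ := exists_argmax hA f hf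
  set m := ∑ i, x i * f i with hmdef
  have hmA : m ∈ A := sum_mem (fun i _ => mul_mem (hx i).1 (hf i).1)
  obtain ⟨s, hs, hss, hsd⟩ := hm.exists_sqrt
  have hsA : s ∈ A := hsd ▸ cfc_mem_A hA hmA _
  have hmM := hA.mem_M hmA
  have hsM := hA.mem_M hsA
  have hsq : ∀ i, ‖f i Ω‖ ^ 2 ≤ (⟪Ω, (m * f i) Ω⟫).re := fun i => by
    have h1 := tau_mul_nonneg (Ω := Ω) hA (sub_mem hmA (hf i).1) (hmax i) (hf i).1 (hf i).2
    rw [sub_mul, sub_apply, inner_sub_right, Complex.sub_re] at h1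
    have h2 : ‖f i Ω‖ ^ 2 = (⟪Ω, (f i * f i) Ω⟫).re := by
      rw [@norm_sq_eq_re_inner ℂ, RCLike.re_to_complex, inner_apply, (hf i).2.1.star_eq]
    linarith
  have hsum : ∑ i, (⟪Ω, (m * f i) Ω⟫).re = ‖(y * s) Ω‖ ^ 2 := by
    have e : ∀ i, (⟪Ω, (m * f i) Ω⟫).re = (⟪Ω, (m * (star y * Q.e i * y)) Ω⟫).re := fun i => by
      rw [show m * f i = plim hA (m * (star y * Q.e i * y)) from
        (plim_mul_left hA hmA _).symm, tau_plim h (mul_mem hmM (hXM i))]
    simp only [e]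
    rw [← Complex.re_sum, ← inner_sum, ← _root_.sum_apply, ← Finset.mul_sum, ← Finset.sum_mul,
      ← Finset.mul_sum, Q.total, mul_one, @norm_sq_eq_re_inner ℂ, RCLike.re_to_complex,
      inner_apply, star_mul, hs.star_eq, ← hss, mul_assoc s s,
      h.central _ hsA _ (mul_mem hsM (mul_mem (star_mem hy) hy))]
    simp only [mul_assoc]
  have hsm : ‖s Ω‖ ^ 2 = ∑ i, (⟪Ω, (x i * (star y * Q.e i * y)) Ω⟫).re := by
    have e : ∀ i, (⟪Ω, (x i * (star y * Q.e i * y)) Ω⟫).re = (⟪Ω, (x i * f i) Ω⟫).re :=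
      fun i => by
      rw [show x i * f i = plim hA (x i * (star y * Q.e i * y)) from
        (plim_mul_left hA (hx i).1 _).symm, tau_plim h (mul_mem (hA.mem_M (hx i).1) (hXM i))]
    simp only [e]
    rw [@norm_sq_eq_re_inner ℂ, RCLike.re_to_complex, inner_apply, hs.star_eq, hss, hmdef,
      _root_.sum_apply, inner_sum, Complex.re_sum]
  refine ⟨x, ⟨fun j => ⟨(hx j).1, (hx j).2, one_mul _⟩, hxo⟩, ?_⟩
  calc qval hA Ω y Q ≤ ∑ i, (⟪Ω, (m * f i) Ω⟫).re := Finset.sum_le_sum (fun i _ => hsq i)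
    _ = ‖(y * s) Ω‖ ^ 2 := hsum
    _ ≤ ‖y‖ ^ 2 * ‖s Ω‖ ^ 2 := by
        rw [← mul_pow]
        exact pow_le_pow_left₀ (norm_nonneg _) (y.le_opNorm _) 2
    _ = _ := by rw [hsm]

lemma qval_le_score {y : H →L[ℂ] H} (hy : y ∈ M) (Q : Part A) :
    qval h.masa Ω y Q ≤ ‖y‖ ^ 2 * rScore (fun e x => ‖(e * y * x) Ω‖ ^ 2) 1 1 Q := by
  have hA := h.masa
  obtain ⟨x, hx, hle⟩ := exists_qval_bound h hy Q
  refine hle.trans (mul_le_mul_of_nonneg_left (le_trans (le_of_eq ?_)
    (rLabVal_le_score hA (rectFun_left h hy) (one_mem A) (IsStarProjection.one _) hx)) (sq_nonneg _))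
  refine Finset.sum_congr rfl (fun i _ => ?_)
  have hxA := (hx.1 i).1
  have hxp := (hx.1 i).2.1
  dsimp only
  rw [one_mul, @norm_sq_eq_re_inner ℂ, RCLike.re_to_complex, inner_apply,
    ← tau_proj_both h hxA hxp (mul_mem (mul_mem (star_mem hy) (hA.mem_M (Q.mem i))) hy)]
  congr 3
  simp only [star_mul, hxp.isSelfAdjoint.star_eq, (Q.proj i).isSelfAdjoint.star_eq, mul_assoc]
  rw [← mul_assoc (Q.e i) (Q.e i), (Q.proj i).isIdempotentElem.eq]

lemma IL.op {a : H →L[ℂ] H} (ha : IL A Ω a) (haM : a ∈ M) (L : Blocks A) :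
    IL A Ω (L.op a) := by
  intro e heA he η hη
  obtain ⟨x, hxA, hx, hle⟩ := ha e heA he η hη
  refine ⟨x, hxA, hx, le_trans ?_ hle⟩
  rw [← L.op_mul_left h.masa heA, ← L.op_mul_right h.masa hxA, ← L.op_sub]
  exact norm_op_apply_le h L
    (sub_mem (mul_mem (h.masa.mem_M heA) haM) (mul_mem haM (h.masa.mem_M hxA)))

lemma IL.of_tendsto {a : ℕ → (H →L[ℂ] H)} (haM : ∀ n, a n ∈ M) (ha : ∀ n, IL A Ω (a n))
    {z : H →L[ℂ] H} (hzM : z ∈ M) (hz : Tendsto (fun n => a n Ω) atTop (𝓝 (z Ω))) :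
    IL A Ω z := by
  intro e heA he η hη
  obtain ⟨n, hn⟩ := (Metric.tendsto_nhds.1 hz (η / 4) (by positivity)).exists
  obtain ⟨x, hxA, hx, hle⟩ := ha n e heA he (η / 4) (by positivity)
  refine ⟨x, hxA, hx, ?_⟩
  have e1 : e * z - z * x = e * (z - a n) - (z - a n) * x + (e * a n - a n * x) := by
    rw [mul_sub, sub_mul]; abel
  rw [e1, add_apply, sub_apply]
  rw [dist_eq_norm, norm_sub_rev, ← sub_apply] at hn
  refine (norm_add_le _ _).trans ?_
  have b1 := proj_norm_le he ((z - a n) Ω)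
  have b2 := norm_mul_proj_le h (sub_mem hzM (haM n)) hxA hx
  have b3 := norm_sub_le ((e * (z - a n)) Ω) (((z - a n) * x) Ω)
  simp only [mul_apply_eq_comp] at b1 b2 b3 ⊢
  linarith

/-- Errors which tend to zero at `Ω` disappear weakly. -/
lemma eq_zero_of_weak {S p q : H →L[ℂ] H} {d : ℕ → (H →L[ℂ] H)} {C : ℝ} (hd : ∀ n, d n ∈ M)
    (hC : ∀ n, ‖d n‖ ≤ C) (h0 : Tendsto (fun n => d n Ω) atTop (𝓝 0))
    (heq : ∀ n ξ ζ, ⟪ξ, S ζ⟫ = ⟪ξ, d n (p ζ)⟫ - ⟪d n (q ξ), ζ⟫) : S = 0 := by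
  refine ContinuousLinearMap.ext (fun ζ => ext_inner_left ℂ (fun ξ => ?_))
  rw [zero_apply, inner_zero_right]
  have h1 := (tendsto_const_nhds (x := ξ)).inner (𝕜 := ℂ)
    (tendsto_apply_zero h hd hC h0 (p ζ))
  have h2 := (tendsto_apply_zero h hd hC h0 (q ξ)).inner (𝕜 := ℂ)
    (tendsto_const_nhds (x := ζ))
  have h3 := h1.sub h2
  simp only [inner_zero_right, inner_zero_left, sub_zero] at h3
  exact tendsto_nhds_unique (tendsto_const_nhds.congr (fun n => heq n ξ ζ)) h3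

lemma IL.conj_mem {z : H →L[ℂ] H} (hz : IL A Ω z) (hzM : z ∈ M) {b : H →L[ℂ] H} (hb : b ∈ A) :
    z * b * star z ∈ A := by
  have hX : z * b * star z ∈ M := mul_mem (mul_mem hzM (h.masa.mem_M hb)) (star_mem hzM)
  refine h.masa.mem_of_commute (h.masa.comm_of_comm_proj (fun e heA he => ?_))
    (fun m hm => commute_of_mem_centralizer hX hm)
  choose x hxA hx hle using fun n : ℕ => hz e heA he (1 / ((n : ℝ) + 1)) (by positivity)
  refine sub_eq_zero.1 (eq_zero_of_weak h
    (p := b * star z) (q := star b * star z) (d := fun n => e * z - z * x n) (C := 2 * ‖z‖)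
    (fun n => sub_mem (mul_mem (h.masa.mem_M heA) hzM) (mul_mem hzM (h.masa.mem_M (hxA n))))
    (fun n => norm_diff_le he (hx n))
    (squeeze_zero_norm hle tendsto_one_div_add_atTop_nhds_zero_nat) (fun n ξ ζ => ?_))
  have e1 : e * (z * b * star z) - z * b * star z * e
      = (e * z - z * x n) * (b * star z) - star ((e * z - z * x n) * (star b * star z)) := by
    rw [star_mul, star_mul, star_star, star_star, star_sub, star_mul, star_mul,
      (hx n).isSelfAdjoint.star_eq, he.isSelfAdjoint.star_eq]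
    simp only [mul_sub, sub_mul, ← mul_assoc]
    rw [mul_assoc z (x n) b, h.masa.comm (hxA n) hb, ← mul_assoc z b (x n)]
    abel
  rw [e1, sub_apply, inner_sub_right]
  congr 1
  rw [← mul_one (star ((e * z - z * x n) * (star b * star z))), ← inner_apply]
  simp

lemma IR.conj_mem {z : H →L[ℂ] H} (hz : IR A Ω z) (hzM : z ∈ M) {b : H →L[ℂ] H} (hb : b ∈ A) :
    star z * b * z ∈ A := by
  have hX : star z * b * z ∈ M := mul_mem (mul_mem (star_mem hzM) (h.masa.mem_M hb)) hzM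
  refine h.masa.mem_of_commute (h.masa.comm_of_comm_proj (fun e heA he => ?_))
    (fun m hm => commute_of_mem_centralizer hX hm)
  choose x hxA hx hle using fun n : ℕ => hz e heA he (1 / ((n : ℝ) + 1)) (by positivity)
  have key : ∀ n ξ ζ, ⟪ξ, (e * (star z * b * z) - star z * b * z * e) ζ⟫
      = ⟪(z * e - x n * z) ξ, (b * z) ζ⟫ - ⟪(star b * z) ξ, (z * e - x n * z) ζ⟫ := by
    intro n ξ ζ
    have e1 : e * (star z * b * z) - star z * b * z * e
        = star (z * e - x n * z) * (b * z) - star (star b * z) * (z * e - x n * z) := by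
      rw [star_mul, star_star, star_sub, star_mul, star_mul, he.isSelfAdjoint.star_eq,
        (hx n).isSelfAdjoint.star_eq]
      simp only [mul_sub, sub_mul, ← mul_assoc]
      rw [mul_assoc (star z) b (x n), ← h.masa.comm (hxA n) hb, ← mul_assoc (star z) (x n) b]
      abel
    rw [e1, sub_apply, inner_sub_right, ← inner_apply, ← inner_apply]
  refine sub_eq_zero.1 (ContinuousLinearMap.ext (fun ζ => ext_inner_left ℂ (fun ξ => ?_)))
  rw [zero_apply, inner_zero_right]
  have hd : ∀ n, z * e - x n * z ∈ M := fun n =>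
    sub_mem (mul_mem hzM (h.masa.mem_M heA)) (mul_mem (h.masa.mem_M (hxA n)) hzM)
  have hC : ∀ n, ‖z * e - x n * z‖ ≤ 2 * ‖z‖ := fun n => by
    rw [norm_sub_rev]; exact norm_diff_le (hx n) he
  have h0 : Tendsto (fun n => (z * e - x n * z) Ω) atTop (𝓝 0) :=
    squeeze_zero_norm hle tendsto_one_div_add_atTop_nhds_zero_nat
  have h1 := (tendsto_apply_zero h hd hC h0 ξ).inner (𝕜 := ℂ)
    (tendsto_const_nhds (x := (b * z) ζ))
  have h2 := (tendsto_const_nhds (x := (star b * z) ξ)).inner (𝕜 := ℂ)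
    (tendsto_apply_zero h hd hC h0 ζ)
  have h3 := h1.sub h2
  simp only [inner_zero_right, inner_zero_left, sub_zero] at h3
  exact tendsto_nhds_unique (tendsto_const_nhds.congr (fun n => key n ξ ζ)) h3

/-- A spectral cut of `z` is a normaliser times an element of `A`. -/
lemma exists_cut_normaliser {z : H →L[ℂ] H} (hzM : z ∈ M)
    (h1 : ∀ a ∈ A, z * a * star z ∈ A) (h2 : ∀ a ∈ A, star z * a * z ∈ A) {δ : ℝ} (hδ : 0 < δ) :
    ∃ p v l : H →L[ℂ] H, IsNormaliser M A v ∧ l ∈ A ∧ v * l = z * p ∧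
      ‖(z * (1 - p)) Ω‖ ≤ Real.sqrt δ * ‖Ω‖ := by
  have hA := h.masa
  have htA : star z * z ∈ A := by simpa using h2 1 (one_mem A)
  set b := star z * z - δ • (1 : H →L[ℂ] H) with hb
  have hbA : b ∈ A := by
    refine sub_mem htA ?_
    rw [← Complex.coe_smul]
    exact A.toSubalgebra.smul_mem (one_mem A) _
  have hbs : IsSelfAdjoint b :=
    (IsSelfAdjoint.star_mul_self z).sub
      (IsSelfAdjoint.smul (IsSelfAdjoint.all δ) (IsSelfAdjoint.one _))
  obtain ⟨p, bp, bm, hpA, hp, hbpA, hbmA, hbp, hbm, hsplit, hfix, hkill, hbpd⟩ :=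
    exists_pos_split hA hbA hbs
  set G := fun t : ℝ => (Real.sqrt (δ + max t 0))⁻¹ with hG
  set S := fun t : ℝ => Real.sqrt (δ + max t 0) with hS
  have hpos : ∀ t : ℝ, 0 < δ + max t 0 := fun t => by
    have := le_max_right t 0
    linarith
  have hSc : Continuous S :=
    Real.continuous_sqrt.comp (continuous_const.add (continuous_id.max continuous_const))
  have hGc : Continuous G := hSc.inv₀ (fun t => (Real.sqrt_pos.2 (hpos t)).ne')
  set k := cfc G b with hk
  set l := cfc S b with hl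
  have hkA : k ∈ A := cfc_mem_A hA hbA _
  have hlA : l ∈ A := cfc_mem_A hA hbA _
  have hks : IsSelfAdjoint k := cfc_predicate _ b
  have hkl : k * l = 1 := by
    rw [hk, hl, ← cfc_mul G S b hGc.continuousOn hSc.continuousOn, ← cfc_const_one ℝ b]
    exact cfc_congr (fun t _ => inv_mul_cancel₀ (Real.sqrt_pos.2 (hpos t)).ne')
  have hll : l * l = δ • (1 : H →L[ℂ] H) + bp := by
    rw [hl, ← cfc_mul S S b hSc.continuousOn hSc.continuousOn, hbpd, ← cfc_const_one ℝ b, ← cfc_smul δ (fun _ => (1 : ℝ)) b,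
      ← cfc_add (a := b) (fun t => δ • (1 : ℝ)) (fun t => max t 0)]
    refine cfc_congr (fun t _ => ?_)
    simp only [S, smul_eq_mul, mul_one]
    exact Real.mul_self_sqrt (hpos t).le
  have htp : star z * z * p = (δ • (1 : H →L[ℂ] H) + bp) * p := by
    have : star z * z = δ • (1 : H →L[ℂ] H) + bp - bm := by
      rw [add_sub_assoc, ← hsplit, hb]; abel
    rw [this, sub_mul, hA.comm hbmA hpA, hkill, sub_zero]
  have hkkp : k * k * (star z * z) * p = p := by
    rw [mul_assoc (k * k), htp, ← hll, ← mul_assoc, mul_assoc k, ← mul_assoc k l, hkl, one_mul,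
      hkl, one_mul]
  set v := z * (k * p) with hv
  have hvs : star v * v = p := by
    rw [hv, star_mul, star_mul, hks.star_eq, hp.isSelfAdjoint.star_eq]
    calc p * k * star z * (z * (k * p)) = p * (k * ((star z * z) * k)) * p := by
          simp only [mul_assoc]
      _ = p * (k * k * (star z * z) * p) := by
          rw [hA.comm htA hkA]; simp only [mul_assoc]
      _ = p := by rw [hkkp, hp.isIdempotentElem.eq]
  have hkp : k * p ∈ A := mul_mem hkA hpA
  have hpk : p * k ∈ A := mul_mem hpA hkA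
  have hstar : star v = p * k * star z := by
    rw [hv, star_mul, star_mul, hks.star_eq, hp.isSelfAdjoint.star_eq]
  have hvn : IsNormaliser M A v := by
    refine ⟨mul_mem hzM (hA.mem_M hkp), by rw [hvs]; exact hp, by rw [hvs]; exact hpA, ?_,
      fun a ha => ⟨?_, ?_⟩⟩
    · rw [hstar, hv]
      have := h1 _ (mul_mem hkp hpk)
      simpa only [mul_assoc] using this
    · rw [hstar, hv]
      have := h1 _ (mul_mem (mul_mem hkp ha) hpk)
      simpa only [mul_assoc] using this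
    · rw [hstar, hv]
      have := mul_mem (mul_mem hpk (h2 a ha)) hkp
      simpa only [mul_assoc] using this
  have hvl : v * l = z * p := by
    rw [hv, mul_assoc, mul_assoc k, hA.comm hpA hlA, ← mul_assoc k, hkl, one_mul]
  have hrest : ‖(z * (1 - p)) Ω‖ ≤ Real.sqrt δ * ‖Ω‖ := by
    have h1pA := sub_mem (one_mem A) hpA
    have e1 : ‖(z * (1 - p)) Ω‖ ^ 2 = (⟪Ω, ((1 - p) * (star z * z)) Ω⟫).re := by
      rw [@norm_sq_eq_re_inner ℂ, RCLike.re_to_complex, inner_apply, star_mul,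
        hp.one_sub.isSelfAdjoint.star_eq]
      congr 1
      calc ⟪Ω, ((1 - p) * star z * (z * (1 - p))) Ω⟫
          = ⟪Ω, ((1 - p) * ((star z * z) * (1 - p))) Ω⟫ := by simp only [mul_assoc]
        _ = _ := by
            rw [hA.comm htA h1pA, ← mul_assoc, hp.one_sub.isIdempotentElem.eq]
    have e2 : (1 - p) * (star z * z) = δ • (1 - p) - bm := by
      have : star z * z = δ • (1 : H →L[ℂ] H) + bp - bm := by
        rw [add_sub_assoc, ← hsplit, hb]; abel
      rw [this, mul_sub, mul_add, mul_smul_comm, mul_one, sub_mul 1 p bp, one_mul, hfix,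
        sub_self, add_zero, sub_mul 1 p bm, one_mul, hkill, sub_zero]
    have e3 : (⟪Ω, (1 - p) Ω⟫).re ≤ ‖Ω‖ ^ 2 := by
      rw [← TypeIII.proj_norm_sq hp.one_sub]
      exact pow_le_pow_left₀ (norm_nonneg _) (proj_norm_le hp.one_sub Ω) 2
    refine (sq_le_sq₀ (norm_nonneg _) (by positivity)).1 ?_
    rw [e1, e2, mul_pow, Real.sq_sqrt hδ.le, sub_apply, inner_sub_right, Complex.sub_re,
      ← Complex.coe_smul, smul_apply, inner_smul_right, Complex.re_ofReal_mul]
    nlinarith [hbm.2 Ω, mul_le_mul_of_nonneg_left e3 hδ.le]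
  exact ⟨p, v, l, hvn, hlA, hvl, hrest⟩

/-- An element conjugating `A` into itself is seen by the normalisers. -/
lemma inner_eq_zero_of_conj {z y : H →L[ℂ] H} (hzM : z ∈ M)
    (h1 : ∀ a ∈ A, z * a * star z ∈ A) (h2 : ∀ a ∈ A, star z * a * z ∈ A)
    (hN : OrthN M A Ω y) : ⟪z Ω, y Ω⟫ = 0 := by
  have hbound : ∀ δ : ℝ, 0 < δ → ‖⟪z Ω, y Ω⟫‖ ≤ Real.sqrt δ * (‖Ω‖ * ‖y Ω‖) := by
    intro δ hδ
    obtain ⟨p, v, l, hvn, hlA, hvl, hrest⟩ := exists_cut_normaliser h hzM h1 h2 hδ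
    have hzero : ⟪(z * p) Ω, y Ω⟫ = 0 := by
      rw [← hvl]
      exact orthN_iff.1 hN _ (spanC_apply_mem_vecN (spanC_mul h.masa (normaliser_mem_spanC hvn)
        (mem_spanC_of_mem_A h.masa hlA)))
    have e : ⟪z Ω, y Ω⟫ = ⟪(z * (1 - p)) Ω, y Ω⟫ := by
      rw [mul_sub, mul_one, sub_apply, inner_sub_left, hzero, sub_zero]
    rw [e]
    calc _ ≤ ‖(z * (1 - p)) Ω‖ * ‖y Ω‖ := norm_inner_le_norm _ _
      _ ≤ Real.sqrt δ * ‖Ω‖ * ‖y Ω‖ := mul_le_mul_of_nonneg_right hrest (norm_nonneg _)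
      _ = _ := by ring
  rw [← norm_le_zero_iff]
  have hlim : Tendsto (fun n : ℕ => Real.sqrt (1 / ((n : ℝ) + 1)) * (‖Ω‖ * ‖y Ω‖)) atTop (𝓝 0) := by
    simpa using (((Real.continuous_sqrt.tendsto 0).comp
      tendsto_one_div_add_atTop_nhds_zero_nat).mul_const (‖Ω‖ * ‖y Ω‖))
  exact ge_of_tendsto' hlim (fun n => hbound _ (by positivity))

/-- An intertwiner has mixing quantity bounded below, from the other side. -/
lemma qval_star_low {z : H →L[ℂ] H} (hzM : z ∈ M) (hz : IL A Ω z) (hz0 : 0 < ‖z Ω‖) :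
    ∃ c, 0 < c ∧ ∀ Q : Part A, c ≤ qval h.masa Ω (star z) Q := by
  classical
  have hA := h.masa
  set Y := star z * z with hYdef
  have hYM : Y ∈ M := mul_mem (star_mem hzM) hzM
  set ξ := star z Ω with hξ
  have hkey : ∀ Q : Part A, qval hA Ω (star z) Q = (⟪ξ, Q.pinch Y ξ⟫).re := by
    intro Q
    simp only [qval, star_star, Part.pinch, _root_.sum_apply, inner_sum, Complex.re_sum]
    refine Finset.sum_congr rfl (fun i _ => ?_)
    rw [plim_of_mem hA (IL.conj_mem h hz hzM (Q.mem i)), @norm_sq_eq_re_inner ℂ,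
      RCLike.re_to_complex, inner_apply]
    simp only [hξ, hYdef, star_mul, star_star, (Q.proj i).isSelfAdjoint.star_eq, mul_assoc,
      mul_apply_eq_comp]
    simp only [ContinuousLinearMap.star_eq_adjoint, ContinuousLinearMap.adjoint_inner_left]
  have hanti : ∀ Q Q' : Part A, Q ≤ Q' → qval hA Ω (star z) Q' ≤ qval hA Ω (star z) Q := by
    intro Q Q' hQQ
    choose π hπ using hQQ
    simp only [qval, star_star]
    rw [← Finset.sum_fiberwise Finset.univ π]
    refine Finset.sum_le_sum (fun i _ => ?_)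
    have hQ : ∑ j ∈ Finset.univ.filter (fun j => π j = i), Q'.e j = Q.e i := by
      have e1 : ∀ j, Q.e i * Q'.e j = if π j = i then Q'.e j else 0 := fun j => by
        split_ifs with hj
        · exact hj ▸ hπ j
        · rw [← hπ j, ← mul_assoc, Q.orth i (π j) (Ne.symm hj), zero_mul]
      rw [Finset.sum_filter, ← Finset.sum_congr rfl (fun j _ => e1 j), ← Finset.mul_sum, Q'.total,
        mul_one]
    set f := fun j => z * Q'.e j * star z with hf
    have hfA : ∀ j, f j ∈ A := fun j => IL.conj_mem h hz hzM (Q'.mem j)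
    have hfp : ∀ j, Pos (f j) := fun j => by
      have : f j = star (Q'.e j * star z) * (Q'.e j * star z) := by
        simp only [hf, star_mul, star_star, (Q'.proj j).isSelfAdjoint.star_eq, mul_assoc]
        rw [← mul_assoc (Q'.e j) (Q'.e j), (Q'.proj j).isIdempotentElem.eq]
      rw [this]; exact Pos.star_mul_self _
    set S := Finset.univ.filter (fun j => π j = i)
    have hsum : plim hA (z * Q.e i * star z) = ∑ j ∈ S, f j := by
      rw [plim_of_mem hA (IL.conj_mem h hz hzM (Q.mem i)), ← hQ, Finset.mul_sum, Finset.sum_mul]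
    rw [hsum, @norm_sq_eq_re_inner ℂ, _root_.sum_apply, sum_inner, map_sum]
    refine Finset.sum_le_sum (fun j hj => ?_)
    rw [plim_of_mem hA (IL.conj_mem h hz hzM (Q'.mem j)), inner_sum, map_sum,
      @norm_sq_eq_re_inner ℂ]
    refine Finset.single_le_sum (f := fun k => RCLike.re ⟪f j Ω, f k Ω⟫) (fun k _ => ?_) hj
    rw [RCLike.re_to_complex, inner_apply, (hfp j).1.star_eq]
    exact tau_mul_nonneg hA (hfA j) (hfp j) (hfA k) (hfp k)
  have hpY : Pos (plim hA Y) := pos_plim hA (Pos.star_mul_self _)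
  set c := (⟪ξ, plim hA Y ξ⟫).re with hcdef
  have hlim : Tendsto (fun P : Part A => qval hA Ω (star z) P) (uf hA) (𝓝 c) := by
    simp only [hkey]
    have h1 := (Complex.continuous_re.tendsto _).comp (tendsto_plim hA Y ξ ξ)
    simp only [Function.comp_def] at h1
    rw [← RCLike.re_to_complex, inner_re_symm, RCLike.re_to_complex] at h1
    refine h1.congr (fun P => ?_)
    rw [← RCLike.re_to_complex, inner_re_symm, RCLike.re_to_complex]
  have hle : ∀ Q, c ≤ qval hA Ω (star z) Q := fun Q => by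
    refine le_of_tendsto hlim ?_
    filter_upwards [eventually_finer hA Q] with P hP
    exact hanti Q P hP
  refine ⟨c, (hpY.2 ξ).lt_of_ne ?_, hle⟩
  intro hc0
  obtain ⟨s, hs, hss, hsd⟩ := hpY.exists_sqrt
  have hsA : s ∈ A := hsd ▸ cfc_mem_A hA (plim_mem hA hYM) _
  have h1 : s ξ = 0 := by
    refine norm_eq_zero.1 (sq_eq_zero_iff.1 ?_)
    rw [@norm_sq_eq_re_inner ℂ, RCLike.re_to_complex, inner_apply, hs.star_eq, hss]
    exact hc0.symm
  have h2 : s * star z = 0 := h.faithful _ (mul_mem (hA.mem_M hsA) (star_mem hzM)) h1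
  have h3 : Y * plim hA Y = 0 := by
    have h4 : plim hA Y * star z = 0 := by rw [← hss, mul_assoc, h2, mul_zero]
    have h5 := congrArg star h4
    rw [star_mul, star_star, star_zero, hpY.1.star_eq] at h5
    rw [hYdef, mul_assoc, h5, mul_zero]
  have h6 : star (plim hA Y) * plim hA Y = 0 := by
    rw [hpY.1.star_eq, ← plim_mul_right hA (plim_mem hA hYM), h3, plim_of_mem hA (zero_mem A)]
  have h7 : z = 0 := eq_zero_of_plim_star_mul h hzM (CStarRing.star_mul_self_eq_zero_iff _ |>.1 h6)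
  simp [h7] at hz0

/-- The swapped score of an intertwiner is bounded below. -/
lemma low_of_intertwiner {z : H →L[ℂ] H} (hzM : z ∈ M) (hz : IL A Ω z) (hz0 : 0 < ‖z Ω‖) :
    ∃ c, 0 < c ∧ ∀ Q : Part A, c ≤ rScore (fun e x => ‖(x * z * e) Ω‖ ^ 2) 1 1 Q := by
  have hA := h.masa
  obtain ⟨c, hc, hlow⟩ := qval_star_low h hzM hz hz0
  have hzn : 0 < ‖z‖ := by
    by_contra h0
    push Not at h0
    rw [norm_le_zero_iff.1 h0] at hz0
    simp at hz0
  set η := c / (‖z‖ ^ 2 * (‖Ω‖ + 1)) with hη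
  obtain ⟨ε, hε, heps⟩ := exists_eps_family h (star z Ω) (norm_nonneg z)
    (show 0 < (η / 2) ^ 2 by positivity)
  refine ⟨ε, hε, fun Q => ?_⟩
  by_contra hlt
  push Not at hlt
  obtain ⟨x, hx, hle⟩ := exists_qval_bound h (star_mem hzM) Q
  simp only [norm_star, star_star] at hle
  set T := fun i => x i * z * Q.e i with hT
  have hsmall : ∑ i, ‖T i Ω‖ ^ 2 ≤ ε := by
    refine le_of_lt (lt_of_le_of_lt ?_ hlt)
    refine le_trans (le_of_eq ?_)
      (rLabVal_le_score hA (rectFun_right h hzM) (one_mem A) (IsStarProjection.one _) hx)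
    simp [hT, rLabVal]
  have hξ : ∑ i, ‖T i (star z Ω)‖ ^ 2 ≤ (η / 2) ^ 2 := by
    refine heps _ inferInstance T (fun i =>
      mul_mem (mul_mem (hA.mem_M (hx.1 i).1) hzM) (hA.mem_M (Q.mem i))) (fun v => ?_) hsmall
    refine (Finset.sum_le_sum (g := fun i => ‖z‖ ^ 2 * ‖Q.e i v‖ ^ 2) (fun i _ => ?_)).trans
      (by
        rw [← Finset.mul_sum]
        exact mul_le_mul_of_nonneg_left (sum_proj_le Q.proj Q.orth v) (sq_nonneg ‖z‖))
    · rw [← mul_pow]
      exact pow_le_pow_left₀ (norm_nonneg _)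
        ((proj_norm_le (hx.1 i).2.1 _).trans (z.le_opNorm _)) 2
  have hterm : ∀ i, (⟪Ω, (x i * (z * Q.e i * star z)) Ω⟫).re
      ≤ ‖x i Ω‖ * ‖T i (star z Ω)‖ := by
    intro i
    refine (Complex.re_le_norm _).trans (le_trans (le_of_eq ?_) (norm_inner_le_norm (𝕜 := ℂ) _ _))
    congr 1
    change _ = ⟪x i Ω, (T i * star z) Ω⟫
    rw [inner_apply, (hx.1 i).2.1.isSelfAdjoint.star_eq]
    simp only [hT, ← mul_assoc, (hx.1 i).2.1.isIdempotentElem.eq]
  have hsum : ∑ i, (⟪Ω, (x i * (z * Q.e i * star z)) Ω⟫).re ≤ ‖Ω‖ * (η / 2) := by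
    refine (Finset.sum_le_sum (fun i _ => hterm i)).trans
      ((Real.sum_mul_le_sqrt_mul_sqrt _ _ _).trans (mul_le_mul ?_ ?_ (Real.sqrt_nonneg _)
        (norm_nonneg _)))
    · rw [Real.sqrt_le_left (norm_nonneg _)]
      exact sum_proj_le (fun i => (hx.1 i).2.1) hx.2 Ω
    · rw [Real.sqrt_le_left (by positivity)]
      exact hξ
  have h1 := ((hlow Q).trans hle).trans (mul_le_mul_of_nonneg_left hsum (sq_nonneg _))
  have e : ‖z‖ ^ 2 * (‖Ω‖ + 1) * η = c := by rw [hη]; field_simp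
  have hη0 : 0 < η := by positivity
  nlinarith [mul_nonneg (sq_nonneg ‖z‖) hη0.le,
    mul_nonneg (sq_nonneg ‖z‖) (mul_nonneg (norm_nonneg Ω) hη0.le)]

/-- **Mixing.** -/
theorem exists_qval_le {y : H →L[ℂ] H} (hy : y ∈ M) (hN : OrthN M A Ω y) {η : ℝ} (hη : 0 < η) :
    ∃ P : Part A, qval h.masa Ω y P ≤ η := by
  by_contra hcon
  push Not at hcon
  have hy0 : 0 < ‖y‖ := by
    by_contra h0
    push Not at h0
    obtain ⟨P⟩ := (inferInstance : Nonempty (Part A))
    have := (hcon P).trans_le (qval_le_score h hy P)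
    rw [le_antisymm h0 (norm_nonneg _)] at this
    nlinarith
  obtain ⟨z₁, L, hz₁M, hz₁, hz₁0, hz₁E⟩ := exists_chain h (rectFun_left h hy) id
    (fun L L' hc a => hc a) hy (fun L => (norm_sq_op L y).symm)
    (show 0 < η / ‖y‖ ^ 2 by positivity) (fun Q => by
      rw [div_le_iff₀ (by positivity), mul_comm]
      exact (hcon Q).le.trans (qval_le_score h hy Q))
  have hz₁I : IL A Ω z₁ := by
    intro e heA he ε hε
    obtain ⟨L', x, hxA, hx, hd, hint⟩ := hz₁E e heA he (ε / 2) (half_pos hε)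
    refine ⟨x, hxA, hx, ?_⟩
    set w := L'.op y with hw
    have hwM : w ∈ M := L'.op_mem h.masa hy
    have e3 : e * z₁ - z₁ * x = e * (z₁ - w) - (z₁ - w) * x := by
      rw [mul_sub, sub_mul, hw, hint y]
      abel
    rw [e3, sub_apply]
    refine (norm_sub_le _ _).trans ?_
    have b1 := proj_norm_le he ((z₁ - w) Ω)
    have b2 := norm_mul_proj_le h (sub_mem hz₁M hwM) hxA hx
    simp only [id_eq, mul_apply_eq_comp] at b1 b2 hd ⊢
    linarith
  obtain ⟨c, hc, hlow⟩ := low_of_intertwiner h hz₁M hz₁I hz₁0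
  obtain ⟨z, L', hzM, haz, hz0, hzE⟩ := exists_chain h (rectFun_right h hz₁M) Blocks.swap
    (fun L L' hc a => swap_comp hc a) hz₁M
    (fun L => (norm_sq_op L.swap z₁).symm) hc hlow
  set a := fun n => (L' n).swap.op z₁ with ha
  have haM : ∀ n, a n ∈ M := fun n => Blocks.op_mem _ h.masa hz₁M
  have hzI : IL A Ω z := IL.of_tendsto h haM (fun n => IL.op h hz₁I hz₁M _) hzM haz
  have hzR : IR A Ω z := by
    intro e heA he ε hε
    obtain ⟨L'', x, hxA, hx, hd, hint⟩ := hzE e heA he (ε / 2) (half_pos hε)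
    refine ⟨x, hxA, hx, ?_⟩
    set w := L''.swap.op z₁ with hw
    have hwM : w ∈ M := L''.swap.op_mem h.masa hz₁M
    have e3 : z * e - x * z = (z - w) * e - x * (z - w) := by
      rw [mul_sub, sub_mul, hw, swap_intertwine he hx hint z₁]
      abel
    rw [e3, sub_apply]
    refine (norm_sub_le _ _).trans ?_
    have b1 := proj_norm_le hx ((z - w) Ω)
    have b2 := norm_mul_proj_le h (sub_mem hzM hwM) heA he
    simp only [mul_apply_eq_comp] at b1 b2 ⊢
    linarith
  have hkey : ∀ n, ⟪a n Ω, y Ω⟫ = ((‖a n Ω‖ ^ 2 : ℝ) : ℂ) := by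
    intro n
    set S := (L' n).swap
    have hlim : Tendsto (fun m => (S.op ((L m).op y)) Ω) atTop (𝓝 (S.op z₁ Ω)) := by
      refine tendsto_iff_norm_sub_tendsto_zero.2 (squeeze_zero (fun _ => norm_nonneg _)
        (fun m => ?_) (tendsto_iff_norm_sub_tendsto_zero.1 hz₁))
      simp only [id_eq]
      rw [← sub_apply, ← sub_apply, ← S.op_sub]
      exact norm_op_apply_le h S (sub_mem (Blocks.op_mem _ h.masa hy) hz₁M)
    have l2 : Tendsto (fun m => ((‖(S.op ((L m).op y)) Ω‖ ^ 2 : ℝ) : ℂ)) atTop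
        (𝓝 ((‖a n Ω‖ ^ 2 : ℝ) : ℂ)) :=
      (Complex.continuous_ofReal.tendsto _).comp (hlim.norm.pow 2)
    refine tendsto_nhds_unique (hlim.inner tendsto_const_nhds) (l2.congr (fun m => ?_))
    rw [← Blocks.prod_op S h.masa, inner_op_self h _ hy]
  have l3 : Tendsto (fun n => ((‖a n Ω‖ ^ 2 : ℝ) : ℂ)) atTop (𝓝 ((‖z Ω‖ ^ 2 : ℝ) : ℂ)) :=
    (Complex.continuous_ofReal.tendsto _).comp (haz.norm.pow 2)
  have hinner : ⟪z Ω, y Ω⟫ = ((‖z Ω‖ ^ 2 : ℝ) : ℂ) :=
    tendsto_nhds_unique ((haz.inner tendsto_const_nhds).congr hkey) l3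
  have hzero := inner_eq_zero_of_conj h hzM (fun b hb => IL.conj_mem h hzI hzM hb)
    (fun b hb => IR.conj_mem h hzR hzM hb) hN
  rw [hinner, Complex.ofReal_eq_zero] at hzero
  nlinarith

end Vale.Agent.P078.TypeIII
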