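import Vale.Agent.P078.TypeIII.Setting
import Vale.Agent.P078.Finite.Expect

/-!
# Normalisers without a trace

The expectation is equivariant under normalisers, orthogonality to the normalisers is symmetric
under adjoints, and the norm closure of the span of the normalisers contains `A`.
-/

set_option linter.unusedSectionVars false

namespace Vale.Agent.P078.TypeIII

open ComplexInnerProductSpace
open Filter Topology
open Vale.Agent.P078 Vale.Agent.P078.General Vale.Agent.P078.Finite
open scoped CStarAlgebra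

universe u

variable {H : Type u} [NormedAddCommGroup H] [InnerProductSpace ℂ H] [CompleteSpace H]
variable {M : VonNeumannAlgebra H} {A : StarSubalgebra ℂ (H →L[ℂ] H)} {Ω : H}

lemma plim_star' (hA : IsMASAIn M A) (y : H →L[ℂ] H) :
    plim hA (star y) = star (plim hA y) := by
  refine plim_eq hA (fun v w => ?_)
  have e : ∀ P : Part A, P.pinch (star y) = star (P.pinch y) := fun P => by
    simp only [Part.pinch, star_sum, star_mul, (P.proj _).isSelfAdjoint.star_eq, mul_assoc]
  simp only [e]
  simp only [ContinuousLinearMap.star_eq_adjoint, ContinuousLinearMap.adjoint_inner_left]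
  have h1 := (Complex.continuous_conj.tendsto _).comp (tendsto_plim hA y w v)
  simpa only [Function.comp_def, inner_conj_symm] using h1

/-- The norm closure of the span of the normalisers. -/
noncomputable def spanC (M : VonNeumannAlgebra H) (A : StarSubalgebra ℂ (H →L[ℂ] H)) :
    Submodule ℂ (H →L[ℂ] H) :=
  (spanN M A).topologicalClosure

lemma spanN_le_spanC : spanN M A ≤ spanC M A := Submodule.le_topologicalClosure _

lemma normaliser_mem_spanC {v : H →L[ℂ] H} (hv : IsNormaliser M A v) : v ∈ spanC M A :=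
  spanN_le_spanC (Submodule.subset_span hv)

/-- Extend a closed property from the span to its closure. -/
lemma spanC_induction {P : (H →L[ℂ] H) → Prop} (hcl : IsClosed {x | P x})
    (h : ∀ x ∈ spanN M A, P x) {x : H →L[ℂ] H} (hx : x ∈ spanC M A) : P x :=
  closure_minimal (t := {x | P x}) h hcl hx

lemma spanC_mul (hA : IsMASAIn M A) {s t : H →L[ℂ] H} (hs : s ∈ spanC M A)
    (ht : t ∈ spanC M A) : s * t ∈ spanC M A := by
  have hcl : IsClosed (spanC M A : Set (H →L[ℂ] H)) := Submodule.isClosed_topologicalClosure _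
  refine spanC_induction (P := fun x => x * t ∈ spanC M A)
    (hcl.preimage (continuous_id.mul continuous_const)) (fun x hx => ?_) hs
  exact spanC_induction (P := fun y => x * y ∈ spanC M A)
    (hcl.preimage (continuous_const.mul continuous_id))
    (fun y hy => spanN_le_spanC (spanN_mul hA hx hy)) ht

lemma spanC_star {s : H →L[ℂ] H} (hs : s ∈ spanC M A) : star s ∈ spanC M A :=
  spanC_induction (P := fun x => star x ∈ spanC M A)
    ((Submodule.isClosed_topologicalClosure _).preimage continuous_star)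
    (fun _ hx => spanN_le_spanC (spanN_star hx)) hs

lemma spanC_mem_M {s : H →L[ℂ] H} (hs : s ∈ spanC M A) : s ∈ M := by
  refine spanC_induction (P := fun x => x ∈ M) ?_ (fun _ hx => spanN_mem_M hx) hs
  change IsClosed (M : Set (H →L[ℂ] H))
  rw [← M.centralizer_centralizer]
  exact Set.isClosed_centralizer _

lemma spanC_apply_mem_vecN {s : H →L[ℂ] H} (hs : s ∈ spanC M A) : s Ω ∈ vecN M A Ω :=
  spanC_induction (P := fun x => x Ω ∈ vecN M A Ω)
    ((Submodule.isClosed_topologicalClosure _).preimage
      (ContinuousLinearMap.apply ℂ H Ω).continuous)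
    (fun _ hx => apply_mem_vecN hx) hs

lemma mem_spanC_of_mem_A (hA : IsMASAIn M A) {a : H →L[ℂ] H} (ha : a ∈ A) :
    a ∈ spanC M A := by
  have hproj : ∀ p ∈ A, IsStarProjection p → p ∈ spanN M A := fun p hpA hp =>
    Submodule.subset_span (isNormaliser_proj hA hp hpA)
  have step : ∀ (n : ℕ) (b : H →L[ℂ] H) (R : ℝ), b ∈ A → IsSelfAdjoint b → ‖b‖ ≤ R →
      ∃ s ∈ spanN M A, ‖b - s‖ ≤ R / 2 ^ n := by
    intro n
    induction n with
    | zero =>
      intro b R _ _ hR
      exact ⟨0, zero_mem _, by simpa using hR⟩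
    | succ n ih =>
      intro b R hbA hb hR
      obtain ⟨b1, e, heA, he, hb1A, hb1s, hnb, hb1⟩ := hA.halving b R hbA hb hR
      obtain ⟨s, hs, hd⟩ := ih b1 (R / 2) hb1A hb1s hnb
      refine ⟨s + ((R / 2 : ℝ) : ℂ) • (e - (1 - e)), add_mem hs (Submodule.smul_mem _ _
        (sub_mem (hproj e heA he) (hproj _ (sub_mem (one_mem A) heA) he.one_sub))), ?_⟩
      refine (le_of_eq ?_).trans (hd.trans (le_of_eq (by rw [pow_succ]; ring)))
      congr 1
      rw [hb1, Complex.coe_smul]
      abel
  have hsa : ∀ b ∈ A, IsSelfAdjoint b → b ∈ spanC M A := by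
    intro b hbA hb
    refine Metric.mem_closure_iff.2 (fun η hη => ?_)
    have ht : Tendsto (fun n : ℕ => ‖b‖ / 2 ^ n) atTop (𝓝 0) :=
      tendsto_const_nhds.div_atTop (tendsto_pow_atTop_atTop_of_one_lt one_lt_two)
    obtain ⟨n, hn⟩ := (ht.eventually (gt_mem_nhds hη)).exists
    obtain ⟨s, hs, hd⟩ := step n b ‖b‖ hbA hb le_rfl
    exact ⟨s, hs, by rw [dist_eq_norm]; linarith⟩
  have e : a = (1 / 2 : ℂ) • (a + star a) - (Complex.I / 2) • (Complex.I • (a - star a)) := by
    rw [smul_smul, div_mul_eq_mul_div, Complex.I_mul_I]; module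
  rw [e]
  refine sub_mem (Submodule.smul_mem _ _ (hsa _ (add_mem ha (star_mem ha))
    (IsSelfAdjoint.add_star_self a))) (Submodule.smul_mem _ _ (hsa _ ?_ ?_))
  · exact A.toSubalgebra.smul_mem (sub_mem ha (star_mem ha) : a - star a ∈ A) _
  · simp [IsSelfAdjoint, star_smul, Complex.conj_I, sub_eq_add_neg, add_comm]

/-- `n` and its adjoint are generated by normalisers. -/
def CN (M : VonNeumannAlgebra H) (A : StarSubalgebra ℂ (H →L[ℂ] H)) (Ω : H)
    (n : H →L[ℂ] H) : Prop :=
  InN M A Ω n ∧ InN M A Ω (star n)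

lemma cn_of_spanC {s : H →L[ℂ] H} (hs : s ∈ spanC M A) : CN M A Ω s :=
  ⟨⟨spanC_mem_M hs, spanC_apply_mem_vecN hs⟩,
    ⟨spanC_mem_M (spanC_star hs), spanC_apply_mem_vecN (spanC_star hs)⟩⟩

lemma cn_of_mem (hA : IsMASAIn M A) {a : H →L[ℂ] H} (ha : a ∈ A) : CN M A Ω a :=
  cn_of_spanC (mem_spanC_of_mem_A hA ha)

lemma cn_normaliser {v : H →L[ℂ] H} (hv : IsNormaliser M A v) : CN M A Ω v :=
  cn_of_spanC (normaliser_mem_spanC hv)

lemma CN.star {n : H →L[ℂ] H} (hn : CN M A Ω n) : CN M A Ω (star n) :=
  ⟨hn.2, by rw [star_star]; exact hn.1⟩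

lemma spanC_apply_vecN (hA : IsMASAIn M A) {s : H →L[ℂ] H} (hs : s ∈ spanC M A) {ζ : H}
    (hζ : ζ ∈ vecN M A Ω) : s ζ ∈ vecN M A Ω :=
  vecN_le_of (W := (vecN M A Ω).comap (s : H →ₗ[ℂ] H))
    ((Submodule.isClosed_topologicalClosure _).preimage s.continuous)
    (fun v hv => by
      change (s * v) Ω ∈ vecN M A Ω
      exact spanC_apply_mem_vecN (spanC_mul hA hs (normaliser_mem_spanC hv))) hζ

variable (h : CentSetting M A Ω)
include h

/-- The expectation is equivariant under normalisers. -/
lemma plim_conj {v y : H →L[ℂ] H} (hv : IsNormaliser M A v) (hy : y ∈ M) :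
    v * plim h.masa y * star v = plim h.masa (v * y * star v) := by
  have hA := h.masa
  have hX : v * y * star v ∈ M := mul_mem (mul_mem hv.mem hy) (star_mem hv.mem)
  refine eq_of_tau_A h (hv.conj_mem (plim_mem hA hy)) (plim_mem hA hX) (fun c hc => ?_)
  rw [← plim_mul_left hA hc, tau_plim h (mul_mem (hA.mem_M hc) hX)]
  have hinv : ∀ P : Part A, ⟪Ω, (c * (v * P.pinch y * star v)) Ω⟫
      = ⟪Ω, (c * (v * y * star v)) Ω⟫ := by
    intro P
    have hterm : ∀ i, ⟪Ω, (c * (v * (P.e i * y * P.e i) * star v)) Ω⟫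
        = ⟪Ω, (v * P.e i * star v * (c * (v * y * star v))) Ω⟫ := fun i => by
      set e' := v * P.e i * star v with he'
      have he'A : e' ∈ A := hv.conj_mem (P.mem i)
      have he'p : IsStarProjection e' := hv.conj_proj hA (P.mem i) (P.proj i)
      have e1 : v * P.e i = e' * v := by
        rw [he', mul_assoc (v * P.e i), mul_assoc v (P.e i) (star v * v),
          hA.comm (P.mem i) hv.src_mem, ← mul_assoc v, hv.mul_src]
      have e2 : P.e i * star v = star v * e' := by
        have := congrArg star e1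
        rwa [star_mul, star_mul, he'p.isSelfAdjoint.star_eq,
          (P.proj i).isSelfAdjoint.star_eq] at this
      have e3 : c * (v * (P.e i * y * P.e i) * star v) = c * e' * (v * y * star v) * e' := by
        calc c * (v * (P.e i * y * P.e i) * star v)
            = c * ((v * P.e i) * y * (P.e i * star v)) := by simp only [mul_assoc]
          _ = _ := by rw [e1, e2]; simp only [mul_assoc]
      rw [e3, ← h.central _ he'A _ (mul_mem (mul_mem (hA.mem_M hc) (hA.mem_M he'A)) hX),
        ← mul_assoc e', ← mul_assoc e', hA.comm he'A hc, mul_assoc c e' e',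
        he'p.isIdempotentElem.eq]
      simp only [mul_assoc]
      rw [← mul_assoc c, ← mul_assoc e', hA.comm hc he'A]
    rw [Part.pinch, Finset.mul_sum, Finset.sum_mul, Finset.mul_sum, _root_.sum_apply, inner_sum]
    simp only [hterm]
    rw [← inner_sum, ← _root_.sum_apply, ← Finset.sum_mul, ← Finset.sum_mul, ← Finset.mul_sum,
      P.total, mul_one, ← mul_assoc (v * star v), hA.comm hv.rng_mem hc, mul_assoc c,
      ← mul_assoc (v * star v), ← mul_assoc (v * star v), hv.rng_mul]
  refine tendsto_nhds_unique (f := fun P : Part A => ⟪Ω, (c * (v * P.pinch y * star v)) Ω⟫)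
    (l := (uf hA : Filter (Part A))) ?_ (tendsto_const_nhds.congr (fun P => (hinv P).symm))
  have h1 := (Complex.continuous_conj.tendsto _).comp
    (tendsto_plim hA y (star v Ω) (star (c * v) Ω))
  simp only [Function.comp_def, inner_conj_symm] at h1
  refine ((Filter.tendsto_congr (fun P => ?_)).1 h1).trans (le_of_eq ?_) <;>
  · simp only [inner_apply, star_star]
    simp [mul_assoc]

lemma plim_star_normaliser_mul {v w : H →L[ℂ] H} (hw : w ∈ M) (hN : OrthN M A Ω w)
    (hv : IsNormaliser M A v) : plim h.masa (star v * w) = 0 := by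
  have hA := h.masa
  refine (plim_eq_zero_iff h (mul_mem (star_mem hv.mem) hw)).2 (fun a ha => ?_)
  have hmem : (v * star a) Ω ∈ vecN M A Ω :=
    spanC_apply_mem_vecN (spanC_mul hA (normaliser_mem_spanC hv)
      (mem_spanC_of_mem_A hA (star_mem ha)))
  have := orthN_iff.1 hN _ hmem
  rw [inner_apply, star_mul, star_star] at this
  simpa only [mul_assoc] using this

lemma orthN_of_plim {w : H →L[ℂ] H} (hw : w ∈ M)
    (h0 : ∀ v, IsNormaliser M A v → plim h.masa (star v * w) = 0) : OrthN M A Ω w := by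
  intro v hv
  rw [inner_apply, ← tau_plim h (mul_mem (star_mem hv.mem) hw), h0 v hv, zero_apply,
    inner_zero_right]

lemma plim_eq_zero_of_orth {w : H →L[ℂ] H} (hw : w ∈ M) (hN : OrthN M A Ω w) :
    plim h.masa w = 0 := by
  simpa using plim_star_normaliser_mul h hw hN
    (isNormaliser_proj h.masa (IsStarProjection.one _) (one_mem A))

/-- Orthogonality to the normalisers is symmetric. -/
lemma orthN_star {w : H →L[ℂ] H} (hw : w ∈ M) (hN : OrthN M A Ω w) :
    OrthN M A Ω (star w) := by
  have hA := h.masa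
  refine orthN_of_plim h (star_mem hw) (fun v hv => ?_)
  rw [← star_mul, plim_star' hA, star_eq_zero]
  have hwv : w * v ∈ M := mul_mem hw hv.mem
  have h1 : v * plim hA (w * v) * star v = 0 := by
    rw [plim_conj h hv hwv]
    have e : v * (w * v) * star v = (v * w) * (v * star v) := by simp only [mul_assoc]
    have h2 := plim_star_normaliser_mul h hw hN hv.adjoint
    rw [star_star] at h2
    rw [e, plim_mul_right hA hv.rng_mem, h2, zero_mul]
  have h3 : plim hA (w * v) = plim hA (w * v) * (star v * v) := by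
    rw [← plim_mul_right hA hv.src_mem, mul_assoc, hv.mul_src]
  calc plim hA (w * v) = (star v * v) * plim hA (w * v) * (star v * v) := by
        rw [← hA.comm (plim_mem hA hwv) hv.src_mem, ← h3, ← h3]
    _ = star v * (v * plim hA (w * v) * star v) * v := by simp only [mul_assoc]
    _ = 0 := by rw [h1, mul_zero, zero_mul]

lemma orthN_mul_left_normaliser {u w : H →L[ℂ] H} (hu : IsNormaliser M A u) (hw : w ∈ M)
    (hN : OrthN M A Ω w) : OrthN M A Ω (u * w) := by
  refine orthN_of_plim h (mul_mem hu.mem hw) (fun v hv => ?_)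
  have := plim_star_normaliser_mul h hw hN (IsNormaliser.mul h.masa hu.adjoint hv)
  rwa [star_mul, star_star, mul_assoc] at this

lemma orthN_mul_right {n w : H →L[ℂ] H} (hn : InN M A Ω n) (hw : w ∈ M)
    (hN : OrthN M A Ω w) : OrthN M A Ω (w * n) := by
  intro v hv
  have h1 : OrthN M A Ω (star w * v) := by
    have := orthN_star h (mul_mem (star_mem hv.mem) hw)
      (orthN_mul_left_normaliser h hv.adjoint hw hN)
    rwa [star_mul, star_star] at this
  have h2 := orthN_iff.1 h1 _ hn.2
  have e : ⟪v Ω, (w * n) Ω⟫ = starRingEnd ℂ ⟪n Ω, (star w * v) Ω⟫ := by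
    rw [inner_conj_symm, inner_apply, inner_apply, star_mul, star_star, mul_assoc]
  rw [e, h2, map_zero]

lemma orthN_mul_left {n w : H →L[ℂ] H} (hn : CN M A Ω n) (hw : w ∈ M)
    (hN : OrthN M A Ω w) : OrthN M A Ω (n * w) := by
  have := orthN_star h (mul_mem (star_mem hw) hn.2.1)
    (orthN_mul_right h hn.2 (star_mem hw) (orthN_star h hw hN))
  simpa [star_mul] using this

lemma plim_eq_zero_of_orthN_conj {w a b : H →L[ℂ] H} (hw : w ∈ M) (hN : OrthN M A Ω w)
    (ha : IsNormaliser M A a) (hb : IsNormaliser M A b) :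
    plim h.masa (star a * w * b) = 0 :=
  plim_eq_zero_of_orth h (mul_mem (mul_mem (star_mem ha.mem) hw) hb.mem)
    (orthN_mul_right h (cn_normaliser hb).1 (mul_mem (star_mem ha.mem) hw)
      (orthN_mul_left_normaliser h ha.adjoint hw hN))

end Vale.Agent.P078.TypeIII
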