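import Vale.Agent.P078.TypeIII.Normaliser
import Vale.Agent.P078.Mix.Score

/-!
# Near-optimal labellings for a rectangle functional

A rectangle functional is a nonnegative function of two projections of `A`, monotone in the
first, additive in the second and bounded on matchings. The splitting lemma for scores is proved
at this generality, so that it serves on both sides of a bimodule vector.
-/

set_option linter.unusedSectionVars false

namespace Vale.Agent.P078.TypeIII

open ComplexInnerProductSpace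
open Filter Topology
open Vale.Agent.P078 Vale.Agent.P078.General Vale.Agent.P078.Finite
open scoped CStarAlgebra

universe u

variable {H : Type u} [NormedAddCommGroup H] [InnerProductSpace ℂ H] [CompleteSpace H]
variable {M : VonNeumannAlgebra H} {A : StarSubalgebra ℂ (H →L[ℂ] H)}

/-- A rectangle functional on the projections of `A`. -/
structure RectFun (A : StarSubalgebra ℂ (H →L[ℂ] H)) (N : (H →L[ℂ] H) → (H →L[ℂ] H) → ℝ) :
    Prop where
  nonneg : ∀ e x, 0 ≤ N e x
  zero_right : ∀ e, N e 0 = 0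
  mono_left : ∀ e e' x, e ∈ A → IsStarProjection e → e' ∈ A → IsStarProjection e' → x ∈ A →
    IsStarProjection x → e * e' = e → N e x ≤ N e' x
  add_right : ∀ e, e ∈ A → IsStarProjection e → ∀ {k : ℕ} (x : Fin k → (H →L[ℂ] H)),
    (∀ i, x i ∈ A ∧ IsStarProjection (x i)) → (∀ i j, i ≠ j → x i * x j = 0) →
      ∀ s : Finset (Fin k), N e (∑ i ∈ s, x i) = ∑ i ∈ s, N e (x i)
  bounded : ∃ B : ℝ, ∀ (k : ℕ) (e x : Fin k → (H →L[ℂ] H)),
    (∀ i, e i ∈ A ∧ IsStarProjection (e i)) → (∀ i j, i ≠ j → e i * e j = 0) →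
      (∀ i, x i ∈ A ∧ IsStarProjection (x i)) → (∀ i j, i ≠ j → x i * x j = 0) →
        ∑ i, N (e i) (x i) ≤ B

variable {N : (H →L[ℂ] H) → (H →L[ℂ] H) → ℝ}

/-- The value of a labelling. -/
noncomputable def rLabVal (N : (H →L[ℂ] H) → (H →L[ℂ] H) → ℝ) (b : H →L[ℂ] H) (Q : Part A)
    (l : Fin Q.n → (H →L[ℂ] H)) : ℝ :=
  ∑ j, N (b * Q.e j) (l j)

/-- The best value. -/
noncomputable def rScore (N : (H →L[ℂ] H) → (H →L[ℂ] H) → ℝ) (b x : H →L[ℂ] H) (Q : Part A) :
    ℝ :=
  sSup (rLabVal N b Q '' Lab Q x)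

/-- The limit of the best values. -/
noncomputable def rVal (A : StarSubalgebra ℂ (H →L[ℂ] H))
    (N : (H →L[ℂ] H) → (H →L[ℂ] H) → ℝ) (b x : H →L[ℂ] H) : ℝ :=
  ⨅ Q : Part A, rScore N b x Q

variable (hA : IsMASAIn M A) (hN : RectFun A N)
include hA hN

variable {b x : H →L[ℂ] H}

lemma RectFun.mono_right {e l : H →L[ℂ] H} (heA : e ∈ A) (he : IsStarProjection e)
    (hxA : x ∈ A) (hx : IsStarProjection x) (hlA : l ∈ A) (hl : IsStarProjection l)
    (hle : x * l = l) : N e l ≤ N e x := by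
  have hd : IsStarProjection (x - l) := hl.sub_of_mul_eq_left hx ((hA.comm hlA hxA).trans hle)
  have h0 : l * (x - l) = 0 := by
    rw [mul_sub, hA.comm hlA hxA, hle, hl.isIdempotentElem.eq, sub_self]
  have h1 := hN.add_right e heA he ![l, x - l]
    (fun i => by fin_cases i; exacts [⟨hlA, hl⟩, ⟨sub_mem hxA hlA, hd⟩])
    (fun i j hij => by
      fin_cases i <;> fin_cases j <;> first
        | exact absurd rfl hij
        | exact h0
        | exact (hA.comm (sub_mem hxA hlA) hlA).trans h0) Finset.univ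
  simp only [Fin.sum_univ_two, Matrix.cons_val_zero, Matrix.cons_val_one, add_sub_cancel] at h1
  rw [h1]
  linarith [hN.nonneg e (x - l)]

lemma cell_mem (hbA : b ∈ A) (hb : IsStarProjection b) (Q : Part A) :
    (∀ j, b * Q.e j ∈ A ∧ IsStarProjection (b * Q.e j)) ∧
      ∀ i j, i ≠ j → b * Q.e i * (b * Q.e j) = 0 := by
  have _ := hN
  refine ⟨fun j => ⟨mul_mem hbA (Q.mem j), hA.mul_proj hb (Q.proj j) hbA (Q.mem j)⟩,
    fun i j hij => ?_⟩
  rw [mul_assoc, ← mul_assoc (Q.e i), hA.comm (Q.mem i) hbA, mul_assoc b (Q.e i),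
    Q.orth i j hij, mul_zero, mul_zero]

lemma rScore_bdd (hbA : b ∈ A) (hb : IsStarProjection b) (Q : Part A) :
    BddAbove (rLabVal N b Q '' Lab Q x) := by
  obtain ⟨B, hB⟩ := hN.bounded
  obtain ⟨h1, h2⟩ := cell_mem hA hN hbA hb Q
  refine ⟨B, ?_⟩
  rintro _ ⟨l, hl, rfl⟩
  exact hB Q.n _ l h1 h2 (fun j => ⟨(hl.1 j).1, (hl.1 j).2.1⟩) hl.2

lemma rLabVal_le_score (hbA : b ∈ A) (hb : IsStarProjection b) {Q : Part A}
    {l : Fin Q.n → (H →L[ℂ] H)} (hl : l ∈ Lab Q x) : rLabVal N b Q l ≤ rScore N b x Q :=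
  le_csSup (rScore_bdd hA hN hbA hb Q) (Set.mem_image_of_mem _ hl)

omit hA hN in
lemma rScore_le_of {Q : Part A} {C : ℝ} (hC : ∀ l ∈ Lab Q x, rLabVal N b Q l ≤ C) :
    rScore N b x Q ≤ C :=
  csSup_le (Set.Nonempty.image _ ⟨_, zero_mem_Lab Q x⟩)
    (by rintro _ ⟨l, hl, rfl⟩; exact hC l hl)

lemma rScore_nonneg (hbA : b ∈ A) (hb : IsStarProjection b) (Q : Part A) :
    0 ≤ rScore N b x Q :=
  le_trans (by simp [rLabVal, hN.zero_right]) (rLabVal_le_score hA hN hbA hb (zero_mem_Lab Q x))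

lemma rVal_le_score (hbA : b ∈ A) (hb : IsStarProjection b) (Q : Part A) :
    rVal A N b x ≤ rScore N b x Q :=
  ciInf_le ⟨0, by rintro _ ⟨P, rfl⟩; exact rScore_nonneg hA hN hbA hb P⟩ Q

lemma rScore_antitone (hbA : b ∈ A) (hb : IsStarProjection b) {Q Q' : Part A}
    (hQ : Q ≤ Q') : rScore N b x Q' ≤ rScore N b x Q := by
  classical
  refine rScore_le_of (fun l hl => ?_)
  choose π hπ using hQ
  set L : Fin Q.n → (H →L[ℂ] H) := fun j => ∑ k ∈ Finset.univ.filter (fun k => π k = j), l k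
  have hL : L ∈ Lab Q x := by
    refine ⟨fun j => ⟨sum_mem (fun k _ => (hl.1 k).1),
      sum_isStarProjection _ l (fun k => (hl.1 k).2.1) hl.2, ?_⟩, fun i j hij => ?_⟩
    · rw [Finset.mul_sum]
      exact Finset.sum_congr rfl (fun k _ => (hl.1 k).2.2)
    · rw [Finset.sum_mul_sum]
      refine Finset.sum_eq_zero (fun k hk => Finset.sum_eq_zero (fun k' hk' => hl.2 k k' ?_))
      simp only [Finset.mem_filter] at hk hk'
      rintro rfl
      exact hij (hk.2.symm.trans hk'.2)
  refine le_trans ?_ (rLabVal_le_score hA hN hbA hb hL)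
  unfold rLabVal
  rw [← Finset.sum_fiberwise Finset.univ π]
  refine Finset.sum_le_sum (fun j _ => ?_)
  have hc := (cell_mem hA hN hbA hb Q).1 j
  rw [hN.add_right _ hc.1 hc.2 l (fun k => ⟨(hl.1 k).1, (hl.1 k).2.1⟩) hl.2 _]
  refine Finset.sum_le_sum (fun k hk => ?_)
  simp only [Finset.mem_filter] at hk
  have hk' := (cell_mem hA hN hbA hb Q').1 k
  refine hN.mono_left _ _ _ hk'.1 hk'.2 hc.1 hc.2 (hl.1 k).1 (hl.1 k).2.1 ?_
  rw [mul_assoc, ← mul_assoc (Q'.e k), hA.comm (Q'.mem k) hbA, mul_assoc b (Q'.e k),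
    ← mul_assoc b b, hb.isIdempotentElem.eq, hA.comm (Q'.mem k) (Q.mem j), ← hk.2, hπ k]

lemma rScore_add_le (hbA : b ∈ A) (hb : IsStarProjection b) {x' : H →L[ℂ] H}
    (hxA : x ∈ A) (hx : IsStarProjection x) (hx'A : x' ∈ A) (hx' : IsStarProjection x')
    (hle : x * x' = x') (Q : Part A) :
    rScore N b x Q ≤ rScore N b x' Q + rScore N b (x - x') Q := by
  have hd : IsStarProjection (x - x') :=
    hx'.sub_of_mul_eq_left hx ((hA.comm hx'A hxA).trans hle)
  have hdA := sub_mem hxA hx'A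
  refine rScore_le_of (fun l hl => ?_)
  have key : ∀ z, z ∈ A → IsStarProjection z → (fun j => z * l j) ∈ Lab Q z := fun z hzA hz =>
    ⟨fun j => ⟨mul_mem hzA (hl.1 j).1, hA.mul_proj hz (hl.1 j).2.1 hzA (hl.1 j).1,
      by rw [← mul_assoc, hz.isIdempotentElem.eq]⟩,
     fun i j hij => by
      rw [mul_assoc, ← mul_assoc (l i), hA.comm (hl.1 i).1 hzA, mul_assoc z (l i),
        hl.2 i j hij, mul_zero, mul_zero]⟩
  refine le_trans (le_of_eq ?_) (add_le_add (rLabVal_le_score hA hN hbA hb (key x' hx'A hx'))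
    (rLabVal_le_score hA hN hbA hb (key (x - x') hdA hd)))
  unfold rLabVal
  rw [← Finset.sum_add_distrib]
  refine Finset.sum_congr rfl (fun j _ => ?_)
  have hc := (cell_mem hA hN hbA hb Q).1 j
  have horth : x' * (x - x') = 0 := by
    rw [mul_sub, hA.comm hx'A hxA, hle, hx'.isIdempotentElem.eq, sub_self]
  have e0 : x' * l j * ((x - x') * l j) = 0 := by
    rw [mul_assoc, ← mul_assoc (l j), hA.comm (hl.1 j).1 hdA, mul_assoc (x - x'),
      ← mul_assoc x', horth, zero_mul]
  have hsum := hN.add_right _ hc.1 hc.2 ![x' * l j, (x - x') * l j]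
    (fun i => by
      fin_cases i
      exacts [⟨mul_mem hx'A (hl.1 j).1, hA.mul_proj hx' (hl.1 j).2.1 hx'A (hl.1 j).1⟩,
        ⟨mul_mem hdA (hl.1 j).1, hA.mul_proj hd (hl.1 j).2.1 hdA (hl.1 j).1⟩])
    (fun i k hik => by
      fin_cases i <;> fin_cases k <;> first
        | exact absurd rfl hik
        | exact e0
        | exact (hA.comm (mul_mem hdA (hl.1 j).1) (mul_mem hx'A (hl.1 j).1)).trans e0)
    Finset.univ
  simp only [Fin.sum_univ_two, Matrix.cons_val_zero, Matrix.cons_val_one] at hsum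
  rw [← hsum, ← add_mul, add_sub_cancel, (hl.1 j).2.2]

lemma add_rScore_le (hbA : b ∈ A) (hb : IsStarProjection b) {x' : H →L[ℂ] H}
    (hxA : x ∈ A) (hx : IsStarProjection x) (hx'A : x' ∈ A) (hx' : IsStarProjection x')
    (hle : x * x' = x') (Q : Part A) :
    rScore N b x' Q + rScore N b (x - x') Q ≤ rScore N b x Q := by
  rw [← le_sub_iff_add_le']
  refine rScore_le_of (fun l' hl' => ?_)
  rw [le_sub_comm]
  refine rScore_le_of (fun l hl => ?_)
  rw [le_sub_iff_add_le']
  have hdA := sub_mem hxA hx'A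
  have hxd : x' * (x - x') = 0 := by
    rw [mul_sub, hA.comm hx'A hxA, hle, hx'.isIdempotentElem.eq, sub_self]
  have hcross : ∀ i k, l i * l' k = 0 := fun i k => by
    rw [← (hl.1 i).2.2, ← (hl'.1 k).2.2, hA.comm hx'A (hl.1 i).1, mul_assoc,
      ← mul_assoc x', hxd, zero_mul, mul_zero]
  have hlab : (fun j => l j + l' j) ∈ Lab Q x := by
    refine ⟨fun j => ⟨add_mem (hl.1 j).1 (hl'.1 j).1, (hl.1 j).2.1.add (hl'.1 j).2.1 (hcross j j),
      ?_⟩, fun i j hij => ?_⟩
    · change x * (l j + l' j) = l j + l' j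
      rw [mul_add, ← (hl.1 j).2.2, ← (hl'.1 j).2.2, ← mul_assoc, hle, ← mul_assoc, mul_sub,
        hx.isIdempotentElem.eq, hle]
    · rw [add_mul, mul_add, mul_add, hl.2 i j hij, hl'.2 i j hij, hcross i j,
        hA.comm (hl'.1 i).1 (hl.1 j).1, hcross j i]
      simp
  refine le_trans (le_of_eq ?_) (rLabVal_le_score hA hN hbA hb hlab)
  unfold rLabVal
  rw [← Finset.sum_add_distrib]
  refine Finset.sum_congr rfl (fun j _ => ?_)
  have hc := (cell_mem hA hN hbA hb Q).1 j
  have hsum := hN.add_right _ hc.1 hc.2 ![l j, l' j]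
    (fun i => by
      fin_cases i
      exacts [⟨(hl.1 j).1, (hl.1 j).2.1⟩, ⟨(hl'.1 j).1, (hl'.1 j).2.1⟩])
    (fun i k hik => by
      fin_cases i <;> fin_cases k <;> first
        | exact absurd rfl hik
        | exact hcross j j
        | exact (hA.comm (hl'.1 j).1 (hl.1 j).1).trans (hcross j j))
    Finset.univ
  simp only [Fin.sum_univ_two, Matrix.cons_val_zero, Matrix.cons_val_one] at hsum
  rw [add_comm]
  exact hsum.symm

/-- The two-cell partition `(1, 0)` gives the trivial bound. -/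
lemma rVal_le_apply (hbA : b ∈ A) (hb : IsStarProjection b) (hxA : x ∈ A)
    (hx : IsStarProjection x) : rVal A N b x ≤ N b x := by
  refine (rVal_le_score hA hN hbA hb (twoPart (one_mem A) (IsStarProjection.one _))).trans ?_
  refine rScore_le_of (fun l hl => ?_)
  have e : rLabVal N b (twoPart (one_mem A) (IsStarProjection.one _)) l
      = N b (l (0 : Fin 2)) + N 0 (l (1 : Fin 2)) := by
    change ∑ j : Fin 2, N (b * ![(1 : H →L[ℂ] H), 1 - 1] j) (l j) = _
    simp [Fin.sum_univ_two]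
  obtain ⟨hA0, hp0, hx0⟩ := hl.1 (0 : Fin 2)
  obtain ⟨hA1, hp1, hx1⟩ := hl.1 (1 : Fin 2)
  have h0 : N 0 (l (1 : Fin 2)) ≤ N b (l (1 : Fin 2)) :=
    hN.mono_left 0 b _ (zero_mem A) (IsStarProjection.zero _) hbA hb hA1 hp1 (zero_mul b)
  have hsum : l (0 : Fin 2) * l (1 : Fin 2) = 0 := hl.2 _ _ (show (0 : Fin 2) ≠ 1 by decide)
  have h2 := hN.add_right b hbA hb ![l (0 : Fin 2), l (1 : Fin 2)]
    (fun i => by fin_cases i; exacts [⟨hA0, hp0⟩, ⟨hA1, hp1⟩])
    (fun i k hik => by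
      fin_cases i <;> fin_cases k <;> first
        | exact absurd rfl hik
        | exact hsum
        | exact (hA.comm hA1 hA0).trans hsum) Finset.univ
  simp only [Fin.sum_univ_two, Matrix.cons_val_zero, Matrix.cons_val_one] at h2
  have h3 := RectFun.mono_right hA hN (x := x) (e := b) (l := l (0 : Fin 2) + l (1 : Fin 2))
    hbA hb hxA hx (add_mem hA0 hA1) (hp0.add hp1 hsum) (by rw [mul_add, hx0, hx1])
  rw [e]
  linarith

/-- A near-optimal labelling of a fine partition splits the value. -/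
lemma exists_rVal_split (hbA : b ∈ A) (hb : IsStarProjection b) (hxA : x ∈ A)
    (hx : IsStarProjection x) {e : H →L[ℂ] H} (heA : e ∈ A) (he : IsStarProjection e) {ε : ℝ}
    (hε : 0 < ε) : ∃ x', x' ∈ A ∧ IsStarProjection x' ∧ x * x' = x' ∧
      rVal A N b x - ε ≤ rVal A N (b * e) x' + rVal A N (b * (1 - e)) (x - x') := by
  classical
  have h1eA := sub_mem (one_mem A) heA
  have hbeA := mul_mem hbA heA
  have hbfA := mul_mem hbA h1eA
  have hbe := hA.mul_proj hb he hbA heA
  have hbf := hA.mul_proj hb he.one_sub hbA h1eA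
  have hnear : ∀ b', ∃ Q, rScore N b' x Q < rVal A N b' x + ε / 3 := fun b' =>
    exists_lt_of_ciInf_lt (by linarith : rVal A N b' x < rVal A N b' x + ε / 3)
  obtain ⟨Q1, hQ1⟩ := hnear (b * e)
  obtain ⟨Q2, hQ2⟩ := hnear (b * (1 - e))
  obtain ⟨R, hR1, hR2⟩ := hA.exists_join Q1 Q2
  obtain ⟨Q, hQR, hQe⟩ := hA.exists_join R (twoPart heA he)
  obtain ⟨_, ⟨l, hl, rfl⟩, hlv⟩ := exists_lt_of_lt_csSup
    (Set.Nonempty.image (rLabVal N b Q) ⟨_, zero_mem_Lab Q x⟩)
    (show rScore N b x Q - ε / 3 < rScore N b x Q by linarith)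
  set S := Finset.univ.filter (fun j => e * Q.e j = Q.e j) with hS
  set x' := ∑ j ∈ S, l j with hx'def
  have hx'A : x' ∈ A := sum_mem (fun j _ => (hl.1 j).1)
  have hx' : IsStarProjection x' := sum_isStarProjection _ l (fun j => (hl.1 j).2.1) hl.2
  have hle : x * x' = x' := by
    rw [hx'def, Finset.mul_sum]; exact Finset.sum_congr rfl (fun j _ => (hl.1 j).2.2)
  refine ⟨x', hx'A, hx', hle, ?_⟩
  have hcell : ∀ j, j ∉ S → e * Q.e j = 0 := by
    intro j hj
    obtain ⟨i, hi⟩ := hQe j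
    fin_cases i
    · exact absurd (Finset.mem_filter.2 ⟨Finset.mem_univ j, by simpa [twoPart] using hi⟩) hj
    · have : (1 - e) * Q.e j = Q.e j := by simpa [twoPart] using hi
      rwa [sub_mul, one_mul, sub_eq_self] at this
  let lp : Fin Q.n → (H →L[ℂ] H) := fun j => if j ∈ S then l j else 0
  let lm : Fin Q.n → (H →L[ℂ] H) := fun j => if j ∈ S then 0 else l j
  have hx'l : ∀ j, x' * l j = if j ∈ S then l j else 0 := fun j => by
    rw [hx'def, Finset.sum_mul]
    split_ifs with hj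
    · rw [Finset.sum_eq_single_of_mem j hj (fun k _ hk => hl.2 k j hk)]
      exact (hl.1 j).2.1.isIdempotentElem
    · exact Finset.sum_eq_zero (fun k hk => hl.2 k j (fun e => hj (e ▸ hk)))
  have hlp : lp ∈ Lab Q x' := by
    refine ⟨fun j => ?_, fun i j hij => ?_⟩
    · by_cases hj : j ∈ S
      · simp [lp, hj, hl.1 j, hx'l j]
      · simp [lp, hj]
    · by_cases hi : i ∈ S <;> by_cases hj : j ∈ S <;> simp [lp, hi, hj, hl.2 i j hij]
  have hlm : lm ∈ Lab Q (x - x') := by
    refine ⟨fun j => ?_, fun i j hij => ?_⟩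
    · by_cases hj : j ∈ S
      · simp [lm, hj]
      · simp [lm, hj, hl.1 j, sub_mul, hx'l j]
    · by_cases hi : i ∈ S <;> by_cases hj : j ∈ S <;> simp [lm, hi, hj, hl.2 i j hij]
  have hsum : rLabVal N b Q l = rLabVal N (b * e) Q lp + rLabVal N (b * (1 - e)) Q lm := by
    unfold rLabVal
    rw [← Finset.sum_add_distrib]
    refine Finset.sum_congr rfl (fun j _ => ?_)
    by_cases hj : j ∈ S
    · have e1 : e * Q.e j = Q.e j := (Finset.mem_filter.1 hj).2
      simp [lp, lm, hj, mul_assoc b e, e1, hN.zero_right]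
    · simp [lp, lm, hj, mul_assoc b (1 - e), sub_mul, hcell j hj, hN.zero_right]
  have key : ∀ (b' x₁ : H →L[ℂ] H) (Q0 : Part A) (l₁ : Fin Q.n → (H →L[ℂ] H)),
      b' ∈ A → IsStarProjection b' → x₁ ∈ A → IsStarProjection x₁ → x * x₁ = x₁ →
      Q0 ≤ Q → rScore N b' x Q0 < rVal A N b' x + ε / 3 → l₁ ∈ Lab Q x₁ →
      rLabVal N b' Q l₁ - ε / 3 ≤ rVal A N b' x₁ := by
    intro b' x₁ Q0 l₁ hb'A hb' hx₁A hx₁ hx₁le hQ0 hopt hl₁
    refine le_ciInf (fun Q' => ?_)
    obtain ⟨Q'', hQ', hQQ⟩ := hA.exists_join Q' Q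
    have a1 := rScore_add_le hA hN hb'A hb' hxA hx hx₁A hx₁ hx₁le Q''
    have a2 := add_rScore_le hA hN hb'A hb' hxA hx hx₁A hx₁ hx₁le Q
    have a3 := rScore_antitone hA hN hb'A hb' (x := x - x₁) hQQ
    have a4 := rVal_le_score hA hN hb'A hb' (x := x) Q''
    have a5 := rScore_antitone hA hN hb'A hb' (x := x) hQ0
    have a6 := rScore_antitone hA hN hb'A hb' (x := x₁) hQ'
    have a7 := rLabVal_le_score hA hN hb'A hb' hl₁
    linarith
  have hd : IsStarProjection (x - x') :=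
    hx'.sub_of_mul_eq_left hx ((hA.comm hx'A hxA).trans hle)
  have k1 := key (b * e) x' Q1 lp hbeA hbe hx'A hx' hle (hR1.trans hQR) hQ1 hlp
  have k2 := key (b * (1 - e)) (x - x') Q2 lm hbfA hbf (sub_mem hxA hx'A) hd
    (by rw [mul_sub, hx.isIdempotentElem.eq, hle]) (hR2.trans hQR) hQ2 hlm
  have k3 := rVal_le_score hA hN hbA hb (x := x) Q
  linarith

/-- The total value of a state. -/
noncomputable def rStVal (_hA : IsMASAIn M A) (_hN : RectFun A N) (L : Blocks A) : ℝ :=
  ∑ i, rVal A N (L.e i) (L.x i)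

omit hN in
lemma rStVal_eq (hN : RectFun A N) (L : Blocks A) :
    rStVal hA hN L = ∑ i, rVal A N (L.e i) (L.x i) := rfl

/-- Refine a state by a projection. -/
theorem exists_rExt (L : Blocks A) {e : H →L[ℂ] H} (heA : e ∈ A) (he : IsStarProjection e)
    {ε : ℝ} (hε : 0 < ε) :
    ∃ (L' : Blocks A) (x : H →L[ℂ] H), x ∈ A ∧ IsStarProjection x ∧
      rStVal hA hN L - ε ≤ rStVal hA hN L' ∧ (∀ a, L'.op (L.op a) = L'.op a) ∧
      ∀ a, e * L'.op a = L'.op a * x := by
  classical
  set K : ℝ := (Fintype.card L.ι : ℝ) + 1 with hK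
  have hK0 : 0 < ε / K := by positivity
  choose xp hxpA hxp hxple hxpv using fun i =>
    exists_rVal_split hA hN (L.e_mem i) (L.e_proj i) (L.x_mem i) (L.x_proj i) heA he hK0
  have hxp_r : ∀ i, xp i * L.x i = xp i := fun i => (hA.comm (hxpA i) (L.x_mem i)).trans (hxple i)
  have h1eA := sub_mem (one_mem A) heA
  have he0 : e * (1 - e) = 0 := by rw [mul_sub, mul_one, he.isIdempotentElem.eq, sub_self]
  have hxd : ∀ i, xp i * (L.x i - xp i) = 0 := fun i => by
    rw [mul_sub, hxp_r, (hxp i).isIdempotentElem.eq, sub_self]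
  let ee : L.ι × Bool → (H →L[ℂ] H) := fun k => L.e k.1 * cond k.2 e (1 - e)
  let xx : L.ι × Bool → (H →L[ℂ] H) := fun k => cond k.2 (xp k.1) (L.x k.1 - xp k.1)
  have hxxA : ∀ k, xx k ∈ A := fun k => by
    obtain ⟨i, b⟩ := k; cases b
    exacts [sub_mem (L.x_mem i) (hxpA i), hxpA i]
  have hxxp : ∀ k, IsStarProjection (xx k) := fun k => by
    obtain ⟨i, b⟩ := k; cases b
    exacts [(hxp i).sub_of_mul_eq_left (L.x_proj i) (hxp_r i), hxp i]
  have hxxl : ∀ k, xx k * L.x k.1 = xx k ∧ L.x k.1 * xx k = xx k := fun k => by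
    have h1 : xx k * L.x k.1 = xx k := by
      obtain ⟨i, b⟩ := k; cases b
      · change (L.x i - xp i) * L.x i = L.x i - xp i
        rw [sub_mul, (L.x_proj i).isIdempotentElem.eq, hxp_r]
      · exact hxp_r i
    exact ⟨h1, (hA.comm (L.x_mem k.1) (hxxA k)).trans h1⟩
  have hxxo : ∀ k l, k ≠ l → xx k * xx l = 0 := by
    intro k l hkl
    by_cases h1 : k.1 = l.1
    · obtain ⟨i, b⟩ := k; obtain ⟨j, c⟩ := l
      simp only at h1; subst h1
      cases b <;> cases c
      · exact absurd rfl hkl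
      · exact (hA.comm (sub_mem (L.x_mem i) (hxpA i)) (hxpA i)).trans (hxd i)
      · exact hxd i
      · exact absurd rfl hkl
    · rw [← (hxxl k).1, ← (hxxl l).2, mul_assoc, ← mul_assoc (L.x k.1), L.x_orth _ _ h1,
        zero_mul, mul_zero]
  have heeA : ∀ k, ee k ∈ A := fun k => by
    obtain ⟨i, b⟩ := k; cases b
    exacts [mul_mem (L.e_mem i) h1eA, mul_mem (L.e_mem i) heA]
  have heep : ∀ k, IsStarProjection (ee k) := fun k => by
    obtain ⟨i, b⟩ := k; cases b
    exacts [hA.mul_proj (L.e_proj i) he.one_sub (L.e_mem i) h1eA,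
      hA.mul_proj (L.e_proj i) he (L.e_mem i) heA]
  have heel : ∀ k i, ee k * L.e i = if k.1 = i then ee k else 0 := fun k i => by
    obtain ⟨j, b⟩ := k
    have hc : cond b e (1 - e) ∈ A := by cases b; exacts [h1eA, heA]
    change L.e j * cond b e (1 - e) * L.e i = _
    rw [mul_assoc, hA.comm hc (L.e_mem i), ← mul_assoc]
    split_ifs with hji
    · subst hji; rw [(L.e_proj j).isIdempotentElem.eq]
    · rw [L.e_orth j i hji, zero_mul]
  have heeo : ∀ k l, k ≠ l → ee k * ee l = 0 := by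
    intro k l hkl
    change ee k * (L.e l.1 * cond l.2 e (1 - e)) = 0
    rw [← mul_assoc, heel]
    split_ifs with h1
    · obtain ⟨i, b⟩ := k; obtain ⟨j, c⟩ := l
      simp only at h1; subst h1
      change L.e i * cond b e (1 - e) * cond c e (1 - e) = 0
      rw [mul_assoc]
      cases b <;> cases c
      · exact absurd rfl hkl
      · simp [hA.comm h1eA heA, he0]
      · simp [he0]
      · exact absurd rfl hkl
    · rw [zero_mul]
  refine ⟨⟨L.ι × Bool, inferInstance, ee, xx, heeA, hxxA, heep, hxxp, heeo, hxxo⟩,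
    ∑ i, xp i, sum_mem (fun i _ => hxpA i), ?_, ?_, ?_, ?_⟩
  · exact sum_isStarProjection _ xp hxp (fun i j hij =>
      hxxo (i, true) (j, true) (fun e => hij (congrArg Prod.fst e)))
  · change _ ≤ ∑ k : L.ι × Bool, rVal A N (ee k) (xx k)
    rw [Fintype.sum_prod_type]
    simp only [Fintype.sum_bool]
    calc rStVal hA hN L - ε ≤ ∑ i, (rVal A N (L.e i) (L.x i) - ε / K) := by
          rw [Finset.sum_sub_distrib, Finset.sum_const, nsmul_eq_mul, Finset.card_univ]
          have : (Fintype.card L.ι : ℝ) * (ε / K) ≤ ε := by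
            rw [mul_div_assoc', div_le_iff₀ (by positivity)]
            nlinarith [hK]
          unfold rStVal
          linarith
      _ ≤ _ := Finset.sum_le_sum (fun i _ => hxpv i)
  · intro a
    change ∑ k, ee k * (L.op a) * xx k = ∑ k, ee k * a * xx k
    refine Finset.sum_congr rfl (fun k _ => ?_)
    simp only [Blocks.op, Finset.mul_sum, Finset.sum_mul]
    rw [Finset.sum_eq_single k.1]
    · rw [← mul_assoc (ee k), ← mul_assoc (ee k), heel, if_pos rfl, mul_assoc _ (L.x k.1),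
        (hxxl k).2]
    · intro i _ hi
      rw [← mul_assoc (ee k), ← mul_assoc (ee k), heel, if_neg (Ne.symm hi)]
      simp
    · simp
  · intro a
    change e * ∑ k, ee k * a * xx k = (∑ k, ee k * a * xx k) * ∑ i, xp i
    rw [Finset.mul_sum, Finset.sum_mul]
    refine Finset.sum_congr rfl (fun k _ => ?_)
    obtain ⟨i, b⟩ := k
    rw [mul_assoc (ee (i, b) * a), Finset.mul_sum, ← mul_assoc, ← mul_assoc,
      hA.comm heA (heeA (i, b))]
    cases b
    · rw [show ee (i, false) * e = 0 by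
          change L.e i * (1 - e) * e = 0
          rw [mul_assoc, hA.comm h1eA heA, he0, mul_zero],
        zero_mul, zero_mul,
        show ∑ j, xx (i, false) * xp j = 0 from
          Finset.sum_eq_zero (fun j _ => hxxo (i, false) (j, true) (by simp)), mul_zero]
    · rw [show ee (i, true) * e = ee (i, true) by
          change L.e i * e * e = L.e i * e
          rw [mul_assoc, he.isIdempotentElem.eq],
        show ∑ j, xx (i, true) * xp j = xx (i, true) from (Finset.sum_eq_single i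
          (fun j _ hj => hxxo (i, true) (j, true) (fun e => hj (congrArg Prod.fst e).symm))
          (by simp)).trans (hxp i).isIdempotentElem.eq]

end Vale.Agent.P078.TypeIII
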