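import Vale.Agent.P078.Mss2.PointedBound
import Vale.Agent.P078.Mss2.Locality

/-!
# Locality of the residues at a vertex

The residue moments `∑ i, k i * b i ^ j` of the factorisation
`P = Q(w) (y + w) - ∑ k i ∏_{l ≠ i} (w - b l)` of `exists_pointFactor` are recovered from the
pointed moments of the kernels `x d - diag (y d)` with the colour at `u` fixed, and these moments
only see the ball of the same radius around `u`.
-/

namespace Vale.Agent.P078.TypeIII

open Vale.Agent.P078.Mss (minorMat rootProd)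
open Vale.Agent.P078.Mss2

open Finset Matrix

variable {V : Type*} [DecidableEq V] {r : ℕ}

/-- The kernels with the levels moved to the diagonal. -/
def levelKer (x : Fin r → Matrix V V ℂ) (y : Fin r → V → ℝ) : Fin r → Matrix V V ℂ :=
  fun d => x d - Matrix.diagonal (fun v => (y d v : ℂ))

/-- The law with the colour at `u` fixed to `c`. -/
noncomputable def fixAt (p : V → Fin r → ℝ) (u : V) (c : Fin r) : V → Fin r → ℝ :=
  Function.update p u (fun d => if d = c then 1 else 0)

lemma fixAt_sum {p : V → Fin r → ℝ} (hp1 : ∀ v, ∑ d, p v d = 1) (u : V) (c : Fin r) (v : V) :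
    ∑ d, fixAt p u c v d = 1 := by
  rcases eq_or_ne v u with rfl | hv
  · simp [fixAt]
  · rw [fixAt, Function.update_of_ne hv]; exact hp1 v

section series

open Polynomial in
/-- Power series inverse of the reversed factorisation. -/
lemma series_residues {n : ℕ} (b k : Fin n → ℂ) (y : ℂ) (h A B : ℕ → ℂ)
    (hconv : ∀ j, ∑ i ∈ range (j + 1), h i * A (j - i) = B j)
    (hA : (PowerSeries.mk A) = (((∏ i, (1 - Polynomial.C (b i) * Polynomial.X))
      * (1 + Polynomial.C y * Polynomial.X)
      - Polynomial.X ^ 2 * ∑ i, Polynomial.C (k i)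
        * ∏ l ∈ univ.erase i, (1 - Polynomial.C (b l) * Polynomial.X) : ℂ[X]) : PowerSeries ℂ))
    (hB : (PowerSeries.mk B)
      = ((∏ i, (1 - Polynomial.C (b i) * Polynomial.X) : ℂ[X]) : PowerSeries ℂ)) :
    h 0 = 1 ∧ h 1 = -y ∧ ∀ j, ∑ i ∈ range (j + 1), (∑ l, k l * b l ^ i) * h (j - i)
      = h (j + 2) + y * h (j + 1) := by
  set G := PowerSeries.mk (fun i => ∑ l, k l * b l ^ i) with hG
  set Q : PowerSeries ℂ := ↑(∏ i, (1 - Polynomial.C (b i) * Polynomial.X) : ℂ[X]) with hQ
  have hgeo : ∀ l, PowerSeries.mk (fun i => b l ^ i)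
      * (1 - PowerSeries.C (b l) * PowerSeries.X) = 1 := by
    intro l
    refine PowerSeries.ext (fun j => ?_)
    rw [mul_sub, mul_one, map_sub, ← mul_assoc, mul_comm (PowerSeries.mk _) (PowerSeries.C _),
      mul_assoc, PowerSeries.coeff_C_mul]
    cases j with
    | zero => simp
    | succ j => simp [PowerSeries.coeff_succ_mul_X, pow_succ']
  have hGQ : ↑(∑ i, Polynomial.C (k i)
      * ∏ l ∈ univ.erase i, (1 - Polynomial.C (b l) * Polynomial.X) : ℂ[X]) = Q * G := by
    have e : G = ∑ l, PowerSeries.C (k l) * PowerSeries.mk (fun i => b l ^ i) :=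
      PowerSeries.ext (fun j => by simp [G, map_sum, PowerSeries.coeff_C_mul])
    rw [e, mul_sum, ← Polynomial.coeToPowerSeries.ringHom_apply, map_sum]
    refine sum_congr rfl (fun i _ => ?_)
    rw [hQ, ← mul_prod_erase univ (fun l => 1 - Polynomial.C (b l) * Polynomial.X) (mem_univ i)]
    simp only [map_mul, Polynomial.coeToPowerSeries.ringHom_apply, Polynomial.coe_sub,
      Polynomial.coe_one, Polynomial.coe_mul, Polynomial.coe_C, Polynomial.coe_X]
    linear_combination (-(PowerSeries.C (k i) * ↑(∏ l ∈ univ.erase i,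
      (1 - Polynomial.C (b l) * Polynomial.X) : ℂ[X]))) * hgeo i
  have hA' : PowerSeries.mk A
      = Q * (1 + PowerSeries.C y * PowerSeries.X - PowerSeries.X ^ 2 * G) := by
    rw [hA]
    simp only [Polynomial.coe_sub, Polynomial.coe_mul, Polynomial.coe_add, Polynomial.coe_one,
      Polynomial.coe_C, Polynomial.coe_X, Polynomial.coe_pow, hGQ, ← hQ]
    ring
  have hQ0 : Q ≠ 0 := by
    intro e
    have h0 := congrArg PowerSeries.constantCoeff e
    rw [hQ, ← Polynomial.coeToPowerSeries.ringHom_apply, map_prod, map_prod, map_zero] at h0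
    simp [Polynomial.coeToPowerSeries.ringHom_apply] at h0
  have hmul : PowerSeries.mk h * PowerSeries.mk A = PowerSeries.mk B := by
    refine PowerSeries.ext (fun j => ?_)
    rw [PowerSeries.coeff_mul, Finset.Nat.sum_antidiagonal_eq_sum_range_succ
      (fun a c => PowerSeries.coeff a (PowerSeries.mk h) * PowerSeries.coeff c (PowerSeries.mk A))]
    simp [hconv]
  have key : PowerSeries.mk h * (1 + PowerSeries.C y * PowerSeries.X - PowerSeries.X ^ 2 * G)
      = 1 := by
    refine mul_left_cancel₀ hQ0 ?_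
    have e := hmul
    rw [hA', hB] at e
    linear_combination e
  rw [show PowerSeries.mk h * (1 + PowerSeries.C y * PowerSeries.X - PowerSeries.X ^ 2 * G)
    = PowerSeries.mk h + PowerSeries.X * (PowerSeries.C y * PowerSeries.mk h)
      - PowerSeries.X * (PowerSeries.X * (G * PowerSeries.mk h)) by ring] at key
  have k0 := congrArg (PowerSeries.coeff 0) key
  have k1 := congrArg (PowerSeries.coeff 1) key
  simp at k0
  rw [map_sub, map_add, PowerSeries.coeff_succ_X_mul, PowerSeries.coeff_succ_X_mul,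
    PowerSeries.coeff_C_mul, PowerSeries.coeff_zero_X_mul] at k1
  simp [k0] at k1
  refine ⟨k0, eq_neg_of_add_eq_zero_left k1, fun j => ?_⟩
  have kj := congrArg (PowerSeries.coeff (j + 2)) key
  rw [map_sub, map_add, PowerSeries.coeff_succ_X_mul, PowerSeries.coeff_succ_X_mul,
    PowerSeries.coeff_succ_X_mul, PowerSeries.coeff_C_mul, PowerSeries.coeff_mul,
    Finset.Nat.sum_antidiagonal_eq_sum_range_succ
      (fun a c => PowerSeries.coeff a G * PowerSeries.coeff c (PowerSeries.mk h))] at kj
  simp [G] at kj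
  linear_combination -kj

/-- The recursion determines the residue moments. -/
lemma residues_unique {y : ℂ} {M M' h h' : ℕ → ℂ} {N : ℕ} (h0 : h 0 = 1)
    (hM : ∀ j, ∑ i ∈ range (j + 1), M i * h (j - i) = h (j + 2) + y * h (j + 1))
    (hM' : ∀ j, ∑ i ∈ range (j + 1), M' i * h' (j - i) = h' (j + 2) + y * h' (j + 1))
    (hh : ∀ j ≤ N + 2, h j = h' j) : ∀ j ≤ N, M j = M' j := by
  intro j
  induction j using Nat.strong_induction_on with
  | h j ih =>
    intro hj
    have e : h (j + 2) + y * h (j + 1) = h' (j + 2) + y * h' (j + 1) := by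
      rw [hh _ (by omega), hh _ (by omega)]
    rw [← hM, ← hM', sum_range_succ, sum_range_succ, Nat.sub_self, ← hh 0 (by omega), h0,
      mul_one, mul_one] at e
    have e2 : ∑ i ∈ range j, M i * h (j - i) = ∑ i ∈ range j, M' i * h' (j - i) :=
      sum_congr rfl (fun i hi => by
        rw [ih i (mem_range.1 hi) (by have := mem_range.1 hi; omega), hh _ (by omega)])
    rw [e2] at e
    exact add_left_cancel e

end series

section window

variable [Fintype V]

lemma mix_levelKer (x : Fin r → Matrix V V ℂ) (p : V → Fin r → ℝ) (y : Fin r → V → ℝ) (w : ℂ)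
    (U : Finset V) (D : Fin r → Finset V) :
    mix x p (fun d v => (y d v : ℂ) + w) U D = mix (levelKer x y) p (fun _ _ => w) U D := by
  refine sum_congr rfl (fun f _ => congrArg _ (prod_congr rfl (fun d _ => ?_)))
  refine congrArg Matrix.det (Matrix.ext (fun i j => ?_))
  simp only [minorMat, Matrix.of_apply, levelKer, Matrix.sub_apply, Matrix.diagonal_apply]
  split_ifs <;> ring

lemma card_lt_atot {x : Fin r → Matrix V V ℂ} {p : V → Fin r → ℝ} {U : Finset V} {i : ℕ}
    (hi : U.card < i) : atot x p U i = 0 :=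
  sum_eq_zero (fun S hS => by
    rw [acoef, if_neg]
    have := card_le_card (mem_powerset.1 hS)
    omega)

open Polynomial in
/-- Reversal of a polynomial with coefficient list `A`. -/
lemma mk_eq_reverse {N : ℕ} {P R : ℂ[X]} {A : ℕ → ℂ} (hdeg : P.natDegree ≤ N)
    (hA : ∀ j ≤ N, P.coeff (N - j) = A j) (hA0 : ∀ j, N < j → A j = 0)
    (hR : ∀ s : ℂ, s ≠ 0 → R.eval s = s ^ N * P.eval s⁻¹) : PowerSeries.mk A = ↑R := by
  set AP : ℂ[X] := ∑ j ∈ range (N + 1), Polynomial.C (A j) * Polynomial.X ^ j with hAP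
  have e : AP = R := by
    refine Polynomial.eq_of_infinite_eval_eq _ _
      (Set.Infinite.mono (s := ({0}ᶜ : Set ℂ)) ?_ (Set.finite_singleton 0).infinite_compl)
    intro s hs
    have hs0 : s ≠ 0 := hs
    simp only [Set.mem_ofPred_eq]
    rw [hR s hs0, eval_eq_sum_range' (Nat.lt_succ_of_le hdeg), hAP, eval_finsetSum, mul_sum,
      ← sum_range_reflect]
    refine sum_congr rfl (fun j hj => ?_)
    have hj' : j ≤ N := Nat.le_of_lt_succ (mem_range.1 hj)
    rw [eval_mul, eval_C, eval_pow, eval_X, show N + 1 - 1 - j = N - j by omega,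
      ← hA (N - j) (by omega), Nat.sub_sub_self hj', inv_pow, pow_sub₀ _ hs0 hj']
    ring
  rw [← e]
  refine PowerSeries.ext (fun j => ?_)
  rw [PowerSeries.coeff_mk, Polynomial.coeff_coe, hAP, finsetSum_coeff]
  simp only [coeff_C_mul_X_pow, sum_ite_eq, mem_range]
  split_ifs with hj
  · rfl
  · exact hA0 j (by omega)

variable {x : Fin r → Matrix V V ℂ} {p : V → Fin r → ℝ} {y : Fin r → V → ℝ} {u : V} {c : Fin r}

open Polynomial in
/-- **Residue moments from pointed moments.** -/
theorem residue_rec (hp1 : ∀ v, ∑ d, p v d = 1) {n : ℕ} (hN : Fintype.card V = n + 1)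
    {b k : Fin n → ℝ}
    (hb : ∀ w : ℂ, mix x p (fun d v => (y d v : ℂ) + w) (univ.erase u) (fun _ => ∅) = rootProd b w)
    (hk : ∀ w : ℂ, mix x p (fun d v => (y d v : ℂ) + w) (univ.erase u) (adj (fun _ => ∅) c u)
      = rootProd b w * ((y c u : ℂ) + w) - ∑ i, (k i : ℂ) * ∏ j ∈ univ.erase i, (w - b j)) :
    let h := moment (levelKer x y) (fixAt p u c) u
    h 0 = 1 ∧ h 1 = -(y c u : ℂ) ∧
      ∀ j, ∑ i ∈ range (j + 1), (((∑ l, k l * b l ^ i : ℝ)) : ℂ) * h (j - i)
        = h (j + 2) + (y c u : ℂ) * h (j + 1) := by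
  intro h
  set X' := levelKer x y with hX
  set p' := fixAt p u c with hp'
  have hq1 : ∀ v, ∑ d, p' v d = 1 := fixAt_sum hp1 u c
  have hagree : ∀ v ∈ (univ : Finset V).erase u, p v = p' v := fun v hv => by
    simp [p', fixAt, Function.update_of_ne (mem_erase.1 hv).1]
  have eB : ∀ w : ℂ, (muErase X' p' u).eval w = rootProd b w := fun w => by
    rw [eval_muErase hq1, ← mix_p_congr hp1 hq1 hagree, ← mix_levelKer, hb]
  have eA : ∀ w : ℂ, (muPoly X' p').eval w = rootProd b w * ((y c u : ℂ) + w)
      - ∑ i, (k i : ℂ) * ∏ j ∈ univ.erase i, (w - b j) := fun w => by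
    rw [eval_muPoly, ← insert_erase (mem_univ u), mix_insert hq1 (notMem_erase u univ)]
    have : ∀ d, (p' u d : ℂ) = if d = c then 1 else 0 := fun d => by
      simp only [p', fixAt, Function.update_self]; split_ifs <;> simp
    simp only [this, ite_mul, one_mul, zero_mul, sum_ite_eq', mem_univ, if_true]
    rw [← mix_p_congr hp1 hq1 hagree, ← mix_levelKer]
    exact hk w
  have hfac : ∀ (T : Finset (Fin n)) (s : ℂ), s ≠ 0 →
      ∏ j ∈ T, (1 - (b j : ℂ) * s) = s ^ T.card * ∏ j ∈ T, (s⁻¹ - (b j : ℂ)) := fun T s hs => by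
    rw [← prod_const, ← prod_mul_distrib]
    exact prod_congr rfl (fun j _ => by field_simp)
  have hdegB : (muErase X' p' u).natDegree ≤ n :=
    natDegree_sum_le_of_forall_le _ _ (fun R _ =>
      (natDegree_C_mul_X_pow_le _ _).trans (by omega))
  have hcE : (univ.erase u : Finset V).card = n := by simp [hN]
  have sB : PowerSeries.mk (atot X' p' (univ.erase u))
      = ((∏ i, (1 - Polynomial.C (b i : ℂ) * Polynomial.X) : ℂ[X]) : PowerSeries ℂ) := by
    refine mk_eq_reverse hdegB (fun j hj => by rw [← coeff_muErase hq1 (by omega : j < Fintype.card V), hN, Nat.add_sub_cancel])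
      (fun j hj => card_lt_atot (hcE ▸ hj)) (fun s hs => ?_)
    rw [eB, eval_prod]
    simp only [eval_sub, eval_one, eval_mul, eval_C, eval_X]
    rw [hfac univ s hs, rootProd]
    simp
  have sA : PowerSeries.mk (atot X' p' univ)
      = (((∏ i, (1 - Polynomial.C (b i : ℂ) * Polynomial.X))
        * (1 + Polynomial.C (y c u : ℂ) * Polynomial.X)
        - Polynomial.X ^ 2 * ∑ i, Polynomial.C (k i : ℂ)
          * ∏ l ∈ univ.erase i, (1 - Polynomial.C (b l : ℂ) * Polynomial.X) : ℂ[X]) : PowerSeries ℂ) := by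
    refine mk_eq_reverse (N := n + 1) (hN ▸ natDegree_muPoly)
      (fun j hj => by rw [← hN]; exact coeff_muPoly hq1 (hN.symm ▸ hj))
      (fun j hj => card_lt_atot (by simpa [hN] using hj)) (fun s hs => ?_)
    rw [eA]
    simp only [eval_sub, eval_mul, eval_add, eval_one, eval_pow, eval_C, eval_X, eval_prod,
      eval_finsetSum]
    rw [hfac univ s hs, mul_sub, mul_sum, mul_sum, rootProd]
    simp only [card_univ, Fintype.card_fin]
    congr 1
    · field_simp
      ring
    · refine sum_congr rfl (fun i _ => ?_)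
      rw [hfac _ s hs, card_erase_of_mem (mem_univ i), card_univ, Fintype.card_fin]
      have hn0 : 0 < n := i.pos
      rw [show n + 1 = 2 + (n - 1) by omega, pow_add]
      ring
  obtain ⟨h0, h1, h2⟩ := series_residues (fun i => (b i : ℂ)) (fun i => (k i : ℂ)) (y c u : ℂ)
    h _ _ (fun j => moment_identity hq1 j) sA sB
  refine ⟨h0, h1, fun j => ?_⟩
  rw [← h2 j]
  simp

end window

/-- Pointed moments of a window only see the part of the ball inside the window. -/
theorem moment_window {nb : V → Finset V} {x : Fin r → Matrix V V ℂ} {p : V → Fin r → ℝ}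
    (hp1 : ∀ v, ∑ d, p v d = 1) (hb : Banded x nb) (F : Finset V) {u : V} (hu : u ∈ F) (k : ℕ) :
    moment (Mss2.sub x Subtype.val) (fun i : {v // v ∈ F} => p i.1) ⟨u, hu⟩ k
      = ∑ T ∈ (F ∩ nball nb k u).powerset, pkap x p u k T := by
  classical
  let ι : {v // v ∈ F} ↪ V := Function.Embedding.subtype _
  have e : moment (Mss2.sub x Subtype.val) (fun i : {v // v ∈ F} => p i.1) ⟨u, hu⟩ k
      = ∑ S : Finset {v // v ∈ F}, pkap x p u k (S.map ι) := by
    refine sum_congr rfl (fun S _ => ?_)
    exact (pkap_map hp1 ι ⟨u, hu⟩ k S).symm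
  have e2 : ∑ S : Finset {v // v ∈ F}, pkap x p u k (S.map ι)
      = ∑ T ∈ F.powerset, pkap x p u k T := by
    refine sum_nbij' (fun S => S.map ι) (fun T => T.subtype _) ?_ ?_ ?_ ?_ (fun S _ => rfl)
    · intro S _
      simp only [mem_coe, mem_powerset]
      intro v hv
      obtain ⟨a, -, rfl⟩ := mem_map.1 hv
      exact a.2
    · intro T _; simp
    · intro S _
      ext a
      simp [ι]
    · intro T hT
      simp only [mem_coe, mem_powerset] at hT
      ext v
      simp [ι]
      exact fun hv => hT hv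
  rw [e, e2]
  symm
  refine sum_subset (powerset_mono.2 inter_subset_left) (fun T hT hT' => ?_)
  by_contra hne
  exact hT' (mem_powerset.2 (subset_inter (mem_powerset.1 hT) (pkap_support hp1 hb hne).2))

/-- Windows with the same part of the ball, kernels and laws agreeing there: same moments. -/
theorem moment_window_congr {nb : V → Finset V} {x x' : Fin r → Matrix V V ℂ}
    {p p' : V → Fin r → ℝ} (hp1 : ∀ v, ∑ d, p v d = 1) (hp1' : ∀ v, ∑ d, p' v d = 1)
    (hb : Banded x nb) (hb' : Banded x' nb) {F F' : Finset V} {u : V} (hu : u ∈ F) (hu' : u ∈ F')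
    {k : ℕ} (hF : F ∩ nball nb k u = F' ∩ nball nb k u)
    (hx : ∀ d, ∀ i ∈ F ∩ nball nb k u, ∀ j ∈ F ∩ nball nb k u, x d i j = x' d i j)
    (hp : ∀ v ∈ F ∩ nball nb k u, p v = p' v) :
    moment (Mss2.sub x Subtype.val) (fun i : {v // v ∈ F} => p i.1) ⟨u, hu⟩ k
      = moment (Mss2.sub x' Subtype.val) (fun i : {v // v ∈ F'} => p' i.1) ⟨u, hu'⟩ k := by
  rw [moment_window hp1 hb F hu, moment_window hp1' hb' F' hu', ← hF]
  refine sum_congr rfl (fun T hT => ?_)
  exact pkap_congr (fun d i hi j hj => hx d i (mem_powerset.1 hT hi) j (mem_powerset.1 hT hj))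
    (fun v hv => hp v (mem_powerset.1 hT hv)) k

end Vale.Agent.P078.TypeIII
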