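import Vale.Agent.P078.Mix.Order

/-!
# A MASA in the centraliser of a separating vector

The vector `Ω` is separating for `M` and the MASA `A` lies in the centraliser of its functional.
No trace is assumed: left norms `‖x Ω‖` are only stable under right multiplication by `A`.
-/

set_option linter.unusedSectionVars false

namespace Vale.Agent.P078.TypeIII

open ComplexInnerProductSpace
open Filter Topology
open Vale.Agent.P078 Vale.Agent.P078.General Vale.Agent.P078.Finite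
open scoped CStarAlgebra

universe u

variable {H : Type u} [NormedAddCommGroup H] [InnerProductSpace ℂ H] [CompleteSpace H]

/-- `A` is a MASA of `M` in the centraliser of the vector functional of the separating `Ω`. -/
structure CentSetting (M : VonNeumannAlgebra H) (A : StarSubalgebra ℂ (H →L[ℂ] H)) (Ω : H) :
    Prop where
  masa : IsMASAIn M A
  central : ∀ a ∈ A, ∀ x ∈ M, ⟪Ω, (a * x) Ω⟫ = ⟪Ω, (x * a) Ω⟫
  faithful : ∀ x ∈ M, x Ω = 0 → x = 0

variable {M : VonNeumannAlgebra H} {A : StarSubalgebra ℂ (H →L[ℂ] H)} {Ω : H}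

/-- The inner product of two orbit vectors as a single one. -/
lemma inner_apply (x y : H →L[ℂ] H) (ξ η : H) : ⟪x ξ, y η⟫ = ⟪ξ, (star x * y) η⟫ := by
  change _ = ⟪ξ, star x (y η)⟫
  rw [ContinuousLinearMap.star_eq_adjoint, ContinuousLinearMap.adjoint_inner_right]

lemma commutant_comm {R x : H →L[ℂ] H} (hR : R ∈ Set.centralizer (M : Set (H →L[ℂ] H)))
    (hx : x ∈ M) (ξ : H) : x (R ξ) = R (x ξ) :=
  (DFunLike.congr_fun (commute_of_mem_centralizer hx hR) ξ).symm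

variable (h : CentSetting M A Ω)
include h

/-- The vectors `R Ω`, `R` in the commutant, are dense. -/
lemma exists_commutant_near (ξ : H) {ρ : ℝ} (hρ : 0 < ρ) :
    ∃ R ∈ Set.centralizer (M : Set (H →L[ℂ] H)), ‖ξ - R Ω‖ < ρ := by
  obtain ⟨g, hg, hgM, hgv, hker, -⟩ := exists_cyclic_proj (M := M) Ω
  let V : Submodule ℂ H :=
    { carrier := {z | ∃ R ∈ Set.centralizer (M : Set (H →L[ℂ] H)), z = R Ω}
      add_mem' := by
        rintro _ _ ⟨R, hR, rfl⟩ ⟨R', hR', rfl⟩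
        exact ⟨R + R', Set.add_mem_centralizer hR hR', rfl⟩
      zero_mem' := ⟨0, fun m _ => by rw [mul_zero, zero_mul], rfl⟩
      smul_mem' := by
        rintro c _ ⟨R, hR, rfl⟩
        exact ⟨c • R, fun m hm => by rw [mul_smul_comm, smul_mul_assoc, hR m hm], rfl⟩ }
  have hV : V.topologicalClosure = ⊤ := by
    have : CompleteSpace V.topologicalClosure := Submodule.topologicalClosure.completeSpace _
    have hinv : ∀ m ∈ Set.centralizer (M : Set (H →L[ℂ] H)), ∀ k ∈ V.topologicalClosure,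
        m k ∈ V.topologicalClosure := by
      intro m hm k hk
      refine Submodule.topologicalClosure_minimal
        (t := Submodule.comap (m : H →ₗ[ℂ] H) V.topologicalClosure) _ ?_
        ((Submodule.isClosed_topologicalClosure _).preimage m.continuous) hk
      rintro _ ⟨R, hR, rfl⟩
      exact Submodule.le_topologicalClosure _ ⟨m * R, Set.mul_mem_centralizer hm hR, rfl⟩
    have hgM' : V.topologicalClosure.starProjection ∈ M := mem_vna_of_commute (fun m hm =>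
      starProjection_commute _ m (hinv m hm) (hinv _ (mem_commutant_star hm)))
    have hgΩ : V.topologicalClosure.starProjection Ω = Ω :=
      Submodule.starProjection_eq_self_iff.2
        (Submodule.le_topologicalClosure _ ⟨1, Set.one_mem_centralizer, rfl⟩)
    have h1 := h.faithful _ (sub_mem (one_mem M) hgM') (by simp [hgΩ])
    refine eq_top_iff.2 (fun u _ => ?_)
    have h2 : u - V.topologicalClosure.starProjection u = 0 := DFunLike.congr_fun h1 u
    rw [sub_eq_zero.1 h2]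
    exact V.topologicalClosure.starProjection_apply_mem u
  have hξ : ξ ∈ closure (V : Set H) := by
    rw [← Submodule.topologicalClosure_coe, hV]
    trivial
  obtain ⟨_, ⟨R, hR, rfl⟩, hd⟩ := Metric.mem_closure_iff.1 hξ ρ hρ
  exact ⟨R, hR, by rwa [dist_eq_norm] at hd⟩

/-- **Uniform strong smallness.** A bounded family which is small at `Ω` is small at every
vector. -/
lemma exists_eps_family (ξ : H) {C η : ℝ} (hC : 0 ≤ C) (hη : 0 < η) :
    ∃ ε, 0 < ε ∧ ∀ (ι : Type) (_ : Fintype ι) (T : ι → (H →L[ℂ] H)), (∀ i, T i ∈ M) →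
      (∀ v, ∑ i, ‖T i v‖ ^ 2 ≤ C ^ 2 * ‖v‖ ^ 2) → ∑ i, ‖T i Ω‖ ^ 2 ≤ ε →
        ∑ i, ‖T i ξ‖ ^ 2 ≤ η := by
  set ρ := Real.sqrt η / (2 * (C + 1)) with hρ
  obtain ⟨R, hR, hd⟩ := exists_commutant_near h ξ (show 0 < ρ by positivity)
  refine ⟨η / (4 * (‖R‖ + 1) ^ 2), by positivity, fun ι _ T hT hbd hsmall => ?_⟩
  have h1 : ∀ i, ‖T i ξ‖ ^ 2 ≤ 2 * ‖T i (ξ - R Ω)‖ ^ 2 + 2 * (‖R‖ ^ 2 * ‖T i Ω‖ ^ 2) := by
    intro i
    have e : T i ξ = T i (ξ - R Ω) + R (T i Ω) := by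
      rw [← commutant_comm hR (hT i), map_sub, sub_add_cancel]
    have h2 := norm_add_le (T i (ξ - R Ω)) (R (T i Ω))
    rw [← e] at h2
    have h3 := R.le_opNorm (T i Ω)
    nlinarith [norm_nonneg (T i ξ), norm_nonneg (T i (ξ - R Ω)), norm_nonneg (R (T i Ω)),
      sq_nonneg (‖T i (ξ - R Ω)‖ - ‖R (T i Ω)‖), norm_nonneg R, norm_nonneg (T i Ω)]
  refine (Finset.sum_le_sum (fun i _ => h1 i)).trans ?_
  rw [Finset.sum_add_distrib, ← Finset.mul_sum, ← Finset.mul_sum, ← Finset.mul_sum]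
  have h4 : ‖ξ - R Ω‖ ^ 2 ≤ η / (4 * (C + 1) ^ 2) := by
    have := pow_le_pow_left₀ (norm_nonneg _) hd.le 2
    rw [hρ, div_pow, Real.sq_sqrt hη.le, mul_pow] at this
    norm_num at this
    exact this
  have h5 : C ^ 2 * ‖ξ - R Ω‖ ^ 2 ≤ η / 4 := by
    refine (mul_le_mul_of_nonneg_left h4 (sq_nonneg C)).trans ?_
    rw [mul_div_assoc', div_le_div_iff₀ (by positivity) (by norm_num)]
    nlinarith [mul_nonneg hη.le hC]
  have h6 : ‖R‖ ^ 2 * ∑ i, ‖T i Ω‖ ^ 2 ≤ η / 4 := by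
    refine (mul_le_mul_of_nonneg_left hsmall (sq_nonneg _)).trans ?_
    rw [mul_div_assoc', div_le_div_iff₀ (by positivity) (by norm_num)]
    nlinarith [mul_nonneg hη.le (norm_nonneg R)]
  linarith [hbd (ξ - R Ω)]

/-- A bounded net which tends to zero at `Ω` tends to zero strongly. -/
lemma tendsto_apply_zero {ι : Type*} {l : Filter ι} {T : ι → (H →L[ℂ] H)} {C : ℝ}
    (hT : ∀ i, T i ∈ M) (hC : ∀ i, ‖T i‖ ≤ C)
    (h0 : Tendsto (fun i => T i Ω) l (𝓝 0)) (ξ : H) : Tendsto (fun i => T i ξ) l (𝓝 0) := by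
  rw [Metric.tendsto_nhds]
  intro η hη
  obtain ⟨R, hR, hd⟩ := exists_commutant_near h ξ
    (show 0 < η / (2 * (|C| + 1)) by positivity)
  have h1 := (Metric.tendsto_nhds.1 h0) (η / (2 * (‖R‖ + 1))) (by positivity)
  filter_upwards [h1] with i hi
  rw [dist_zero_right] at hi ⊢
  have e : T i ξ = T i (ξ - R Ω) + R (T i Ω) := by
    rw [← commutant_comm hR (hT i), map_sub, sub_add_cancel]
  rw [e]
  have a1 : ‖T i (ξ - R Ω)‖ < η / 2 := by
    refine ((T i).le_opNorm _).trans_lt ?_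
    calc ‖T i‖ * ‖ξ - R Ω‖ ≤ (|C| + 1) * ‖ξ - R Ω‖ := by
          refine mul_le_mul_of_nonneg_right ?_ (norm_nonneg _)
          linarith [hC i, le_abs_self C]
      _ < (|C| + 1) * (η / (2 * (|C| + 1))) := mul_lt_mul_of_pos_left hd (by positivity)
      _ = η / 2 := by field_simp
  have a2 : ‖R (T i Ω)‖ ≤ η / 2 := by
    refine (R.le_opNorm _).trans ?_
    calc ‖R‖ * ‖T i Ω‖ ≤ (‖R‖ + 1) * (η / (2 * (‖R‖ + 1))) :=
          mul_le_mul (by linarith) hi.le (norm_nonneg _) (by positivity)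
      _ = η / 2 := by field_simp
  linarith [norm_add_le (T i (ξ - R Ω)) (R (T i Ω))]

lemma tendsto_apply {ι : Type*} {l : Filter ι} {T : ι → (H →L[ℂ] H)} {z : H →L[ℂ] H} {C : ℝ}
    (hT : ∀ i, T i ∈ M) (hz : z ∈ M) (hC : ∀ i, ‖T i‖ ≤ C)
    (h0 : Tendsto (fun i => T i Ω) l (𝓝 (z Ω))) (ξ : H) :
    Tendsto (fun i => T i ξ) l (𝓝 (z ξ)) := by
  have := tendsto_apply_zero h (T := fun i => T i - z) (C := C + ‖z‖)
    (fun i => sub_mem (hT i) hz)
    (fun i => (norm_sub_le _ _).trans (by linarith [hC i]))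
    (by simpa using h0.sub_const (z Ω)) ξ
  simpa using this.add_const (z ξ)

/-- Products of bounded nets converging at `Ω` converge. -/
lemma tendsto_mul {ι : Type*} {l : Filter ι} {b c : ι → (H →L[ℂ] H)} {z w : H →L[ℂ] H} {R : ℝ}
    (hb : ∀ n, b n ∈ M) (hz : z ∈ M) (hR : ∀ n, ‖b n‖ ≤ R)
    (hbz : Tendsto (fun n => b n Ω) l (𝓝 (z Ω))) (hcw : Tendsto (fun n => c n Ω) l (𝓝 (w Ω))) :
    Tendsto (fun n => (b n * c n) Ω) l (𝓝 ((z * w) Ω)) := by
  have h1 := tendsto_apply h hb hz hR hbz (w Ω)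
  have h2 : Tendsto (fun n => b n (c n Ω - w Ω)) l (𝓝 0) := by
    refine squeeze_zero_norm (a := fun n => R * ‖c n Ω - w Ω‖)
      (fun n => ((b n).le_opNorm _).trans (mul_le_mul_of_nonneg_right (hR n) (norm_nonneg _))) ?_
    simpa using (hcw.sub_const (w Ω)).norm.const_mul R
  have h3 := h2.add h1
  rw [zero_add] at h3
  exact h3.congr (fun n => by simp)

lemma eq_of_tendsto {ι : Type*} {l : Filter ι} [l.NeBot] {f : ι → H} {z w : H →L[ℂ] H}
    (hz : z ∈ M) (hw : w ∈ M) (h1 : Tendsto f l (𝓝 (z Ω))) (h2 : Tendsto f l (𝓝 (w Ω))) :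
    z = w :=
  sub_eq_zero.1 (h.faithful _ (sub_mem hz hw) (by simp [tendsto_nhds_unique h1 h2]))

omit h in
/-- A bounded sequence which is Cauchy at `Ω` has a limit in `M`. -/
lemma exists_limit {b : ℕ → (H →L[ℂ] H)} (hb : ∀ n, b n ∈ M) {R : ℝ} (hR : ∀ n, ‖b n‖ ≤ R)
    (hC : CauchySeq (fun n => b n Ω)) :
    ∃ z ∈ M, ‖z‖ ≤ R ∧ Tendsto (fun n => b n Ω) atTop (𝓝 (z Ω)) ∧
      ((∀ n, IsSelfAdjoint (b n)) → IsSelfAdjoint z) := by
  obtain ⟨z, hz⟩ := exists_weak_limit b hR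
  obtain ⟨L, hL⟩ := cauchySeq_tendsto_of_complete hC
  have hR0 : 0 ≤ R := (norm_nonneg _).trans (hR 0)
  refine ⟨z, weak_limit_mem hb hz, ?_, ?_, fun hs => weak_limit_sa hs hz⟩
  · refine ContinuousLinearMap.opNorm_le_of_re_inner_le hR0 (fun v w hv hw => ?_)
    refine (Complex.re_le_norm _).trans ?_
    refine le_of_tendsto' (hz v w).norm (fun n => ?_)
    refine (norm_inner_le_norm _ _).trans ?_
    rw [hw, mul_one]
    simpa [hv] using norm_sum_apply_le (hR n) v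
  · have : z Ω = L := by
      refine ext_inner_right ℂ (fun w => tendsto_nhds_unique (hz Ω w) ?_)
      exact ((hL.mono_left Nat.hyperfilter_le_atTop).inner tendsto_const_nhds)
    rw [this]
    exact hL

/-- A bounded limit at `Ω` of elements of `A` lies in `A`. -/
lemma exists_limit_A {b : ℕ → (H →L[ℂ] H)} (hb : ∀ n, b n ∈ A) {R : ℝ} (hR : ∀ n, ‖b n‖ ≤ R)
    (hC : CauchySeq (fun n => b n Ω)) :
    ∃ z ∈ A, ‖z‖ ≤ R ∧ Tendsto (fun n => b n Ω) atTop (𝓝 (z Ω)) ∧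
      ((∀ n, IsSelfAdjoint (b n)) → IsSelfAdjoint z) := by
  have hbM := fun n => h.masa.mem_M (hb n)
  obtain ⟨z, hzM, hzR, hz, hsa⟩ := exists_limit hbM hR hC
  refine ⟨z, h.masa.mem_of_commute (fun a ha => ?_)
    (fun m hm => commute_of_mem_centralizer hzM hm), hzR, hz, hsa⟩
  have haM := h.masa.mem_M ha
  refine eq_of_tendsto h (mul_mem haM hzM) (mul_mem hzM haM)
    (tendsto_mul h (b := fun _ => a) (c := b) (fun _ => haM) haM (fun _ => le_rfl)
      tendsto_const_nhds hz) ?_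
  refine (tendsto_mul h (b := b) (c := fun _ => a) hbM hzM hR hz tendsto_const_nhds).congr
    (fun n => ?_)
  rw [h.masa.comm ha (hb n)]

/-- Orthogonality from the right for projections of `A`. -/
lemma norm_sq_sum_right {ι : Type*} (s : Finset ι) (x : ι → (H →L[ℂ] H)) (hxA : ∀ i, x i ∈ A)
    (hx : ∀ i, IsStarProjection (x i)) (ho : ∀ i j, i ≠ j → x i * x j = 0) {z : H →L[ℂ] H}
    (hz : z ∈ M) : ‖(z * ∑ i ∈ s, x i) Ω‖ ^ 2 = ∑ i ∈ s, ‖(z * x i) Ω‖ ^ 2 := by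
  rw [Finset.mul_sum, _root_.sum_apply]
  refine norm_sq_sum_orth s _ (fun i _ j _ hij => ?_)
  rw [inner_apply, star_mul, (hx i).isSelfAdjoint.star_eq, mul_assoc,
    h.central _ (hxA i) _ (mul_mem (star_mem hz) (mul_mem hz (h.masa.mem_M (hxA j)))),
    mul_assoc, mul_assoc, h.masa.comm (hxA j) (hxA i), ho i j hij, mul_zero, mul_zero]
  simp

lemma norm_sq_sum_right_le {ι : Type*} (s : Finset ι) (x : ι → (H →L[ℂ] H)) (hxA : ∀ i, x i ∈ A)
    (hx : ∀ i, IsStarProjection (x i)) (ho : ∀ i j, i ≠ j → x i * x j = 0) {z : H →L[ℂ] H}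
    (hz : z ∈ M) : ∑ i ∈ s, ‖(z * x i) Ω‖ ^ 2 ≤ ‖z Ω‖ ^ 2 := by
  rw [← norm_sq_sum_right h s x hxA hx ho hz]
  set p := ∑ i ∈ s, x i with hp
  have hpA : p ∈ A := sum_mem (fun i _ => hxA i)
  have hpp : IsStarProjection p := sum_isStarProjection s x hx ho
  have h2 := norm_sq_sum_right h (Finset.univ : Finset (Fin 2)) ![p, 1 - p]
    (fun i => by fin_cases i; exacts [hpA, sub_mem (one_mem A) hpA])
    (fun i => by fin_cases i; exacts [hpp, hpp.one_sub])
    (fun i j hij => by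
      have e1 : p * (1 - p) = 0 := by rw [mul_sub, mul_one, hpp.isIdempotentElem.eq, sub_self]
      fin_cases i <;> fin_cases j <;> first
        | exact absurd rfl hij
        | exact e1
        | (simpa using (h.masa.comm (sub_mem (one_mem A) hpA) hpA).trans e1)) hz
  simp only [Fin.sum_univ_two, Matrix.cons_val_zero, Matrix.cons_val_one, add_sub_cancel,
    mul_one] at h2
  rw [h2]
  linarith [sq_nonneg ‖(z * (1 - p)) Ω‖]

lemma norm_mul_proj_le {z x : H →L[ℂ] H} (hz : z ∈ M) (hxA : x ∈ A) (hx : IsStarProjection x) :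
    ‖(z * x) Ω‖ ≤ ‖z Ω‖ := by
  refine (sq_le_sq₀ (norm_nonneg _) (norm_nonneg _)).1 ?_
  simpa using norm_sq_sum_right_le h (Finset.univ : Finset Unit) (fun _ => x) (fun _ => hxA)
    (fun _ => hx) (fun i j hij => absurd (Subsingleton.elim i j) hij) hz

lemma inner_pinch_apply (P : Part A) (x : H →L[ℂ] H) {y : H →L[ℂ] H} (hy : y ∈ M) (hx : x ∈ M) :
    ⟪P.pinch x Ω, y Ω⟫ = ⟪x Ω, P.pinch y Ω⟫ := by
  simp only [Part.pinch, _root_.sum_apply, sum_inner, inner_sum]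
  refine Finset.sum_congr rfl (fun i _ => ?_)
  have hi : P.e i ∈ M := h.masa.mem_M (P.mem i)
  rw [inner_apply, inner_apply]
  simp only [star_mul, (P.proj i).isSelfAdjoint.star_eq, mul_assoc]
  rw [h.central _ (P.mem i) _ (mul_mem (star_mem hx) (mul_mem hi hy))]
  simp only [mul_assoc]

omit h in
lemma pinch_pinch (hA : IsMASAIn M A) {P Q : Part A} (hPQ : P ≤ Q) (x : H →L[ℂ] H) :
    Q.pinch (P.pinch x) = Q.pinch x := by
  simp only [Part.pinch, Finset.mul_sum, Finset.sum_mul]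
  refine Finset.sum_congr rfl (fun j _ => ?_)
  obtain ⟨i, hi⟩ := hPQ j
  have hi' : Q.e j * P.e i = Q.e j := (hA.comm (Q.mem j) (P.mem i)).trans hi
  rw [Finset.sum_eq_single i]
  · simp only [← mul_assoc, hi']
    simp only [mul_assoc, hi]
  · intro k _ hk
    have : Q.e j * P.e k = 0 := by
      rw [← hi', mul_assoc, P.orth i k hk.symm, mul_zero]
    simp only [← mul_assoc, this, zero_mul]
  · simp

omit h in
lemma pinch_idem (hA : IsMASAIn M A) (P : Part A) (x : H →L[ℂ] H) :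
    P.pinch (P.pinch x) = P.pinch x :=
  pinch_pinch hA le_rfl x

lemma norm_sq_pinch_sub {P Q : Part A} (hPQ : P ≤ Q) {x : H →L[ℂ] H} (hx : x ∈ M) :
    ‖(P.pinch x - Q.pinch x) Ω‖ ^ 2 = ‖P.pinch x Ω‖ ^ 2 - ‖Q.pinch x Ω‖ ^ 2 := by
  have h1 : ⟪Q.pinch x Ω, P.pinch x Ω⟫ = ⟪Q.pinch x Ω, Q.pinch x Ω⟫ := by
    have hPM := pinch_mem h.masa hx P
    have hQM := pinch_mem h.masa hx Q
    calc ⟪Q.pinch x Ω, P.pinch x Ω⟫ = ⟪Q.pinch (Q.pinch x) Ω, P.pinch x Ω⟫ := by
          rw [pinch_idem h.masa]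
      _ = ⟪Q.pinch x Ω, Q.pinch (P.pinch x) Ω⟫ := inner_pinch_apply h Q _ hPM hQM
      _ = _ := by rw [pinch_pinch h.masa hPQ]
  rw [sub_apply, norm_sub_sq (𝕜 := ℂ), inner_re_symm, h1]
  rw [← @norm_sq_eq_re_inner ℂ]
  ring

lemma norm_pinch_apply_le (P : Part A) {x : H →L[ℂ] H} (hx : x ∈ M) :
    ‖P.pinch x Ω‖ ≤ ‖x Ω‖ := by
  have e : P.pinch x Ω = ∑ i, P.e i ((x * P.e i) Ω) := by
    simp [Part.pinch, _root_.sum_apply]
  refine (sq_le_sq₀ (norm_nonneg _) (norm_nonneg _)).1 ?_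
  rw [e, norm_sq_sum_left Finset.univ P.e P.proj P.orth (fun i => (x * P.e i) Ω)]
  exact (Finset.sum_le_sum (fun i _ =>
    pow_le_pow_left₀ (norm_nonneg _) (proj_norm_le (P.proj i) _) 2)).trans
    (norm_sq_sum_right_le h Finset.univ P.e P.mem P.proj P.orth hx)

/-- Pinchings converge at `Ω` to `plim`. -/
lemma tendsto_pinch {x : H →L[ℂ] H} (hx : x ∈ M) {η : ℝ} (hη : 0 < η) :
    ∃ P0 : Part A, ∀ P, P0 ≤ P → ‖(P.pinch x - plim h.masa x) Ω‖ ≤ η := by
  set S : Set ℝ := Set.range (fun P : Part A => ‖P.pinch x Ω‖ ^ 2) with hS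
  have hbd : BddBelow S := ⟨0, by rintro _ ⟨P, rfl⟩; positivity⟩
  obtain ⟨_, ⟨P0, rfl⟩, hP0⟩ := exists_lt_of_csInf_lt (Set.range_nonempty _)
    (show sInf S < sInf S + η ^ 2 by nlinarith)
  refine ⟨P0, fun P hP => ?_⟩
  have hev : ∀ᶠ Q in (uf h.masa : Filter (Part A)), ‖(P.pinch x - Q.pinch x) Ω‖ ≤ η := by
    filter_upwards [eventually_finer h.masa P] with Q hQ
    refine (sq_le_sq₀ (norm_nonneg _) hη.le).1 ?_
    rw [norm_sq_pinch_sub h hQ hx]
    have h1 := norm_sq_pinch_sub h hP hx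
    have h2 := csInf_le hbd ⟨Q, rfl⟩
    have h3 := sq_nonneg ‖(P0.pinch x - P.pinch x) Ω‖
    linarith
  have key : ∀ w, ‖⟪(P.pinch x - plim h.masa x) Ω, w⟫‖ ≤ η * ‖w‖ := by
    intro w
    refine le_of_tendsto (f := fun Q : Part A => ‖⟪(P.pinch x - Q.pinch x) Ω, w⟫‖)
      (x := (uf h.masa : Filter (Part A))) ?_ ?_
    · simp only [sub_apply, inner_sub_left]
      exact (tendsto_const_nhds.sub (tendsto_plim h.masa x Ω w)).norm
    · filter_upwards [hev] with Q hQ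
      exact (norm_inner_le_norm _ _).trans (mul_le_mul_of_nonneg_right hQ (norm_nonneg _))
  set v := (P.pinch x - plim h.masa x) Ω
  rcases eq_or_ne v 0 with h0 | h0
  · rw [h0, norm_zero]; exact hη.le
  have h1 := key v
  rw [inner_self_eq_norm_sq_to_K] at h1
  simp only [Complex.coe_algebraMap, norm_pow, Complex.norm_real, norm_norm] at h1
  exact le_of_mul_le_mul_right (by rw [← sq]; exact h1) (norm_pos_iff.2 h0)

lemma tendsto_pinch_uf {x : H →L[ℂ] H} (hx : x ∈ M) :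
    Tendsto (fun P : Part A => P.pinch x Ω) (uf h.masa) (𝓝 (plim h.masa x Ω)) := by
  rw [Metric.tendsto_nhds]
  intro η hη
  obtain ⟨P0, hP0⟩ := tendsto_pinch h hx (half_pos hη)
  filter_upwards [eventually_finer h.masa P0] with P hP
  rw [dist_eq_norm, ← sub_apply]
  exact lt_of_le_of_lt (hP0 P hP) (half_lt_self hη)

lemma tau_plim {X : H →L[ℂ] H} (hX : X ∈ M) : ⟪Ω, plim h.masa X Ω⟫ = ⟪Ω, X Ω⟫ := by
  have h1 : ∀ P : Part A, ⟪P.pinch X Ω, Ω⟫ = ⟪X Ω, Ω⟫ := fun P => by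
    simpa [pinch_of_mem h.masa (one_mem A)] using inner_pinch_apply h P X (one_mem M) hX
  have h2 : ⟪plim h.masa X Ω, Ω⟫ = ⟪X Ω, Ω⟫ :=
    tendsto_nhds_unique (tendsto_plim h.masa X Ω Ω)
      (tendsto_const_nhds.congr (fun P => (h1 P).symm))
  rw [← inner_conj_symm, h2, inner_conj_symm]

omit h in
lemma pos_plim (hA : IsMASAIn M A) {X : H →L[ℂ] H} (hX : Pos X) : Pos (plim hA X) := by
  refine ⟨plim_isSelfAdjoint hA hX.1, fun v => ?_⟩
  rw [← RCLike.re_to_complex, inner_re_symm, RCLike.re_to_complex]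
  refine ge_of_tendsto' ((Complex.continuous_re.tendsto _).comp (tendsto_plim hA X v v))
    (fun P => ?_)
  simp only [Function.comp_apply, Part.pinch, _root_.sum_apply, sum_inner, Complex.re_sum]
  refine Finset.sum_nonneg (fun i _ => ?_)
  change 0 ≤ (⟪P.e i (X (P.e i v)), v⟫).re
  rw [sa_inner (P.proj i).isSelfAdjoint, ← RCLike.re_to_complex, inner_re_symm,
    RCLike.re_to_complex]
  exact hX.2 _

/-- An element of `A` orthogonal at `Ω` to all elements of `A` vanishes. -/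
lemma eq_zero_of_orth_A {a : H →L[ℂ] H} (ha : a ∈ A)
    (h0 : ∀ b ∈ A, ⟪b Ω, a Ω⟫ = 0) : a = 0 :=
  h.faithful _ (h.masa.mem_M ha) (inner_self_eq_zero.1 (h0 a ha))

lemma eq_of_tau_A {a b : H →L[ℂ] H} (ha : a ∈ A) (hb : b ∈ A)
    (h0 : ∀ c ∈ A, ⟪Ω, (c * a) Ω⟫ = ⟪Ω, (c * b) Ω⟫) : a = b := by
  refine sub_eq_zero.1 (eq_zero_of_orth_A h (sub_mem ha hb) (fun c hc => ?_))
  rw [inner_apply, mul_sub, sub_apply, inner_sub_right, h0 _ (star_mem hc), sub_self]

/-- `plim` vanishes iff the functional vanishes against `A`. -/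
lemma plim_eq_zero_iff {X : H →L[ℂ] H} (hX : X ∈ M) :
    plim h.masa X = 0 ↔ ∀ a ∈ A, ⟪Ω, (a * X) Ω⟫ = 0 := by
  refine ⟨fun h0 a ha => ?_, fun h0 => ?_⟩
  · rw [← tau_plim h (mul_mem (h.masa.mem_M ha) hX), plim_mul_left h.masa ha, h0, mul_zero,
      zero_apply, inner_zero_right]
  · refine eq_of_tau_A h (plim_mem h.masa hX) (zero_mem A) (fun c hc => ?_)
    rw [← plim_mul_left h.masa hc, tau_plim h (mul_mem (h.masa.mem_M hc) hX), h0 c hc, mul_zero,
      zero_apply, inner_zero_right]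

/-- `plim` is faithful on positive elements. -/
lemma eq_zero_of_plim_star_mul {s : H →L[ℂ] H} (hs : s ∈ M)
    (h0 : plim h.masa (star s * s) = 0) : s = 0 := by
  refine h.faithful s hs (inner_self_eq_zero (𝕜 := ℂ).1 ?_)
  rw [inner_apply, ← tau_plim h (mul_mem (star_mem hs) hs), h0, zero_apply, inner_zero_right]

end Vale.Agent.P078.TypeIII
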